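import Vale.Agent.P277Z.Coh.FtS
import Vale.Agent.P281.R2.H877.Pb1

/-!
# P277, block COH: the metric of Fubini and Study is positive
-/

open scoped Manifold ContDiff Topology ComplexOrder
open Vale.Agent.P272.K Vale.Agent.P285.H281.FD Set Filter
open Vale.Agent.P277.PH Vale.Agent.P277Z.Pj Vale.Agent.P281.R2.H877.PB

noncomputable section

namespace Vale.Agent.P277Z.Coh

theorem fs_pos {n : ℕ} {A : Type} [Fintype A] {z : Cm n} {F : A → Cm n → ℂ}
    (hF : ∀ a, AnalyticAt ℂ (F a) z) {k : A} (hk : F k z ≠ 0)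
    (himm : ∀ v : Cm n, (∀ j, fderiv ℂ (fun y => F j y / F k y) z v = 0) → v = 0) :
    (cHess (fun y => Real.log (∑ a, ‖F a y‖ ^ 2)) z).PosDef := by
  have h1 := lse_posDef (F := F) (φ := fun _ _ => (0 : ℝ)) (z := z)
    (B := (0 : Matrix (Fin n) (Fin n) ℂ)) (fun a => (hF a).contDiffAt) (fun a => contDiffAt_const)
    (fun a => ?_) ⟨k, hk⟩ ?_
  · simpa only [add_zero, Real.exp_zero, mul_one] using h1
  · rw [C2.cHess_const, add_zero]
    exact Matrix.PosSemidef.zero
  · intro _ v _ hab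
    have hd : ∀ a, DifferentiableAt ℂ (F a) z := fun a => (hF a).differentiableAt
    have h3 : ∀ b, ∑ j, v j * PP F (fun _ _ => (0 : ℝ)) z b j = fderiv ℂ (F b) z v := by
      intro b
      conv_rhs => rw [pi_eq_sum_univ' v, map_sum]
      refine Finset.sum_congr rfl fun q _ => ?_
      have h4 : dz q (fun _ : Cm n => (((0 : ℝ)) : ℂ)) z = 0 := by simp [dz]
      simp only [PP]
      rw [h4, mul_zero, add_zero, dz_of_holo (hd b), map_smul, smul_eq_mul]
    simp only [h3] at hab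
    refine himm v fun j => ?_
    have hq : DifferentiableAt ℂ (fun y => F j y / F k y) z :=
      ((hF j).fun_div (hF k) hk).differentiableAt
    have h5 : F j =ᶠ[𝓝 z] fun y => (F j y / F k y) * F k y := by
      filter_upwards [(hF k).continuousAt.eventually_ne hk] with y hy
      rw [div_mul_cancel₀ _ hy]
    have h6 : fderiv ℂ (F j) z v =
        (F j z / F k z) * fderiv ℂ (F k) z v + F k z * fderiv ℂ (fun y => F j y / F k y) z v := by
      rw [h5.fderiv_eq, fderiv_fun_mul hq (hd k)]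
      simp
    refine mul_left_cancel₀ hk (mul_left_cancel₀ hk ?_)
    have h7 := hab k j
    rw [h6, mul_add, ← mul_assoc, mul_div_cancel₀ _ hk] at h7
    linear_combination h7

theorem vap : VAP := by
  intro n W _ _ _ N O t A m σ hO ht hA hV
  let c : Option (Fin N) → W → ℂ := fun k w => k.elim 1 (t w)
  have hc : ∀ k, ∀ x ∈ O, HolF n (c k) x := fun k x hx => by
    cases k with
    | none => exact HolF.const 1
    | some k => exact ht x hx k
  have hne : ∀ x ∈ O, ∀ {i i₀ a}, x ∈ A.U i → x ∈ A.U i₀ → σ a i₀ x ≠ 0 → σ a i x ≠ 0 :=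
    fun x hx i i₀ a hi hi₀ h => by
      rw [(hV.sec a x hx i hi).2 i₀ hi₀]
      exact mul_ne_zero (hA.ne_zero _ _ x hx hi hi₀) h
  have hpos : ∀ x ∈ O, ∀ i, x ∈ A.U i →
      0 < ∑ p : Option (Fin N) × Fin m, ‖c p.1 x * σ p.2 i x‖ ^ 2 := fun x hx i hi => by
    obtain ⟨i₀, a, hi₀, h, -⟩ := hV.imm x hx
    exact Finset.sum_pos' (fun _ _ => sq_nonneg _) ⟨(none, a), Finset.mem_univ _,
      pow_pos (norm_pos_iff.2 (mul_ne_zero one_ne_zero (hne x hx hi hi₀ h))) 2⟩
  refine ⟨fun i x => Real.log (∑ p : Option (Fin N) × Fin m, ‖c p.1 x * σ p.2 i x‖ ^ 2),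
    fun i x hx hi e he => ?_, fun i j x hx hi hj => ?_⟩
  · have hF : ∀ p : Option (Fin N) × Fin m,
        AnalyticAt ℂ (fun z => c p.1 (e.symm z) * σ p.2 i (e.symm z)) (e x) := fun p =>
      ((hc p.1 x hx).mul (hV.sec p.2 x hx i hi).1) e he
    have hx' : e.symm (e x) = x := e.left_inv he.2
    refine ⟨(ContDiffAt.sum fun p _ => (((hF p).contDiffAt (n := ∞)).restrict_scalars ℝ).norm_sq
      ℝ).log (by rw [hx']; exact (hpos x hx i hi).ne'), ?_⟩
    obtain ⟨i₀, a, hi₀, h, him⟩ := hV.imm x hx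
    have ha := hne x hx hi hi₀ h
    refine fs_pos hF (k := (none, a)) (by rw [hx']; exact mul_ne_zero one_ne_zero ha)
      fun v hv => him e he ?_
    have hs : Tendsto e.symm (𝓝 (e x)) (𝓝 x) := e.tendsto_symm he.2
    have h1 : ∀ k, fderiv ℂ (fun z => t (e.symm z) k) (e x) v = 0 := fun k => by
      rw [← hv (some k, a)]
      refine congrArg (fun L : Cm n →L[ℂ] ℂ => L v) (EventuallyEq.fderiv_eq ?_)
      filter_upwards [hs.eventually
        (((holSys n).cont (hV.sec a x hx i hi).1).eventually_ne ha)] with z hz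
      simp only [c, Option.elim, one_mul]
      rw [mul_div_cancel_right₀ _ hz]
    have h2 : ∀ b, fderiv ℂ (fun z => σ b i₀ (e.symm z) / σ a i₀ (e.symm z)) (e x) v = 0 :=
      fun b => by
        rw [← hv (none, b)]
        refine congrArg (fun L : Cm n →L[ℂ] ℂ => L v) (EventuallyEq.fderiv_eq ?_)
        filter_upwards [hs.eventually (hO.eventually_mem hx),
          hs.eventually ((hA.isOpen i).eventually_mem hi),
          hs.eventually ((hA.isOpen i₀).eventually_mem hi₀)] with z h3 h4 h5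
        simp only [c, Option.elim, one_mul]
        rw [(hV.sec a _ h3 i h4).2 i₀ h5, (hV.sec b _ h3 i h4).2 i₀ h5,
          mul_div_mul_left _ _ (hA.ne_zero _ _ _ h3 h4 h5)]
    have h3 := (hasFDerivAt_pi.2 fun k => (ht x hx k e he).differentiableAt.hasFDerivAt).prodMk
      (hasFDerivAt_pi.2 fun b => (((hV.sec b x hx i₀ hi₀).1 e he).fun_div
        ((hV.sec a x hx i₀ hi₀).1 e he) (by rwa [hx'])).differentiableAt.hasFDerivAt)
    rw [map_zero, h3.fderiv]
    exact Prod.ext (funext h1) (funext h2)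
  · have h1 : ∑ p : Option (Fin N) × Fin m, ‖c p.1 x * σ p.2 i x‖ ^ 2 =
        ‖A.g i j x‖ ^ 2 * ∑ p : Option (Fin N) × Fin m, ‖c p.1 x * σ p.2 j x‖ ^ 2 := by
      rw [Finset.mul_sum]
      refine Finset.sum_congr rfl fun p _ => ?_
      rw [(hV.sec p.2 x hx i hi).2 j hj, mul_left_comm, norm_mul, mul_pow]
    rw [h1, Real.log_mul (pow_ne_zero 2 (norm_ne_zero_iff.2 (hA.ne_zero _ _ x hx hi hj)))
      (hpos x hx j hj).ne', add_comm]

end Vale.Agent.P277Z.Coh
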