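import Vale.Agent.P277Z.Coh.Rel
import Vale.Agent.P277Z.Pj.Defs

/-!
# P277, block COH: direct images of line bundles under proper maps from manifolds (statements)
-/

open scoped Manifold ContDiff Topology ComplexOrder
open Vale.Agent.P272.K Vale.Agent.P285.H281.FD Set Filter
open Vale.Agent.P277.PH Vale.Agent.P277Z.Pj

noncomputable section

namespace Vale.Agent.P277Z.Coh

section

variable (n : ℕ) {W : Type} [TopologicalSpace W] [ChartedSpace (Cm n) W]

theorem holSys : HolSys (HolF n : (W → ℂ) → W → Prop) where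
  const c _ := HolF.const c
  add := HolF.add
  mul := HolF.mul
  inv {f x} h h0 e he := (h e he).inv (by rwa [e.left_inv he.2])
  congr h h' := h'.congr h
  cont {f x} h := by
    have he : At (chartAt (Cm n) x) x := ⟨chart_mem_atlas _ x, mem_chart_source _ x⟩
    refine ((h _ he).continuousAt.comp ((chartAt (Cm n) x).continuousAt he.2)).congr ?_
    filter_upwards [(chartAt (Cm n) x).open_source.mem_nhds he.2] with y hy
      using congrArg f ((chartAt (Cm n) x).left_inv hy)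

/-- `L` is a holomorphic line bundle over `O` -/
structure LBOn (O : Set W) (L : Bd W) : Prop where
  isOpen : ∀ i, IsOpen (L.U i)
  cover : ∀ x ∈ O, ∃ i, x ∈ L.U i
  holo : ∀ i j, ∀ x ∈ O, x ∈ L.U i → x ∈ L.U j → HolF n (L.g i j) x
  ne_zero : ∀ i j, ∀ x ∈ O, x ∈ L.U i → x ∈ L.U j → L.g i j x ≠ 0
  cocycle : ∀ i j k, ∀ x ∈ O, x ∈ L.U i → x ∈ L.U j → x ∈ L.U k →
    L.g i j x * L.g j k x = L.g i k x

/-- `ψ` is a smooth metric with positive curvature on `A` over `O` -/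
structure PosM (O : Set W) (A : Bd W) (ψ : A.ι → W → ℝ) : Prop where
  pos : ∀ i, ∀ x ∈ O, x ∈ A.U i → ∀ e : Chart n W, At e x →
    ContDiffAt ℝ ∞ (fun z => ψ i (e.symm z)) (e x) ∧
      (cHess (fun z => ψ i (e.symm z)) (e x)).PosDef
  change : ∀ i j, ∀ x ∈ O, x ∈ A.U i → x ∈ A.U j → ψ i x = ψ j x + Real.log (‖A.g i j x‖ ^ 2)

/-- the sections `σ a` of `A` have no common zero on `O`, and the pair of `t` and `[σ]` is an immersion -/
structure VAm (O : Set W) {N : ℕ} (t : W → Cm N) (A : Bd W) {m : ℕ}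
    (σ : Fin m → A.ι → W → ℂ) : Prop where
  sec : ∀ a, ∀ x ∈ O, ScAt (HolF n) A (σ a) x
  imm : ∀ x ∈ O, ∃ i a, x ∈ A.U i ∧ σ a i x ≠ 0 ∧
    Imm n (fun w => (t w, fun b => σ b i w / σ a i w)) x

/-- `ε` is a section of `A⁻¹` over `O` which is not zero near any point -/
structure InvS (O : Set W) (A : Bd W) (ε : A.ι → W → ℂ) : Prop where
  hol : ∀ i, ∀ x ∈ O, x ∈ A.U i → HolF n (ε i) x
  change : ∀ i j, ∀ x ∈ O, x ∈ A.U i → x ∈ A.U j → ε i x * A.g i j x = ε j x
  ne : ∀ i, ∀ x ∈ O, x ∈ A.U i → ∃ᶠ y in 𝓝 x, ε i y ≠ 0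

variable {n} in
/-- the base given by a proper map -/
def prpBase {N : ℕ} {O : Set W} {t : W → Cm N} {Ω : Set (Cm N)} (h : Prp n O t Ω) :
    Base (Cm N) W where
  Hol := HolF n
  sys := holSys n
  Om := O
  isOpen := h.isOpen
  t := t
  cont x hx := continuousAt_pi.2 fun i => (holSys n).cont (h.hol x hx i)
  comp x hx c hc e he := AnalyticAt.comp' (by rwa [e.left_inv he.2])
    (AnalyticAt.pi fun i => h.hol x hx i e he)

end

/-- **VAP**: the metric of Fubini and Study -/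
def VAP : Prop :=
  ∀ (n : ℕ) (W : Type) [TopologicalSpace W] [ChartedSpace (Cm n) W] [IsManifold 𝓘(ℂ, Cm n) ω W]
    (N : ℕ) (O : Set W) (t : W → Cm N) (A : Bd W) (m : ℕ) (σ : Fin m → A.ι → W → ℂ), IsOpen O →
    (∀ w ∈ O, ∀ i, HolF n (fun w => t w i) w) → LBOn n O A → VAm n O t A σ → ∃ ψ, PosM n O A ψ

/-- **FGS**: finite stalks, for a projective map -/
def FGS : Prop :=
  ∀ (n : ℕ) (W : Type) [TopologicalSpace W] [T2Space W] [SecondCountableTopology W]
    [ChartedSpace (Cm n) W] [IsManifold 𝓘(ℂ, Cm n) ω W]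
    (N : ℕ) (O : Set W) (t : W → Cm N) (Ω : Set (Cm N)) (h : Prp n O t Ω) (A : Bd W)
    (ψ : A.ι → W → ℝ), LBOn n O A → PosM n O A ψ → ∀ L : Bd W, LBOn n O L →
    ∀ z ∈ Ω, ((prpBase h).img L).FG z

/-- **FTS**: finite type, for a projective map which is bimeromorphic onto its image -/
def FTS : Prop :=
  AllM fun n W _ _ => ∀ (N : ℕ) (O : Set W) (t : W → Cm N) (Ω : Set (Cm N))
    (h : Bim (n + 1) O t Ω) (A : Bd W) (ψ : A.ι → W → ℝ) (ε : A.ι → W → ℂ), LBOn (n + 1) O A →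
    PosM (n + 1) O A ψ → InvS (n + 1) O A ε → ∀ L : Bd W, LBOn (n + 1) O L →
    ∀ z ∈ Ω, ((prpBase h.toPrp).img L).FT z ∧ ((prpBase h.toPrp).img L).RelFT z

end Vale.Agent.P277Z.Coh
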