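import Vale.Agent.P277Z.Coh.Pos1
import Vale.Agent.P277Z.Coh.FtS

/-!
# P277Z, block COH1 for line bundles which are defined on an open part of a manifold
-/

open scoped Manifold ContDiff ComplexOrder Topology ENNReal Matrix
open MeasureTheory Filter Set Metric TopologicalSpace

set_option linter.unusedSectionVars false

noncomputable section

namespace Vale.Agent.P277Z.C1

open Vale.Agent.P272.K Vale.Agent.P301.H599 Vale.Agent.P285Z Vale.Agent.P277Z.Van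
open Vale.Agent.P301.H98 (nrm)
open Vale.Agent.P301.H862 (powL)
open Vale.Agent.P285.H281.FD (Bd)
open Vale.Agent.P277Z.Coh (ScAt LBOn PosM prpBase holSys FGS)
open Vale.Agent.P277.PH (HolF)
open Vale.Agent.P277Z.Pj (Prp)

variable {n N : ℕ} {W : Type} [TopologicalSpace W] [ChartedSpace (Cm n) W]

namespace Op

variable {O : Opens W}

theorem chart {e' : Chart n O} {x : O} (h : At e' x) : ∃ e : Chart n W, At e (x : W) ∧
    e' x = e x ∧ ∀ᶠ z in 𝓝 (e x), ((e'.symm z : O) : W) = e.symm z := by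
  obtain ⟨y, rfl⟩ := Opens.chart_eq ⟨x⟩ h.1
  have h2 : (x : W) ∈ (chartAt (Cm n) (y : W)).source := by simpa using h.2
  refine ⟨chartAt (Cm n) (y : W), ⟨chart_mem_atlas _ _, h2⟩, rfl, ?_⟩
  filter_upwards [(OpenPartialHomeomorph.open_target _).mem_nhds
    ((chartAt (Cm n) (y : W)).map_subtype_source ⟨x⟩ h2)] with z hz
  exact (chartAt (Cm n) (y : W)).subtypeRestr_symm_apply _ hz

theorem hol_res {a : W → ℂ} {x : O} (h : HolF n a (x : W)) : HolF n (fun y : O => a y) x := by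
  intro e' he'
  obtain ⟨e, he, h1, h2⟩ := chart he'
  rw [h1]
  exact (h e he).congr (h2.mono fun z hz => by simp only [hz])

theorem spsh_res {a : W → ℝ} {x : O} (h : ∀ e : Chart n W, At e (x : W) →
    ContDiffAt ℝ ∞ (fun z => a (e.symm z)) (e x) ∧ (cHess (fun z => a (e.symm z)) (e x)).PosDef)
    {e' : Chart n O} (he' : At e' x) : ContDiffAt ℝ ∞ (fun z => a (e'.symm z : O)) (e' x) ∧
      (cHess (fun z => a (e'.symm z : O)) (e' x)).PosDef := by
  obtain ⟨e, he, h1, h2⟩ := chart he'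
  have h3 : (fun z => a (e'.symm z : O)) =ᶠ[𝓝 (e x)] fun z => a (e.symm z) :=
    h2.mono fun z hz => by simp only [hz]
  rw [h1]
  exact ⟨(h e he).1.congr_of_eventuallyEq h3, by rw [C2.cHess_congr h3]; exact (h e he).2⟩

theorem hol_ext [IsManifold 𝓘(ℂ, Cm n) ω W] {a : W → ℂ} {x : O}
    (h : HolF n (fun y : O => a y) x) : HolF n a (x : W) := by
  obtain ⟨e, he, h1, h2⟩ := chart (n := n) (at_ch x)
  have h3 := h _ (at_ch x)
  rw [h1] at h3
  have h4 : AnalyticAt ℂ (fun z => a (e.symm z)) (e x) :=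
    h3.congr (h2.mono fun z hz => by simp only [hz])
  intro c hc
  have k : AnalyticAt ℂ (fun z => e (c.symm z)) (c x) := (transition hc he).analyticAt
  have h5 : AnalyticAt ℂ (fun z => a (e.symm z)) (e (c.symm (c x))) := by rwa [hc.left_inv]
  refine (h5.fun_comp (f := fun z => e (c.symm z)) k).congr ?_
  filter_upwards [ev_ch hc (e.open_source.eventually_mem he.2)] with z hz
  simp [e.left_inv hz]

/-- the restriction of a line bundle -/
def res {S : Set W} {L : Bd W} (h : LBOn n S L) (hs : (O : Set W) ⊆ S) : LineBundle n O L.ι where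
  U i := Subtype.val ⁻¹' L.U i
  isOpen i := (h.isOpen i).preimage continuous_subtype_val
  cover x := h.cover x (hs x.2)
  g i j x := L.g i j x
  holo i j e x hx hi hj := hol_res (h.holo i j x (hs x.2) hi hj) e hx
  ne_zero i j x := h.ne_zero i j x (hs x.2)
  cocycle i j k x := h.cocycle i j k x (hs x.2)

variable (O) in
/-- the restriction of the data of a line bundle -/
def resB (L : Bd W) : Bd O := ⟨L.ι, fun i => Subtype.val ⁻¹' L.U i, fun i j x => L.g i j x⟩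

open Classical in
/-- extension by zero -/
def ext {ι : Type} (s : ι → O → ℂ) (i : ι) (w : W) : ℂ := if h : w ∈ O then s i ⟨w, h⟩ else 0

theorem ext_val {ι : Type} (s : ι → O → ℂ) (i : ι) (x : O) : ext s i x = s i x := dif_pos x.2

theorem scAt_res {L : Bd W} {s : L.ι → W → ℂ} {x : O} (h : ScAt (HolF n) L s x) :
    ScAt (HolF n) (resB O L) (fun i y => s i y) x := fun i hi => ⟨hol_res (h i hi).1, (h i hi).2⟩

theorem scAt_ext [IsManifold 𝓘(ℂ, Cm n) ω W] {L : Bd W} {s : L.ι → O → ℂ} {x : O}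
    (h : ScAt (HolF n) (resB O L) s x) : ScAt (HolF n) L (ext s) x := fun i hi =>
  ⟨hol_ext (by
    have : (fun y : O => ext s i y) = s i := funext (ext_val s i)
    rw [this]
    exact (h i hi).1), fun j hj => by
    rw [ext_val, ext_val]
    exact (h i hi).2 j hj⟩

variable {S : Set W} {t : W → Cm N} {Ω : Set (Cm N)} (h : Prp n S t Ω) (z : Cm N) (R : ℝ)

/-- the tube as an open set -/
def tb : Opens W := ⟨S ∩ t ⁻¹' ball z R,
  ContinuousOn.isOpen_inter_preimage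
    (fun x hx => ((prpBase h).cont x hx).continuousWithinAt) h.isOpen isOpen_ball⟩

theorem tb_sub : (tb h z R : Set W) ⊆ S := inter_subset_left

variable {z R}

theorem prp (hb : ball z R ⊆ Ω) : Prp n (univ : Set (tb h z R)) (fun x => t x) (ball z R) where
  isOpen := isOpen_univ
  isOpen' := isOpen_ball
  hol w _ i := hol_res (a := fun y => t y i) (h.hol w w.2.1 i)
  maps w _ := w.2.2
  proper K hs hK := by
    rw [Subtype.isCompact_iff]
    convert h.proper K (hs.trans hb) hK using 1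
    ext w
    exact ⟨fun ⟨x, hx, h1⟩ => h1 ▸ ⟨x.2.1, hx.2⟩,
      fun hw => ⟨⟨w, hw.1, hs hw.2⟩, ⟨trivial, hw.2⟩, rfl⟩⟩

/-- the proper base on the tube -/
def pb (hb : ball z R ⊆ Ω) : PB n (tb h z R) N :=
  ⟨univ, fun x => t x, z, R, isOpen_univ, fun k e x hx _ => (prp h hb).hol x trivial k e hx,
    fun K hK hs => (prp h hb).proper K hs hK⟩

variable {h} {hb : ball z R ⊆ Ω} {y : Cm N}

theorem near_res {P : W → Prop} (hP : (prpBase h).Near y P) :
    (prpBase (prp h hb)).Near y fun x => P x := Eventually.mono hP fun _ h1 x _ h2 => h1 x x.2.1 h2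

theorem near_ext (hy : y ∈ ball z R) {P : W → Prop}
    (hP : (prpBase (prp h hb)).Near y fun x => P x) : (prpBase h).Near y P := by
  filter_upwards [hP, isOpen_ball.mem_nhds hy] with y' h1 h2 w hw ht
  exact h1 ⟨w, hw, show t w ∈ ball z R from (show t w = y' from ht) ▸ h2⟩ trivial ht

theorem gen_ext [IsManifold 𝓘(ℂ, Cm n) ω W] (hy : y ∈ ball z R) {L : Bd W} {m : ℕ}
    {e : Fin m → L.ι → tb h z R → ℂ} (hg : ((prpBase (prp h hb)).img (resB _ L)).Gen y e) :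
    ((prpBase h).img L).Gen y fun j => ext (e j) := by
  obtain ⟨h1, h2⟩ := (Coh.Base.gen_img_iff (L := resB _ L) e).1 hg
  refine (Coh.Base.gen_img_iff _).2 ⟨fun j => near_ext (hb := hb) hy
    ((h1 j).mono fun x _ hx => scAt_ext hx), fun s hs => ?_⟩
  obtain ⟨c, hc, h3⟩ := h2 (fun i x => s i x)
    ((near_res (hb := hb) hs).mono fun x _ hx => scAt_res hx)
  refine ⟨c, hc, near_ext (hb := hb) hy (h3.mono fun x _ hx i hi => (hx i hi).trans ?_)⟩
  exact Finset.sum_congr rfl fun j _ => congrArg (_ * ·) (ext_val (e j) i x).symm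

theorem fg_ext [IsManifold 𝓘(ℂ, Cm n) ω W] (hy : y ∈ ball z R) {L : Bd W}
    (hg : ((prpBase (prp h hb)).img (resB _ L)).FG y) : ((prpBase h).img L).FG y :=
  let ⟨m, _, he⟩ := hg
  ⟨m, _, gen_ext (hb := hb) hy he⟩

theorem ft_ext [IsManifold 𝓘(ℂ, Cm n) ω W] (hy : y ∈ ball z R) {L : Bd W}
    (hg : ((prpBase (prp h hb)).img (resB _ L)).FT y) : ((prpBase h).img L).FT y :=
  let ⟨m, _, he⟩ := hg
  ⟨m, _, (he.and (isOpen_ball.eventually_mem hy)).mono fun _ h1 => gen_ext (hb := hb) h1.2 h1.1⟩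

theorem cov_res {L : Bd W} (hL : LBOn n S L) : Coh.Base.Cov (resB (tb h z R) L) :=
  ⟨fun i => (hL.isOpen i).preimage continuous_subtype_val, fun x => hL.cover x x.2.1⟩

variable {A L : Bd W} {ψ : A.ι → W → ℝ}

theorem metric (hA : LBOn n S A) (hψ : PosM n S A ψ) :
    IsMetric (res hA (tb_sub h z R)) fun i x => ψ i x :=
  ⟨fun i _ x hx hi => (spsh_res (hψ.pos i x x.2.1 hi) hx).1, fun i j x => hψ.change i j x x.2.1⟩

theorem pdOn [IsManifold 𝓘(ℂ, Cm n) ω W] (hA : LBOn n S A) (hψ : PosM n S A ψ)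
    (T : Set (tb h z R)) : PDOn T (curvature (res hA (tb_sub h z R)) fun i x => ψ i x) := by
  intro e x hx _
  obtain ⟨i, hi⟩ := hA.cover x x.2.1
  rw [curvature_eq (metric hA hψ) hx (i := i) hi]
  exact (spsh_res (hψ.pos i x x.2.1 hi) hx).2

variable [IsManifold 𝓘(ℂ, Cm n) ω W] [T2Space W] [SecondCountableTopology W]

theorem ft_tb (hc : Coh1AStmt) (hR : 0 < R) (hA : LBOn n S A) (hψ : PosM n S A ψ)
    (hL : LBOn n S L) : ∃ k₀ : ℕ, ∀ k, k₀ ≤ k →
      ((prpBase (prp h hb)).img (resB _ (L.mul (A.pow k)))).FT z := by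
  have : LocallyCompactSpace (tb h z R) := ChartedSpace.locallyCompactSpace (Cm n) _
  obtain ⟨k₀, hk⟩ := hc n _ _ _ _ (metric hA hψ) N (pb h hb) (pdOn hA hψ _) _
    (res hL (tb_sub h z R)) (R / 4) (R / 2) (by linarith) (half_lt_self hR)
  refine ⟨k₀, fun k hk0 => ?_⟩
  obtain ⟨m, e, he, hg⟩ := hk k hk0
  refine ⟨m, e, ?_⟩
  filter_upwards [ball_mem_nhds z (show 0 < R / 4 by linarith)] with y hy
  have hy2 : ball z (R / 2) ∈ 𝓝 y := isOpen_ball.mem_nhds (ball_subset_ball (by linarith) hy)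
  refine (Coh.Base.gen_img_iff (L := resB _ (L.mul (A.pow k))) e).2 ⟨fun j => ?_, fun s hs => ?_⟩
  · filter_upwards [hy2] with y' hy' x _ ht i hi
    have h1 : t x ∈ ball z (R / 2) := (show t x = y' from ht) ▸ hy'
    exact ⟨fun c hc => (he j).holo i c x hc hi ⟨trivial, h1⟩,
      fun l hl => (he j).change i l x hi hl ⟨trivial, h1⟩⟩
  · obtain ⟨δ, hδ, hb⟩ := Metric.eventually_nhds_iff_ball.1 hs
    obtain ⟨δ', hδ', a, ha, hs2⟩ := hg y hy δ hδ s
      ⟨fun i c x hc hi hx => (hb _ hx.2 x trivial rfl i hi).1 c hc,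
        fun i l x hi hl hx => (hb _ hx.2 x trivial rfl i hi).2 l hl⟩
    refine ⟨a, fun j => ha j y (mem_ball_self hδ'), ?_⟩
    filter_upwards [ball_mem_nhds y hδ'] with y' hy' x _ ht i hi
    exact hs2 i x hi ⟨trivial, show t x ∈ ball y δ' from (show t x = y' from ht) ▸ hy'⟩

include hb in
theorem gg_tb (hV : Van.VolStmt) (hE : ExhStmt) (hG : GGStmt) (hN : GenStmt) (hR : 0 < R)
    (hA : LBOn n S A) (hψ : PosM n S A ψ) (hL : LBOn n S L) : ∃ k₀ : ℕ, ∀ k, k₀ ≤ k →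
      (∀ x : tb h z R, t x ∈ ball z (R / 4) → ∃ s, (∀ w : tb h z R, t w ∈ ball z (R / 4) →
        ScAt (HolF n) (resB _ (L.mul (A.pow k))) s w) ∧
        ∀ i, (x : W) ∈ (L.mul (A.pow k)).U i → s i x ≠ 0) ∧
      ∃ s, ∀ w : tb h z R, t w ∈ ball z (R / 4) → ScAt (HolF n) (resB _ (L.mul (A.pow k))) s w ∧
        ∀ i, (w : W) ∈ (L.mul (A.pow k)).U i → ∃ᶠ u in 𝓝 w, s i u ≠ 0 := by
  have : LocallyCompactSpace (tb h z R) := ChartedSpace.locallyCompactSpace (Cm n) _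
  let _ : MeasurableSpace (tb h z R) := borel _
  have : BorelSpace (tb h z R) := ⟨rfl⟩
  obtain ⟨⟨g, hg⟩, h2, h3⟩ := hV n (tb h z R)
  obtain ⟨μ, hμ⟩ := h2 g hg
  obtain ⟨ρ, hρ⟩ := h3 _ (res hL (tb_sub h z R))
  set P := pb h hb with hP
  obtain ⟨φ, hφ⟩ := hE n _ N P z (fun _ => R / 2) ⟨hR, fun k => ⟨half_pos hR, by
    show ‖z k - z k‖ + R / 2 < R
    simpa using hR⟩⟩
  rw [← P.tube_eq_pd z (half_pos hR)] at hφ
  have hK : IsCompact (P.Ω ∩ P.t ⁻¹' closedBall z (R / 4)) := P.compact (by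
    show ‖z - z‖ + R / 4 < R
    simp only [sub_self, norm_zero]
    linarith)
  have hKs : P.Ω ∩ P.t ⁻¹' closedBall z (R / 4) ⊆ P.tube z (R / 2) :=
    inter_subset_inter_right _ (preimage_mono (closedBall_subset_ball (by linarith)))
  have hφc : ContinuousOn φ (P.tube z (R / 2)) := fun x hx =>
    (contAt_ch (at_ch x) (hφ.sm _ x (at_ch x) hx).continuousAt).continuousWithinAt
  obtain ⟨c, hc⟩ := hK.bddAbove_image (hφc.mono hKs)
  have hc' : ∀ x ∈ P.Ω ∩ P.t ⁻¹' closedBall z (R / 4), φ x < c + 1 := fun x hx =>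
    (hc ⟨x, hx, rfl⟩).trans_lt (lt_add_one c)
  obtain ⟨k₀, hk⟩ := hG n _ g μ hg hμ _ φ hφ _ _ _ (metric hA hψ) (pdOn hA hψ _) _ _ ρ hρ (c + 1)
  refine ⟨k₀, fun k hk0 => ?_⟩
  have hO : IsOpen {x | x ∈ P.tube z (R / 2) ∧ φ x < c + 1} :=
    hφc.isOpen_inter_preimage hφ.isOpen isOpen_Iio
  have hm := isMetric_mulB hρ (isMetric_pow (metric (h := h) (z := z) (R := R) hA hψ) k)
  have hin : ∀ w : tb h z R, t w ∈ ball z (R / 4) → w ∈ P.Ω ∩ P.t ⁻¹' closedBall z (R / 4) :=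
    fun w hw => ⟨trivial, ball_subset_closedBall hw⟩
  have hin' : ∀ w ∈ P.Ω ∩ P.t ⁻¹' closedBall z (R / 4),
      w ∈ {x | x ∈ P.tube z (R / 2) ∧ φ x < c + 1} := fun w hw => ⟨hKs hw, hc' w hw⟩
  refine ⟨fun x hx => ?_, ?_⟩
  · obtain ⟨F, hF, h0⟩ := hk k hk0 x (hKs (hin x hx)) (hc' x (hin x hx))
    exact ⟨F, fun w hw i hi => ⟨fun c hc => hF.holo i c w hc hi (hin' w (hin w hw)),
      fun l hl => hF.change i l w hi hl (hin' w (hin w hw))⟩, fun i hi h1 =>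
        h0 ((nrm_zero_iff hm (sec_sc hF) hi (hin' x (hin x hx))).2 h1)⟩
  · obtain ⟨F, hF, h0⟩ := hN n _ _ _ hO hK hin' _ _ _ hm fun x hx => hk k hk0 x (hKs hx) (hc' x hx)
    refine ⟨F, fun w hw => ⟨fun i hi => ⟨fun c hc => hF.holo i c w hc hi (hin' w (hin w hw)),
      fun l hl => hF.change i l w hi hl (hin' w (hin w hw))⟩, fun i hi => ?_⟩⟩
    refine ((h0 w (hin w hw)).and_eventually ((hO.eventually_mem (hin' w (hin w hw))).and
      (((mulB (res hL (tb_sub h z R)) (powL (res hA (tb_sub h z R)) k)).isOpen i).eventually_mem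
        hi))).mono fun u hu h1 => hu.1 ((nrm_zero_iff hm (sec_sc hF) hu.2.2 hu.2.1).2 h1)

theorem fg_tb (hc : Coh1AStmt) (hV : Van.VolStmt) (hE : ExhStmt) (hG : GGStmt) (hN : GenStmt)
    (hR : 0 < R) (hA : LBOn n S A) (hψ : PosM n S A ψ) (hL : LBOn n S L) :
    ((prpBase (prp h hb)).img (resB _ L)).FG z := by
  obtain ⟨k₀, h1⟩ := ft_tb (hb := hb) hc hR hA hψ hL
  have hT : LBOn n S (Coh.triv W) :=
    ⟨fun _ => isOpen_univ, fun _ _ => ⟨(), trivial⟩, fun _ _ _ _ _ _ => (holSys n).const 1 _,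
      fun _ _ _ _ _ _ => one_ne_zero, fun _ _ _ _ _ _ _ _ => mul_one 1⟩
  obtain ⟨k₁, h2⟩ := gg_tb (hb := hb) hV hE hG hN hR hA hψ hT
  obtain ⟨k, hk0, hk1⟩ : ∃ k, k₀ ≤ k ∧ k₁ ≤ k := ⟨max k₀ k₁, le_max_left _ _, le_max_right _ _⟩
  obtain ⟨r, hr⟩ := (h2 k hk1).2
  have hn : ∀ P : tb h z R → Prop, (∀ w : tb h z R, t w ∈ ball z (R / 4) → P w) →
      (prpBase (prp h hb)).Near z P := fun P hP => by
    filter_upwards [ball_mem_nhds z (show 0 < R / 4 by linarith)] with y hy w _ ht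
    exact hP w ((show t w = y from ht) ▸ hy)
  refine Coh.Base.coh2 (L' := resB _ (L.mul (A.pow k))) (cov_res hL)
    ⟨fun i => ((hL.isOpen i.1).inter (hA.isOpen i.2)).preimage continuous_subtype_val, fun x =>
      let ⟨i, hi⟩ := hL.cover x x.2.1
      let ⟨j, hj⟩ := hA.cover x x.2.1
      ⟨(i, j), hi, hj⟩⟩ (h1 k hk0).fg (κ := Unit)
    (σ := fun _ i i' x => L.g i'.1 i x * r ((), i'.2) x) (fun _ => hn _ fun w hw i i' hi hi' => ?_)
    (hn _ fun w hw i i' hi hi' => ?_)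
  · have k1 := (hr w hw).1 ((), i'.2) ⟨trivial, hi'.2⟩
    refine ⟨(holSys n).mul (hol_res (hL.holo _ _ w w.2.1 hi'.1 hi)) k1.1, fun j hj => ?_,
      fun j' hj' => ?_⟩
    · show L.g i'.1 i w * r _ w * L.g i j w = L.g i'.1 j w * r _ w
      rw [← hL.cocycle i'.1 i j w w.2.1 hi'.1 hi hj]
      ring
    · have k2 : r ((), i'.2) w = 1 * A.g i'.2 j'.2 w ^ k * r ((), j'.2) w :=
        k1.2 ((), j'.2) ⟨trivial, hj'.2⟩
      show L.g i'.1 i w * r _ w = L.g i'.1 j'.1 w * A.g i'.2 j'.2 w ^ k * (L.g j'.1 i w * r _ w)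
      rw [k2, ← hL.cocycle i'.1 j'.1 i w w.2.1 hi'.1 hj'.1 hi]
      ring
  · refine (((hr w hw).2 ((), i'.2) ⟨trivial, hi'.2⟩).and_eventually
      ((((hL.isOpen i).preimage continuous_subtype_val).eventually_mem hi).and
        (((hL.isOpen i'.1).preimage continuous_subtype_val).eventually_mem hi'.1))).mono
      fun u hu => ⟨(), mul_ne_zero (hL.ne_zero _ _ u u.2.1 hu.2.2 hu.2.1) hu.1⟩

end Op

open Op

variable [IsManifold 𝓘(ℂ, Cm n) ω W] [T2Space W] [SecondCountableTopology W]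
  {S : Set W} {t : W → Cm N} {Ω : Set (Cm N)} {A L : Bd W} {ψ : A.ι → W → ℝ} {z : Cm N}

/-- the direct image of `L + k A` is of finite type -/
theorem ftA_of (hc : Coh1AStmt) (h : Prp n S t Ω) (hA : LBOn n S A) (hψ : PosM n S A ψ)
    (hL : LBOn n S L) (hz : z ∈ Ω) :
    ∃ k₀ : ℕ, ∀ k, k₀ ≤ k → ((prpBase h).img (L.mul (A.pow k))).FT z := by
  obtain ⟨R, hR, hb⟩ := Metric.isOpen_iff.1 h.isOpen' z hz
  obtain ⟨k₀, hk⟩ := ft_tb (h := h) (hb := hb) hc hR hA hψ hL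
  exact ⟨k₀, fun k hk0 => ft_ext (hb := hb) (mem_ball_self hR) (hk k hk0)⟩

/-- sections of `L + k A` over a neighbourhood `V` of `z`: without common zeros, and one which is
not zero near any point -/
theorem ggA_of (hV : Van.VolStmt) (hE : ExhStmt) (hG : GGStmt) (hN : GenStmt) (h : Prp n S t Ω)
    (hA : LBOn n S A) (hψ : PosM n S A ψ) (hL : LBOn n S L) (hz : z ∈ Ω) :
    ∃ δ : ℝ, 0 < δ ∧ ∃ k₀ : ℕ, ∀ k, k₀ ≤ k →
      (∀ x ∈ S, t x ∈ ball z δ → ∃ s, (∀ w ∈ S, t w ∈ ball z δ →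
        ScAt (HolF n) (L.mul (A.pow k)) s w) ∧ ∀ i, x ∈ (L.mul (A.pow k)).U i → s i x ≠ 0) ∧
      ∃ s, ∀ w ∈ S, t w ∈ ball z δ → ScAt (HolF n) (L.mul (A.pow k)) s w ∧
        ∀ i, w ∈ (L.mul (A.pow k)).U i → ∃ᶠ u in 𝓝 w, s i u ≠ 0 := by
  obtain ⟨R, hR, hb⟩ := Metric.isOpen_iff.1 h.isOpen' z hz
  obtain ⟨k₀, hk⟩ := gg_tb (h := h) (hb := hb) hV hE hG hN hR hA hψ hL
  have hs : ball z (R / 4) ⊆ ball z R := ball_subset_ball (by linarith)
  refine ⟨R / 4, by linarith, k₀, fun k hk0 => ⟨fun x hx hx' => ?_, ?_⟩⟩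
  · obtain ⟨s, h1, h2⟩ := (hk k hk0).1 ⟨x, hx, hs hx'⟩ hx'
    exact ⟨ext s, fun w hw hw' => scAt_ext (O := tb h z R) (x := ⟨w, hw, hs hw'⟩) (h1 _ hw'), fun i hi h0 =>
      h2 i hi ((ext_val s i ⟨x, hx, hs hx'⟩).symm.trans h0)⟩
  · obtain ⟨s, h1⟩ := (hk k hk0).2
    refine ⟨ext s, fun w hw hw' => ⟨scAt_ext (O := tb h z R) (x := ⟨w, hw, hs hw'⟩) (h1 _ hw').1, fun i hi => ?_⟩⟩
    exact (continuous_subtype_val.tendsto (⟨w, hw, hs hw'⟩ : tb h z R)).frequently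
      (((h1 ⟨w, hw, hs hw'⟩ hw').2 i hi).mono fun u hu h0 => hu ((ext_val s i u).symm.trans h0))

/-- **FGS** -/
theorem fgs_of (hc : Coh1AStmt) (hV : Van.VolStmt) (hE : ExhStmt) (hG : GGStmt) (hN : GenStmt) :
    FGS := by
  intro n W _ _ _ _ _ N O t Ω h A ψ hA hψ L hL z hz
  obtain ⟨R, hR, hb⟩ := Metric.isOpen_iff.1 h.isOpen' z hz
  exact fg_ext (hb := hb) (mem_ball_self hR) (fg_tb (hb := hb) hc hV hE hG hN hR hA hψ hL)

end Vale.Agent.P277Z.C1
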