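import Vale.Agent.P277Z.Coh.Ft
import Vale.Agent.P277Z.Coh.Bd1
import Vale.Agent.P277Z.Pj.Den
import Vale.Agent.P277Z.Pj.Rem
import Vale.Agent.P277Z.Pj.Prj

/-!
# P277, block COH: finite type for projective maps which are bimeromorphic onto their image
-/

open scoped Manifold ContDiff Topology ComplexOrder
open Vale.Agent.P272.K Set Filter Metric
open Vale.Agent.P285.H281.FD (Bd)
open Vale.Agent.P277.PH Vale.Agent.P277Z.Pj Vale.Agent.P277Z.C1.Op

noncomputable section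

namespace Vale.Agent.P277Z.Coh

variable {n N : ℕ} {W : Type} [TopologicalSpace W] [ChartedSpace (Cm n) W]
  {O : Set W} {t : W → Cm N} {Ω : Set (Cm N)} {z : Cm N} {R : ℝ} {h : Prp n O t Ω}

theorem freq_res {P : W → Prop} {x : tb h z R} (H : ∃ᶠ y in 𝓝 (x : W), P y) :
    ∃ᶠ y : tb h z R in 𝓝 x, P y := by
  rwa [← (tb h z R).isOpen.isOpenEmbedding_subtypeVal.map_nhds_eq, frequently_map] at H

theorem relFT_ext (hb : ball z R ⊆ Ω) (hR : 0 < R) {L : Bd W}
    (H : ((prpBase (prp h hb)).img (resB _ L)).RelFT z) : ((prpBase h).img L).RelFT z :=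
  H.of_inj ⟨⟨fun s i x => s i x, fun _ _ => rfl⟩, fun _ _ => rfl⟩
    (fun _ hs => (near_res (hb := hb) hs).mono fun _ _ hx => scAt_res hx)
    ((isOpen_ball.eventually_mem (mem_ball_self hR)).mono fun _ hy _ _ =>
      ⟨fun h1 => near_res (hb := hb) h1, fun h1 => near_ext (hb := hb) hy h1⟩)

theorem den_res [IsManifold 𝓘(ℂ, Cm n) ω W] (hb : ball z R ⊆ Ω) (hR : 0 < R)
    (H : (prpBase h).Den z) : (prpBase (prp h hb)).Den z := by
  intro f hf
  have e1 : (fun y : tb h z R => ext (fun _ : Unit => f) () y) = f :=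
    funext (ext_val (fun _ : Unit => f) ())
  obtain ⟨b, G, h1, h2, h3, h4⟩ := H (ext (fun _ : Unit => f) ())
    (near_ext (hb := hb) (mem_ball_self hR) (hf.mono fun x _ hx => hol_ext (e1.symm ▸ hx)))
  exact ⟨b, G, h1, h2, (near_res (hb := hb) h3).mono fun x _ hx =>
    (congrArg (_ * ·) (congrFun e1 x).symm).trans hx,
    (near_res (hb := hb) h4).mono fun x _ hx => freq_res (P := fun y => b (t y) ≠ 0) hx⟩

theorem fts_of (hC : C1.Coh1Stmt) (hG : Van.GGStmt) : FTS := by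
  intro n W _ _ _ _ _ N O t Ω h A ψ ε hA hψ hε L hL z hz
  obtain ⟨R, hR, hb⟩ := Metric.isOpen_iff.1 h.isOpen' z hz
  have : LocallyCompactSpace (tb h.toPrp z R) := ChartedSpace.locallyCompactSpace (Cm (n + 1)) _
  have hD : (prpBase h.toPrp).Den z := fun f hf => by
    obtain ⟨U, δ, h1, h2, -, h3, h4, h5⟩ := den_of conn br prj n W N O t Ω h z hz
    obtain ⟨a, ha, h6⟩ := h5 z h2 f fun w hw hw' => hf.self_of_nhds w hw hw'
    exact ⟨δ, a, h3 z h2, ha, near_fibre h.toPrp hz h6, near_of h.toPrp (h1.mem_nhds h2)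
      fun x hx => (mem_closure_iff_frequently.1 (h4 hx)).mono fun _ h7 => h7.2⟩
  have hZ : AnNear ((fun x : tb h.toPrp z R => t x) '' univ) z := by
    obtain ⟨m, g, h1, h2⟩ := rem_of br prj n W N O t Ω h.toGfin z hz
    refine ⟨m, g, h1, ?_⟩
    filter_upwards [h2, ball_mem_nhds z hR] with y h3 h4
    exact Iff.trans ⟨fun ⟨x, _, hx⟩ => ⟨x, x.2.1, hx⟩, fun ⟨x, hx, h5⟩ =>
      ⟨⟨x, hx, show t x ∈ ball z R from h5 ▸ h4⟩, trivial, h5⟩⟩ h3
  obtain ⟨h1, h2⟩ := ft_any hC hG (prp h.toPrp hb) (metric hA hψ) (pdOn hA hψ _)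
    (res hL (tb_sub h.toPrp z R)) (mem_ball_self hR) hZ (den_res hb hR hD)
    (ε := fun i x => ε i x) ⟨fun i x _ hi => hol_res (hε.hol i x x.2.1 hi),
      fun i j x _ => hε.change i j x x.2.1,
      fun i x _ hi => freq_res (P := fun y => ε i y ≠ 0) (hε.ne i x x.2.1 hi)⟩
  exact ⟨ft_ext (hb := hb) (mem_ball_self hR) h1, relFT_ext hb hR h2⟩

end Vale.Agent.P277Z.Coh
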