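import Vale.Agent.P277Z.Spec2
import Vale.Agent.P277Z.Lo.Base
import Vale.Agent.P277Z.Oka.All

/-!
# P277Z, block COH: finiteness in the language of the function field
-/

open scoped Manifold ContDiff Topology
open Set Filter
open Vale.Agent.P272.K (Cm Chart At cHess)
open Vale.Agent.P297 (Place)
open Vale.Agent.P285.H281.FD (Bd)
open Vale.Agent.P298.H941 (O)
open Vale.Agent.P277Z.Oka

noncomputable section

namespace Vale.Agent.P277Z

/-- finitely many sections of `L` near `F` generate all of them over the germs of the base -/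
def Geo.FinG {n N : ℕ} (G : Geo n N) (L : Bd G.W) : Prop :=
  ∃ (r : ℕ) (e : Fin r → L.ι → G.W → ℂ), (∀ j, G.Sec L (e j)) ∧ ∀ s, G.Sec L s →
    ∃ c : Fin r → Cm N → ℂ, (∀ j, AnalyticAt ℂ (c j) 0) ∧
      ∀ᶠ y in 𝓝ˢ G.F, ∀ i, y ∈ L.U i → s i y = ∑ j, c j (G.π y) * e j i y

namespace CohK

open Lo

variable {n N : ℕ} {K : Type} [Field K] [Algebra ℂ K]

theorem hol_pi (G : Geo n N) {c : Cm N → ℂ} (hc : AnalyticAt ℂ c 0) {x : G.W} (hx : x ∈ G.F) :
    Hol n (fun y => c (G.π y)) x := fun e he =>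
  AnalyticAt.fun_comp (by rwa [e.left_inv he.2, (G.fib.self_of_nhdsSet x hx).2 hx])
    (AnalyticAt.pi fun i => G.hol x hx i e he)

theorem tendsto_pi (G : Geo n N) {x : G.W} (hx : x ∈ G.F) : Tendsto G.π (𝓝 x) (𝓝 0) := by
  rw [← (G.fib.self_of_nhdsSet x hx).2 hx]
  exact continuousAt_pi.2 fun i => hol_cont (G.hol x hx i)

variable (M : Mdl n N K)

theorem exists_O₀ {a : M.W → ℂ} (ha : ∀ x ∈ M.F, Hol n a x) :
    ∃ f ∈ M.O₀, ∀ᶠ y in 𝓝ˢ M.F, M.val f y = a y := by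
  obtain ⟨f, hf⟩ := M.surj a fun x hx => mer_of_hol (ha x hx)
  exact ⟨f, Algebra.mem_iInf.2 fun x => M.mem_O_of (ha x x.2) (M.at_pt hf x),
    eventually_nhdsSet_iff_forall.2 fun x hx => M.val_eq hx (ha x hx) (M.at_pt hf ⟨x, hx⟩)⟩

theorem eq_of_gen {f g : K} (h : ∀ᶠ y in gen M.F, M.val f y = M.val g y) : f = g :=
  let ⟨x, hx⟩ := M.conn.nonempty
  M.eq_of_val ⟨x, hx⟩ (M.at_pt h _)

theorem exists_pull (a : O (Cm N)) : ∃ f : M.O₀, ∀ c, AnalyticAt ℂ c 0 → gm 0 c = a →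
    ∀ᶠ y in gen M.F, M.val f y = c (M.π y) := by
  obtain ⟨c, hc, rfl⟩ := gm_surj 0 a
  obtain ⟨f, hf, h⟩ := exists_O₀ M fun x hx => hol_pi M.toGeo hc hx
  refine ⟨⟨f, hf⟩, fun c' hc' h' => ?_⟩
  filter_upwards [gen_of_nhdsSet h, gen_of_nhdsSet (eventually_nhdsSet_iff_forall.2 fun x hx =>
    (tendsto_pi M.toGeo hx).eventually ((gm_eq_iff hc' hc).1 h'))] with y h1 h2
    using h1.trans h2.symm

/-- the pull back of germs from the base -/
def pl (a : O (Cm N)) : M.O₀ := (exists_pull M a).choose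

theorem pl_val {c : Cm N → ℂ} (hc : AnalyticAt ℂ c 0) :
    ∀ᶠ y in gen M.F, M.val (pl M (gm 0 c)) y = c (M.π y) :=
  (exists_pull M _).choose_spec c hc rfl

/-- the pull back is a homomorphism -/
def plH : O (Cm N) →+* M.O₀ where
  toFun := pl M
  map_one' := Subtype.ext (eq_of_gen M (by
    rw [← gm_one 0]
    exact (pl_val M analyticAt_const).mono fun y h => h.trans (M.val_one y).symm))
  map_zero' := Subtype.ext (eq_of_gen M (by
    rw [← gm_zero 0]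
    exact (pl_val M analyticAt_const).mono fun y h => h.trans (M.val_zero y).symm))
  map_mul' a b := Subtype.ext (eq_of_gen M (by
    obtain ⟨c, hc, rfl⟩ := gm_surj 0 a
    obtain ⟨c', hc', rfl⟩ := gm_surj 0 b
    rw [← gm_mul hc hc']
    filter_upwards [pl_val M (hc.fun_mul hc'), pl_val M hc, pl_val M hc',
      M.val_mul (pl M (gm 0 c)) (pl M (gm 0 c'))] with y h1 h2 h3 h4
    exact h1.trans (h4.trans (by rw [h2, h3])).symm))
  map_add' a b := Subtype.ext (eq_of_gen M (by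
    obtain ⟨c, hc, rfl⟩ := gm_surj 0 a
    obtain ⟨c', hc', rfl⟩ := gm_surj 0 b
    rw [← gm_add hc hc']
    filter_upwards [pl_val M (hc.fun_add hc'), pl_val M hc, pl_val M hc',
      M.val_add (pl M (gm 0 c)) (pl M (gm 0 c'))] with y h1 h2 h3 h4
    exact h1.trans (h4.trans (by rw [h2, h3])).symm))

theorem val_comb {ι : Type} [Fintype ι] {c : ι → Cm N → ℂ} (hc : ∀ j, AnalyticAt ℂ (c j) 0)
    (t : ι → K) : ∀ᶠ y in gen M.F,
      M.val (∑ j, (pl M (gm 0 (c j)) : K) * t j) y = ∑ j, c j (M.π y) * M.val (t j) y := by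
  filter_upwards [M.val_sum Finset.univ fun j => (pl M (gm 0 (c j)) : K) * t j,
    eventually_all.2 fun j => M.val_mul (pl M (gm 0 (c j))) (t j),
    eventually_all.2 fun j => pl_val M (hc j)] with y h1 h2 h3
  rw [h1]
  exact Finset.sum_congr rfl fun j _ => by rw [h2, h3]

/-- the trivial bundle -/
abbrev trv (W : Type) : Bd W := ⟨Unit, fun _ => univ, fun _ _ _ => 1⟩

theorem lb_trv (G : Geo n N) : G.LB (trv G.W) :=
  ⟨fun _ => isOpen_univ, fun _ _ => ⟨(), trivial⟩, fun _ _ _ _ _ => hol_const 1,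
    fun _ _ _ _ _ => one_ne_zero, fun _ _ _ _ _ _ _ => mul_one 1⟩

variable {M}

theorem base₀ (h : M.FinG (trv M.W)) : ∃ (r : ℕ) (t : Fin r → K), (∀ j, t j ∈ M.O₀) ∧
    ∀ f ∈ M.O₀, ∃ c : Fin r → Cm N → ℂ, (∀ j, AnalyticAt ℂ (c j) 0) ∧
      ∀ᶠ y in 𝓝ˢ M.F, M.val f y = ∑ j, c j (M.π y) * M.val (t j) y := by
  obtain ⟨r, e, he, h⟩ := h
  choose t ht ht' using fun j => exists_O₀ M (a := e j ()) fun x hx =>
    ((he j).self_of_nhdsSet x hx () trivial).1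
  refine ⟨r, t, ht, fun f hf => ?_⟩
  obtain ⟨c, hc, h1⟩ := h (fun _ => M.val f) (eventually_nhdsSet_iff_forall.2 fun x hx =>
    (Hol.near (Algebra.mem_iInf.1 hf ⟨x, hx⟩)).mono fun y hy _ _ =>
      ⟨hy, fun _ _ => (one_mul _).symm⟩)
  refine ⟨c, hc, ?_⟩
  filter_upwards [h1, eventually_all.2 ht'] with y h2 h3
  rw [h2 () trivial]
  exact Finset.sum_congr rfl fun j _ => by rw [h3]

theorem base (h : M.FinG (trv M.W)) : ∃ T : Finset K, (∀ t ∈ T, t ∈ M.O₀) ∧ ∀ f ∈ M.O₀,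
    ∃ c : K → Cm N → ℂ, (∀ t, AnalyticAt ℂ (c t) 0) ∧
      ∀ᶠ y in 𝓝ˢ M.F, M.val f y = ∑ t ∈ T, c t (M.π y) * M.val t y := by
  classical
  obtain ⟨r, t, ht, h⟩ := base₀ h
  refine ⟨Finset.univ.image t, fun u hu => ?_, fun f hf => ?_⟩
  · obtain ⟨j, -, rfl⟩ := Finset.mem_image.1 hu
    exact ht j
  obtain ⟨c, hc, h1⟩ := h f hf
  refine ⟨fun u z => ∑ j with t j = u, c j z,
    fun u => Finset.analyticAt_fun_sum _ fun j _ => hc j, h1.mono fun y hy => ?_⟩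
  rw [hy, ← Finset.sum_fiberwise_of_maps_to (t := Finset.univ.image t) (g := t)
    fun j hj => Finset.mem_image_of_mem t hj]
  refine Finset.sum_congr rfl fun u _ => ?_
  rw [Finset.sum_mul]
  exact Finset.sum_congr rfl fun j hj => by rw [(Finset.mem_filter.1 hj).2]

theorem noeth (h : M.FinG (trv M.W)) : IsNoetherianRing M.O₀ := by
  obtain ⟨r, t, ht, h⟩ := base₀ h
  let _ : Algebra (O (Cm N)) M.O₀ := (plH M).toAlgebra
  have : IsNoetherianRing (O (Cm N)) := noe (Cm N)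
  have : Module.Finite (O (Cm N)) M.O₀ := by
    refine ⟨Submodule.fg_def.2 ⟨range fun j => (⟨t j, ht j⟩ : M.O₀), finite_range _, ?_⟩⟩
    refine eq_top_iff.2 fun f _ => (Submodule.mem_span_range_iff_exists_fun _).2 ?_
    obtain ⟨c, hc, h1⟩ := h f f.2
    refine ⟨fun j => gm 0 (c j), Subtype.ext ?_⟩
    rw [AddSubmonoidClass.coe_finsetSum]
    refine eq_of_gen M ?_
    filter_upwards [val_comb M hc t, gen_of_nhdsSet h1] with y h2 h3 using h2.trans h3.symm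
  exact IsNoetherianRing.of_finite (O (Cm N)) M.O₀

theorem fin (hL : Lbd M) (h : ∀ L, M.LB L → M.FinG L) (D : Div K) :
    Module.Finite M.O₀ (M.H0 D) := by
  let D' : Div K := D.mapRange (fun c => (⌊c⌋ : ℝ)) (by simp)
  have e1 : M.H0 D = M.H0 D' := by
    ext f
    refine or_congr Iff.rfl (forall₂_congr fun P _ => ?_)
    change _ ↔ 0 ≤ (P.ord f : ℝ) + (⌊D P⌋ : ℝ)
    rw [← Int.cast_add, Int.cast_nonneg_iff, ← Int.floor_intCast_add, Int.floor_nonneg]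
  obtain ⟨L, s, hs⟩ := hL.ex D' fun P => ⟨⌊D P⌋, rfl⟩
  obtain ⟨r, e, he, h1⟩ := h L hs.lb
  choose u hu hu' using fun j => hL.fn L D' s (e j) hs (he j)
  rw [e1, Module.Finite.iff_fg]
  refine Submodule.fg_def.2 ⟨range u, finite_range _, le_antisymm
    (Submodule.span_le.2 (range_subset_iff.2 hu)) fun f hf => ?_⟩
  obtain ⟨σ, hσ, hσ'⟩ := hL.sec L D' s f hs hf
  obtain ⟨c, hc, h2⟩ := h1 σ hσ
  refine (Submodule.mem_span_range_iff_exists_fun _).2 ⟨fun j => pl M (gm 0 (c j)), ?_⟩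
  obtain ⟨x, hx⟩ := M.conn.nonempty
  obtain ⟨i, hi⟩ := hs.lb.cover x hx
  obtain ⟨t, v, ht, -, hv, hv', h3⟩ := hs.loc ⟨x, hx⟩ i hi
  refine M.eq_of_val ⟨x, hx⟩ ?_
  filter_upwards [M.at_pt (val_comb M hc u) ⟨x, hx⟩, M.at_pt (gen_of_nhdsSet h2) ⟨x, hx⟩,
    hσ' ⟨x, hx⟩ i hi, eventually_all.2 fun j => hu' j ⟨x, hx⟩ i hi, h3,
    M.at_pt (M.val_ne ht) ⟨x, hx⟩, gen_of_nhds (hol_ne hv hv'),
    gen_of_nhds ((hs.lb.isOpen i).eventually_mem hi)] with y a1 a2 a3 a4 a5 a6 a7 a8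
  refine a1.trans (mul_right_cancel₀ (b := s i y) (a5 ▸ mul_ne_zero a7 a6) ?_)
  rw [← a3, a2 i a8, Finset.sum_mul]
  exact Finset.sum_congr rfl fun j _ => by rw [a4, mul_assoc]

theorem coh (hL : Lbd M) (h : ∀ L, M.LB L → M.FinG L) : Coh M :=
  ⟨noeth (h _ (lb_trv _)), fin hL h, base (h _ (lb_trv _))⟩

end CohK

/-- **GFI**: finiteness for all line bundles near a projective fibre -/
def GFI : Prop := ∀ (n N : ℕ) (G : Geo n N), G.Proj → ∀ L, G.LB L → G.FinG L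

theorem coh_of (h : GFI) {n : ℕ} (hL : LBD n) : COH n := fun N K _ _ M hM =>
  CohK.coh (hL N K M hM) (h n N M.toGeo hM)

end Vale.Agent.P277Z
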