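import Vale.Agent.P277Z.Coh.FtS
import Vale.Agent.P277Z.Coh.Kl

/-!
# P277Z, block COH: finiteness near the fibre
-/

open scoped Manifold ContDiff Topology
open Set Filter Metric
open Vale.Agent.P272.K (Cm Chart At cHess)
open Vale.Agent.P285.H281.FD (Bd)
open Vale.Agent.P277Z.Coh (ScAt LBOn PosM prpBase FGS)
open Vale.Agent.P277Z.Pj (Prp)

noncomputable section

namespace Vale.Agent.P277Z.C1

theorem gfi_of (hN : NBH) (hF : FGS) : GFI := by
  intro n N G ⟨A, ψ, hA, h1, h2⟩ L hL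
  have hc : ∀ M : Bd G.W, G.LB M → (⋃ i, M.U i) ∈ 𝓝ˢ G.F := fun M hM =>
    (isOpen_iUnion hM.isOpen).mem_nhdsSet.2 fun x hx => mem_iUnion.2 (hM.cover x hx)
  obtain ⟨O, r, hO, hFO, hOU, hr, hh, hb, hp, hV⟩ := hN n N G _ (inter_mem (hc A hA) (hc L hL))
  have h : Prp n O G.π (ball 0 r) :=
    ⟨hO, isOpen_ball, hh, fun y hy => mem_ball_zero_iff.2 (hb y hy).1, hp⟩
  have hl : ∀ M : Bd G.W, G.LB M → O ⊆ ⋃ i, M.U i → LBOn n O M := fun M hM hs =>
    ⟨hM.isOpen, fun x hx => mem_iUnion.1 (hs hx), fun i j x _ => hM.holo i j x,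
      fun i j x _ => hM.ne_zero i j x, fun i j k x _ => hM.cocycle i j k x⟩
  have hiff : ∀ P : G.W → Prop, (prpBase h).Near 0 P ↔ ∀ᶠ y in 𝓝ˢ G.F, P y := by
    intro P
    refine ⟨fun hP => ?_, fun hP => ?_⟩
    · refine eventually_nhdsSet_iff_forall.2 fun x hx => ?_
      filter_upwards [(CohK.tendsto_pi G hx).eventually hP, hO.mem_nhds (hFO hx)] with y k1 k2
        using k1 y k2 rfl
    · obtain ⟨r', hr', k⟩ := hV _ hP
      filter_upwards [ball_mem_nhds (0 : Cm N) hr'] with y' hy' x hx ht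
      exact k x hx (mem_ball_zero_iff.1 ((show G.π x = y' from ht) ▸ hy'))
  obtain ⟨m, e, he⟩ := hF n G.W N O G.π _ h A ψ (hl A hA fun x hx => (hOU hx).1)
    ⟨fun i x _ hi => h1 i x hi, fun i j x _ => h2 i j x⟩ L (hl L hL fun x hx => (hOU hx).2) 0
    (mem_ball_self hr)
  obtain ⟨k1, k2⟩ := (Coh.Base.gen_img_iff (L := L) e).1 he
  refine ⟨m, e, fun j => (hiff _).1 (k1 j), fun s hs => ?_⟩
  obtain ⟨c, k3, k4⟩ := k2 s ((hiff _).2 hs)
  exact ⟨c, k3, (hiff _).1 k4⟩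

end Vale.Agent.P277Z.C1
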