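import Vale.Agent.P277Z.Coh.All1
import Vale.Agent.P277Z.Coh.Gfi
import Vale.Agent.P277Z.Coh.Fts
import Vale.Agent.P277Z.Coh.Vap
import Vale.Agent.P277Z.Ps.Nbh

/-!
# P277Z, block COH: the theorems without hypotheses
-/

namespace Vale.Agent.P277Z.C1

theorem gfi : GFI := gfi_of Ps.nbh fgs

theorem fts : Coh.FTS := Coh.fts_of coh1 gg

theorem coh {n : ℕ} (hL : LBD n) : COH n := coh_of gfi hL

end Vale.Agent.P277Z.C1
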