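import Mathlib.Analysis.Analytic.Constructions
import Mathlib.Analysis.Analytic.ChangeOrigin
import Mathlib.Analysis.Complex.Basic

/-!
# P277, block COH: sheaves of modules of finite type, abstract part

`Sh E` : a module over the functions on `E` with two predicates, `Sec y s` (`s` is a section near
`y`) and `Zer y s` (`s` vanishes near `y`).
`Gen`, `FG`, `FT` : generators of a stalk, finite stalk, finite type; `RelFT` : the relations
between finitely many sections are of finite type.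
-/

open Filter Topology

noncomputable section

namespace Vale.Agent.P277Z.Coh

/-- A sheaf of modules over the holomorphic functions on `E`, given by representatives. -/
structure Sh (E : Type) [NormedAddCommGroup E] [NormedSpace ℂ E] where
  /-- the representatives -/
  α : Type
  [acg : AddCommGroup α]
  [mod : Module (E → ℂ) α]
  /-- `s` is a section near `y` -/
  Sec : E → α → Prop
  /-- `s` vanishes near `y` -/
  Zer : E → α → Prop
  sec_zero : ∀ y, Sec y 0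
  sec_add : ∀ {y s s'}, Sec y s → Sec y s' → Sec y (s + s')
  sec_smul : ∀ {y s} {c : E → ℂ}, AnalyticAt ℂ c y → Sec y s → Sec y (c • s)
  zer_add : ∀ {y s s'}, Zer y s → Zer y s' → Zer y (s + s')
  zer_smul : ∀ {y s} (c : E → ℂ), Zer y s → Zer y (c • s)
  zer_germ : ∀ {y} {c : E → ℂ}, c =ᶠ[𝓝 y] 0 → ∀ s, Zer y (c • s)
  sec_nhds : ∀ {y s}, Sec y s → ∀ᶠ y' in 𝓝 y, Sec y' s
  zer_nhds : ∀ {y s}, Zer y s → ∀ᶠ y' in 𝓝 y, Zer y' s

attribute [instance] Sh.acg Sh.mod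

variable {E : Type} [NormedAddCommGroup E] [NormedSpace ℂ E]

namespace Sh

variable {F G : Sh E} {y z : E}

theorem zer_zero (F : Sh E) (y : E) : F.Zer y 0 := by
  have h := F.zer_germ (y := y) (c := 0) EventuallyEq.rfl 0
  rwa [zero_smul] at h

theorem zer_of_eq {s : F.α} (h : s = 0) : F.Zer y s := h ▸ F.zer_zero y

theorem zer_neg {s : F.α} (h : F.Zer y s) : F.Zer y (-s) := by
  have h1 := F.zer_smul (-1) h
  rwa [neg_smul, one_smul] at h1

theorem zer_sub {s s' : F.α} (h : F.Zer y s) (h' : F.Zer y s') : F.Zer y (s - s') := by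
  rw [sub_eq_add_neg]
  exact F.zer_add h (zer_neg h')

theorem sec_neg {s : F.α} (h : F.Sec y s) : F.Sec y (-s) := by
  have h1 := F.sec_smul (c := -1) (analyticAt_const (v := (-1 : ℂ))) h
  rwa [neg_smul, one_smul] at h1

theorem sec_sub {s s' : F.α} (h : F.Sec y s) (h' : F.Sec y s') : F.Sec y (s - s') := by
  rw [sub_eq_add_neg]
  exact F.sec_add h (sec_neg h')

theorem zer_sum {ι : Type} (S : Finset ι) {s : ι → F.α} (h : ∀ j ∈ S, F.Zer y (s j)) :
    F.Zer y (∑ j ∈ S, s j) :=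
  Finset.sum_induction s (F.Zer y) (fun _ _ => F.zer_add) (F.zer_zero y) h

theorem sec_sum {ι : Type} (S : Finset ι) {s : ι → F.α} (h : ∀ j ∈ S, F.Sec y (s j)) :
    F.Sec y (∑ j ∈ S, s j) :=
  Finset.sum_induction s (F.Sec y) (fun _ _ => F.sec_add) (F.sec_zero y) h

theorem sec_comb {ι : Type} [Fintype ι] {c : ι → E → ℂ} {e : ι → F.α}
    (hc : ∀ j, AnalyticAt ℂ (c j) y) (he : ∀ j, F.Sec y (e j)) : F.Sec y (∑ j, c j • e j) :=
  sec_sum _ fun j _ => F.sec_smul (hc j) (he j)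

theorem zer_comb {ι : Type} [Fintype ι] (c : ι → E → ℂ) {e : ι → F.α}
    (he : ∀ j, F.Zer y (e j)) : F.Zer y (∑ j, c j • e j) :=
  zer_sum _ fun j _ => F.zer_smul (c j) (he j)

theorem zer_comb' {ι : Type} [Fintype ι] {c : ι → E → ℂ} (hc : ∀ j, c j =ᶠ[𝓝 y] 0)
    (e : ι → F.α) : F.Zer y (∑ j, c j • e j) :=
  zer_sum _ fun j _ => F.zer_germ (hc j) _

/-- the sections `e j` generate the stalk at `y` -/
def Gen (F : Sh E) (y : E) {ι : Type} [Fintype ι] (e : ι → F.α) : Prop :=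
  (∀ j, F.Sec y (e j)) ∧ ∀ s, F.Sec y s →
    ∃ c : ι → E → ℂ, (∀ j, AnalyticAt ℂ (c j) y) ∧ F.Zer y (s - ∑ j, c j • e j)

/-- the stalk at `y` is finitely generated -/
def FG (F : Sh E) (y : E) : Prop := ∃ (r : ℕ) (e : Fin r → F.α), F.Gen y e

/-- finite type near `z` -/
def FT (F : Sh E) (z : E) : Prop := ∃ (r : ℕ) (e : Fin r → F.α), ∀ᶠ y in 𝓝 z, F.Gen y e

theorem Gen.reindex {ι κ : Type} [Fintype ι] [Fintype κ] {e : ι → F.α} (h : F.Gen y e)
    (σ : κ ≃ ι) : F.Gen y (e ∘ σ) := by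
  refine ⟨fun j => h.1 _, fun s hs => ?_⟩
  obtain ⟨c, hc, h1⟩ := h.2 s hs
  refine ⟨c ∘ σ, fun j => hc _, ?_⟩
  rwa [← σ.sum_comp] at h1

theorem FG.of_gen {ι : Type} [Fintype ι] {e : ι → F.α} (h : F.Gen y e) : F.FG y :=
  ⟨_, _, h.reindex (Fintype.equivFin ι).symm⟩

theorem FT.of_gen {ι : Type} [Fintype ι] {e : ι → F.α} (h : ∀ᶠ y in 𝓝 z, F.Gen y e) : F.FT z :=
  ⟨_, _, h.mono fun _ hy => hy.reindex (Fintype.equivFin ι).symm⟩

theorem FT.fg (h : F.FT z) : F.FG z := by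
  obtain ⟨r, e, h⟩ := h
  exact ⟨r, e, h.self_of_nhds⟩

theorem FT.eventually (h : F.FT z) : ∀ᶠ y in 𝓝 z, F.FT y := by
  obtain ⟨r, e, h⟩ := h
  exact h.eventually_nhds.mono fun y hy => ⟨r, e, hy⟩

theorem comb_comb {ι κ : Type} [Fintype ι] [Fintype κ] (b : κ → E → ℂ) (ρ : κ → ι → E → ℂ)
    (e : ι → F.α) : ∑ a, b a • ∑ j, ρ a j • e j = ∑ j, (∑ a, b a * ρ a j) • e j := by
  simp only [Finset.smul_sum, Finset.sum_smul, mul_smul]
  exact Finset.sum_comm

theorem an_sum {ι : Type} [Fintype ι] {b c : ι → E → ℂ} (hb : ∀ j, AnalyticAt ℂ (b j) y)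
    (hc : ∀ j, AnalyticAt ℂ (c j) y) : AnalyticAt ℂ (∑ j, b j * c j) y :=
  Finset.analyticAt_sum _ fun j _ => (hb j).mul (hc j)

/-- a family of sections which generates a generating family -/
theorem Gen.trans {ι κ : Type} [Fintype ι] [Fintype κ] {e : ι → F.α} {e' : κ → F.α}
    (h : F.Gen y e) (h' : ∀ k, F.Sec y (e' k)) {ρ : ι → κ → E → ℂ}
    (hρ : ∀ j k, AnalyticAt ℂ (ρ j k) y) (he : ∀ j, F.Zer y (e j - ∑ k, ρ j k • e' k)) :
    F.Gen y e' := by
  refine ⟨h', fun s hs => ?_⟩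
  obtain ⟨c, hc, h1⟩ := h.2 s hs
  refine ⟨fun k => ∑ j, c j * ρ j k, fun k => an_sum hc fun j => hρ j k, ?_⟩
  have h2 := F.zer_add h1 (zer_comb c he)
  simp only [smul_sub, Finset.sum_sub_distrib, sub_add_sub_cancel] at h2
  rwa [comb_comb] at h2

/-- **Generators of the stalk generate the stalks nearby.** -/
theorem FT.gen_nhds (h : F.FT z) {κ : Type} [Fintype κ] {e' : κ → F.α} (h' : F.Gen z e') :
    ∀ᶠ y in 𝓝 z, F.Gen y e' := by
  obtain ⟨r, e, h⟩ := h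
  choose ρ hρ he using fun j => h'.2 _ (h.self_of_nhds.1 j)
  filter_upwards [h, eventually_all.2 fun k => F.sec_nhds (h'.1 k),
    eventually_all.2 fun j => eventually_all.2 fun k => (hρ j k).eventually_analyticAt,
    eventually_all.2 fun j => F.zer_nhds (he j)] with y h1 h2 h3 h4 using h1.trans h2 h3 h4

/-- transfer along a map which is bijective on the germs near `z` -/
theorem FT.of_bij (hG : G.FT z) (φ : F.α →ₗ[E → ℂ] G.α)
    (sec : ∀ᶠ y in 𝓝 z, ∀ s, F.Sec y s → G.Sec y (φ s))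
    (inj : ∀ᶠ y in 𝓝 z, ∀ s, F.Sec y s → G.Zer y (φ s) → F.Zer y s)
    (surj : ∀ s', G.Sec z s' → ∃ s, F.Sec z s ∧ G.Zer z (s' - φ s)) : F.FT z := by
  obtain ⟨r, e', h⟩ := hG
  choose e he he' using fun j => surj _ (h.self_of_nhds.1 j)
  refine ⟨r, e, ?_⟩
  filter_upwards [h, sec, inj, eventually_all.2 fun j => F.sec_nhds (he j),
    eventually_all.2 fun j => G.zer_nhds (he' j)] with y h1 h2 h3 h4 h5
  refine ⟨h4, fun s hs => ?_⟩
  obtain ⟨c, hc, h6⟩ := h1.2 _ (h2 s hs)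
  refine ⟨c, hc, h3 _ (sec_sub hs (sec_comb hc h4)) ?_⟩
  have h7 := G.zer_add h6 (zer_comb c h5)
  simp only [smul_sub, Finset.sum_sub_distrib, sub_add_sub_cancel] at h7
  simpa only [map_sub, map_sum, map_smul] using h7

/-- transfer along a map which is onto on the germs near `z` -/
theorem FT.of_surj (hF : F.FT z) (φ : F.α →ₗ[E → ℂ] G.α)
    (sec : ∀ s, F.Sec z s → G.Sec z (φ s)) (zer : ∀ᶠ y in 𝓝 z, ∀ s, F.Zer y s → G.Zer y (φ s))
    (surj : ∀ᶠ y in 𝓝 z, ∀ s', G.Sec y s' → ∃ s, F.Sec y s ∧ G.Zer y (s' - φ s)) : G.FT z := by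
  obtain ⟨r, e, h⟩ := hF
  refine ⟨r, fun j => φ (e j), ?_⟩
  filter_upwards [h, zer, surj,
    eventually_all.2 fun j => G.sec_nhds (sec _ (h.self_of_nhds.1 j))] with y h1 h2 h3 h4
  refine ⟨h4, fun s' hs' => ?_⟩
  obtain ⟨s, hs, h5⟩ := h3 s' hs'
  obtain ⟨c, hc, h6⟩ := h1.2 s hs
  refine ⟨c, hc, ?_⟩
  have h7 := G.zer_add h5 (h2 _ h6)
  simpa only [map_sub, map_sum, map_smul, sub_add_sub_cancel] using h7

/-! ### Constructions -/

/-- the free sheaf -/
abbrev free (E : Type) [NormedAddCommGroup E] [NormedSpace ℂ E] (ι : Type) [Finite ι] : Sh E where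
  α := ι → E → ℂ
  Sec y c := ∀ j, AnalyticAt ℂ (c j) y
  Zer y c := ∀ j, c j =ᶠ[𝓝 y] 0
  sec_zero _ _ := analyticAt_const
  sec_add h h' j := (h j).add (h' j)
  sec_smul hc h j := hc.mul (h j)
  zer_add h h' j := by filter_upwards [h j, h' j] with x h1 h2 using by simp [h1, h2]
  zer_smul c h j := by filter_upwards [h j] with x h1 using by simp [h1]
  zer_germ h s j := by filter_upwards [h] with x h1 using by simp [h1]
  sec_nhds h := eventually_all.2 fun j => (h j).eventually_analyticAt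
  zer_nhds h := eventually_all.2 fun j => (h j).eventuallyEq_nhds

theorem free_ft (ι : Type) [Finite ι] (z : E) : (free E ι).FT z := by
  classical
  have := Fintype.ofFinite ι
  refine FT.of_gen (e := fun j => (Pi.single j 1 : ι → E → ℂ))
    (Eventually.of_forall fun y => ⟨fun j k => ?_, fun s hs => ⟨s, hs, zer_of_eq ?_⟩⟩)
  · rcases eq_or_ne k j with rfl | h
    · simp only [Pi.single_eq_same]
      exact analyticAt_const
    · simp only [Pi.single_eq_of_ne h]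
      exact analyticAt_const
  · exact sub_eq_zero.2 (pi_eq_sum_univ' s)

/-- the common kernel of finitely many maps -/
abbrev ker (F : Sh E) {κ : Type} (G : κ → Sh E) (φ : ∀ k, F.α →ₗ[E → ℂ] (G k).α) (S : Finset κ) :
    Sh E where
  α := F.α
  Sec y s := F.Sec y s ∧ ∀ k ∈ S, (G k).Zer y (φ k s)
  Zer := F.Zer
  sec_zero y := ⟨F.sec_zero y, fun _ _ => zer_of_eq (map_zero _)⟩
  sec_add h h' := ⟨F.sec_add h.1 h'.1, fun k hk =>
    map_add (φ k) _ _ ▸ (G k).zer_add (h.2 k hk) (h'.2 k hk)⟩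
  sec_smul hc h := ⟨F.sec_smul hc h.1, fun k hk =>
    map_smul (φ k) _ _ ▸ (G k).zer_smul _ (h.2 k hk)⟩
  zer_add := F.zer_add
  zer_smul := F.zer_smul
  zer_germ := F.zer_germ
  sec_nhds h := (F.sec_nhds h.1).and
    ((eventually_all_finset S).2 fun k hk => (G k).zer_nhds (h.2 k hk))
  zer_nhds := F.zer_nhds

/-- the relations between finitely many sections near `z` are of finite type -/
def RelFT (F : Sh E) (z : E) : Prop :=
  ∀ (r : ℕ) (f : Fin r → F.α), (∀ j, F.Sec z (f j)) →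
    ∃ (q : ℕ) (ρ : Fin q → Fin r → E → ℂ), ∀ᶠ y in 𝓝 z,
      (∀ a, (∀ j, AnalyticAt ℂ (ρ a j) y) ∧ F.Zer y (∑ j, ρ a j • f j)) ∧
      ∀ c : Fin r → E → ℂ, (∀ j, AnalyticAt ℂ (c j) y) → F.Zer y (∑ j, c j • f j) →
        ∃ b : Fin q → E → ℂ, (∀ a, AnalyticAt ℂ (b a) y) ∧ ∀ j, c j =ᶠ[𝓝 y] ∑ a, b a * ρ a j

theorem RelFT.fintype (h : F.RelFT z) {ι : Type} [Fintype ι] (f : ι → F.α)
    (hf : ∀ j, F.Sec z (f j)) :
    ∃ (q : ℕ) (ρ : Fin q → ι → E → ℂ), ∀ᶠ y in 𝓝 z,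
      (∀ a, (∀ j, AnalyticAt ℂ (ρ a j) y) ∧ F.Zer y (∑ j, ρ a j • f j)) ∧
      ∀ c : ι → E → ℂ, (∀ j, AnalyticAt ℂ (c j) y) → F.Zer y (∑ j, c j • f j) →
        ∃ b : Fin q → E → ℂ, (∀ a, AnalyticAt ℂ (b a) y) ∧ ∀ j, c j =ᶠ[𝓝 y] ∑ a, b a * ρ a j := by
  let σ := Fintype.equivFin ι
  obtain ⟨q, ρ, h1⟩ := h _ (f ∘ σ.symm) fun j => hf _
  refine ⟨q, fun a j => ρ a (σ j), h1.mono fun y hy => ⟨fun a => ⟨fun j => (hy.1 a).1 _, ?_⟩,
    fun c hc h2 => ?_⟩⟩
  · have h3 := (hy.1 a).2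
    rw [← σ.sum_comp] at h3
    simpa only [Function.comp_apply, Equiv.symm_apply_apply] using h3
  · rw [← σ.symm.sum_comp] at h2
    obtain ⟨b, hb, h4⟩ := hy.2 (c ∘ σ.symm) (fun j => hc _) h2
    refine ⟨b, hb, fun j => ?_⟩
    have h5 := h4 (σ j)
    rwa [Function.comp_apply, Equiv.symm_apply_apply] at h5

/-- **The kernel of maps from a sheaf of finite type to sheaves with relations of finite type is of
finite type.** -/
theorem ker_ft (hF : F.FT z) {κ : Type} {G : κ → Sh E} (φ : ∀ k, F.α →ₗ[E → ℂ] (G k).α)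
    (S : Finset κ) (hG : ∀ k ∈ S, (G k).RelFT z)
    (sec : ∀ k ∈ S, ∀ s, F.Sec z s → (G k).Sec z (φ k s))
    (zer : ∀ k ∈ S, ∀ᶠ y in 𝓝 z, ∀ s, F.Zer y s → (G k).Zer y (φ k s)) : (F.ker G φ S).FT z := by
  classical
  induction S using Finset.induction_on with
  | empty =>
    obtain ⟨r, e, h⟩ := hF
    exact ⟨r, e, h.mono fun y hy => ⟨fun j => ⟨hy.1 j, fun k hk => absurd hk (by simp)⟩,
      fun s hs => hy.2 s hs.1⟩⟩
  | insert k S hk ih =>
    obtain ⟨r, e, h⟩ := ih (fun k hk => hG k (Finset.mem_insert_of_mem hk))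
      (fun k hk => sec k (Finset.mem_insert_of_mem hk))
      (fun k hk => zer k (Finset.mem_insert_of_mem hk))
    have hk' := Finset.mem_insert_self k S
    obtain ⟨q, ρ, h1⟩ := hG k hk' r (fun j => φ k (e j))
      fun j => sec k hk' _ (h.self_of_nhds.1 j).1
    refine ⟨q, fun a => ∑ j, ρ a j • e j, ?_⟩
    filter_upwards [h, h1, zer k hk'] with y h2 h3 h4
    refine ⟨fun a => ?_, fun s hs => ?_⟩
    · have h5 := sec_comb (F := F.ker G φ S) (h3.1 a).1 h2.1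
      refine ⟨h5.1, (Finset.forall_mem_insert _ _ _).2 ⟨?_, h5.2⟩⟩
      have h6 := (h3.1 a).2
      simp only [← map_smul, ← map_sum] at h6
      exact h6
    · obtain ⟨c, hc, h5⟩ := h2.2 s ⟨hs.1, fun k hk => hs.2 k (Finset.mem_insert_of_mem hk)⟩
      have h6 := zer_sub (hs.2 k hk') (h4 _ h5)
      have h7 : φ k s - φ k (s - ∑ j, c j • e j) = ∑ j, c j • φ k (e j) :=
        (map_sub (φ k) s _).symm.trans ((congrArg (φ k) (sub_sub_cancel _ _)).trans
          ((map_sum (φ k) _ _).trans (Finset.sum_congr rfl fun j _ => map_smul (φ k) _ _)))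
      obtain ⟨b, hb, h8⟩ := h3.2 c hc (h7 ▸ h6)
      refine ⟨b, hb, ?_⟩
      have h9 : F.Zer y (∑ j, (c j - ∑ a, b a * ρ a j) • e j) :=
        zer_comb' (F := F) (fun j => eventuallyEq_iff_sub.1 (h8 j)) e
      have h10 := F.zer_add h5 h9
      simp only [sub_smul, Finset.sum_sub_distrib] at h10
      rw [← comb_comb (F := F)] at h10
      exact (sub_add_sub_cancel (G := F.α) _ _ _) ▸ h10

/-- relations of finite type pass to subsheaves -/
theorem RelFT.of_inj (hG : G.RelFT z) (φ : F.α →ₗ[E → ℂ] G.α)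
    (sec : ∀ s, F.Sec z s → G.Sec z (φ s))
    (zer : ∀ᶠ y in 𝓝 z, ∀ s, F.Sec y s → (F.Zer y s ↔ G.Zer y (φ s))) : F.RelFT z := by
  intro r f hf
  obtain ⟨q, ρ, h⟩ := hG r (fun j => φ (f j)) fun j => sec _ (hf j)
  refine ⟨q, ρ, ?_⟩
  filter_upwards [h, zer, eventually_all.2 fun j => F.sec_nhds (hf j)] with y h1 h2 h3
  simp only [← map_smul, ← map_sum] at h1
  exact ⟨fun a => ⟨(h1.1 a).1, (h2 _ (sec_comb (h1.1 a).1 h3)).2 (h1.1 a).2⟩,
    fun c hc h4 => h1.2 c hc ((h2 _ (sec_comb hc h3)).1 h4)⟩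

/-- relations of finite type pass to quotients by subsheaves of finite type -/
theorem RelFT.quot {I : Sh E} (hF : F.RelFT z) (hI : I.FT z) (ψ : I.α →ₗ[E → ℂ] F.α)
    (φ : F.α →ₗ[E → ℂ] G.α) (secI : ∀ s, I.Sec z s → F.Sec z (ψ s))
    (zerI : ∀ᶠ y in 𝓝 z, ∀ s, I.Zer y s → F.Zer y (ψ s))
    (zer : ∀ᶠ y in 𝓝 z, ∀ s, F.Zer y s → G.Zer y (φ s))
    (comp : ∀ᶠ y in 𝓝 z, ∀ u, I.Sec y u → G.Zer y (φ (ψ u)))
    (exact : ∀ᶠ y in 𝓝 z, ∀ s, F.Sec y s → G.Zer y (φ s) → ∃ u, I.Sec y u ∧ F.Zer y (s - ψ u))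
    (surj : ∀ s', G.Sec z s' → ∃ s, F.Sec z s ∧ G.Zer z (s' - φ s)) : G.RelFT z := by
  intro r f' hf'
  choose f hf hff using fun j => surj _ (hf' j)
  obtain ⟨m, e, he⟩ := hI
  obtain ⟨q, ρ, h⟩ := hF.fintype (Sum.elim f fun k => ψ (e k))
    (Sum.rec hf fun k => secI _ (he.self_of_nhds.1 k))
  refine ⟨q, fun a j => ρ a (Sum.inl j), ?_⟩
  filter_upwards [he, h, zerI, zer, comp, exact, eventually_all.2 fun j => F.sec_nhds (hf j),
    eventually_all.2 fun j => G.zer_nhds (hff j)] with y h1 h2 h3 h4 h5 h6 h7 h8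
  simp only [Fintype.sum_sum_type, Sum.elim_inl, Sum.elim_inr] at h2
  refine ⟨fun a => ⟨fun j => (h2.1 a).1 _, ?_⟩, fun c hc h9 => ?_⟩
  · have h10 := G.zer_add (zer_comb (fun j => ρ a (Sum.inl j)) h8)
      (zer_sub (h4 _ (h2.1 a).2) (h5 _ (sec_comb (fun k => (h2.1 a).1 (Sum.inr k)) h1.1)))
    simpa only [map_add, map_sum, map_smul, add_sub_cancel_right, smul_sub,
      Finset.sum_sub_distrib, sub_add_cancel] using h10
  · have h10 := zer_sub h9 (zer_comb c h8)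
    simp only [smul_sub, Finset.sum_sub_distrib, sub_sub_cancel, ← map_smul, ← map_sum] at h10
    obtain ⟨u, hu, h11⟩ := h6 _ (sec_comb hc h7) h10
    obtain ⟨d, hd, h12⟩ := h1.2 u hu
    have h13 := F.zer_add h11 (h3 _ h12)
    obtain ⟨b, hb, h14⟩ := h2.2 (Sum.elim c fun k => -d k) (Sum.rec hc fun k => (hd k).neg) (by
      simpa only [Sum.elim_inl, Sum.elim_inr, neg_smul, Finset.sum_neg_distrib, map_sub, map_sum,
        map_smul, sub_add_sub_cancel, sub_eq_add_neg, map_add, map_neg, add_assoc,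
        neg_add_cancel_left] using h13)
    exact ⟨b, hb, fun j => h14 (Sum.inl j)⟩

/-- finite products -/
abbrev pi {κ : Type} [Finite κ] (F : κ → Sh E) : Sh E where
  α := ∀ k, (F k).α
  Sec y s := ∀ k, (F k).Sec y (s k)
  Zer y s := ∀ k, (F k).Zer y (s k)
  sec_zero y k := (F k).sec_zero y
  sec_add h h' k := (F k).sec_add (h k) (h' k)
  sec_smul hc h k := (F k).sec_smul hc (h k)
  zer_add h h' k := (F k).zer_add (h k) (h' k)
  zer_smul c h k := (F k).zer_smul c (h k)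
  zer_germ h s k := (F k).zer_germ h (s k)
  sec_nhds h := eventually_all.2 fun k => (F k).sec_nhds (h k)
  zer_nhds h := eventually_all.2 fun k => (F k).zer_nhds (h k)

theorem pi_gen {κ : Type} [Fintype κ] [DecidableEq κ] {F : κ → Sh E} {r : κ → ℕ}
    {e : ∀ k, Fin (r k) → (F k).α} (h : ∀ k, (F k).Gen y (e k)) :
    (pi F).Gen y fun p : Σ k, Fin (r k) => (Pi.single p.1 (e p.1 p.2) : ∀ k, (F k).α) := by
  refine ⟨fun p k => ?_, fun s hs => ?_⟩
  · rcases eq_or_ne k p.1 with rfl | h1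
    · simp only [Pi.single_eq_same]
      exact (h _).1 _
    · simp only [Pi.single_eq_of_ne h1]
      exact (F k).sec_zero y
  · choose c hc h1 using fun k => (h k).2 _ (hs k)
    refine ⟨fun p => c p.1 p.2, fun p => hc _ _, fun k => ?_⟩
    have h2 : (∑ p : Σ k, Fin (r k), c p.1 p.2 • (Pi.single p.1 (e p.1 p.2) : ∀ k, (F k).α)) k =
        ∑ j, c k j • e k j := by
      rw [Finset.sum_apply, Fintype.sum_sigma, Finset.sum_eq_single k]
      · simp only [Pi.smul_apply, Pi.single_eq_same]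
      · intro k' _ hk'
        simp only [Pi.smul_apply, Pi.single_eq_of_ne hk'.symm, smul_zero, Finset.sum_const_zero]
      · exact fun h4 => absurd (Finset.mem_univ k) h4
    have h3 := h1 k
    rw [← h2] at h3
    exact h3

theorem pi_ft {κ : Type} [Finite κ] {F : κ → Sh E} (h : ∀ k, (F k).FT z) : (pi F).FT z := by
  classical
  have := Fintype.ofFinite κ
  choose r e he using h
  exact FT.of_gen ((eventually_all.2 he).mono fun y hy => pi_gen hy)

theorem pi_fg {κ : Type} [Finite κ] {F : κ → Sh E} (h : ∀ k, (F k).FG z) : (pi F).FG z := by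
  classical
  have := Fintype.ofFinite κ
  choose r e he using h
  exact FG.of_gen (pi_gen he)

end Sh

/-- The ring of germs at `z` is Noetherian, in terms of representatives. -/
def Noeth (E : Type) [NormedAddCommGroup E] [NormedSpace ℂ E] (z : E) : Prop :=
  ∀ (r : ℕ) (S : Set (Fin r → E → ℂ)), (∀ c ∈ S, ∀ j, AnalyticAt ℂ (c j) z) →
    ∃ (q : ℕ) (ρ : Fin q → Fin r → E → ℂ), (∀ a, ρ a ∈ S) ∧ ∀ c ∈ S,
      ∃ b : Fin q → E → ℂ, (∀ a, AnalyticAt ℂ (b a) z) ∧ ∀ j, c j =ᶠ[𝓝 z] ∑ a, b a * ρ a j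

/-- **A submodule of a finite stalk is finite.** -/
theorem Sh.FG.of_inj {F G : Sh E} {z : E} (hN : Noeth E z) (hG : G.FG z)
    (φ : F.α →ₗ[E → ℂ] G.α) (sec : ∀ s, F.Sec z s → G.Sec z (φ s))
    (inj : ∀ s, F.Sec z s → G.Zer z (φ s) → F.Zer z s) : F.FG z := by
  obtain ⟨r, e, he⟩ := hG
  obtain ⟨q, ρ, h1, h2⟩ := hN r {c | (∀ j, AnalyticAt ℂ (c j) z) ∧
    ∃ s, F.Sec z s ∧ G.Zer z (φ s - ∑ j, c j • e j)} fun c hc => hc.1
  choose u hu hu' using fun a => (h1 a).2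
  refine ⟨q, u, hu, fun s hs => ?_⟩
  obtain ⟨c, hc, h3⟩ := he.2 _ (sec s hs)
  obtain ⟨b, hb, h4⟩ := h2 c ⟨hc, s, hs, h3⟩
  refine ⟨b, hb, inj _ (Sh.sec_sub hs (Sh.sec_comb hb hu)) ?_⟩
  have h5 := Sh.zer_sub (G.zer_add h3 (Sh.zer_comb' (fun j => eventuallyEq_iff_sub.1 (h4 j)) e))
    (Sh.zer_comb b hu')
  simp only [sub_smul, smul_sub, Finset.sum_sub_distrib, Sh.comb_comb, sub_add_sub_cancel,
    sub_sub_sub_cancel_right] at h5
  simpa only [map_sub, map_sum, map_smul] using h5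

end Vale.Agent.P277Z.Coh
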