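import Vale.Agent.P277Z.Coh.Sk

/-!
# P277Z, block COH1: the rest of the division can be made small
-/

open scoped Manifold ContDiff ComplexOrder Topology ENNReal Matrix
open MeasureTheory Filter Set Metric

noncomputable section

namespace Vale.Agent.P277Z.C1

open Vale.Agent.P272.K Vale.Agent.P301.H599 Vale.Agent.P285Z Vale.Agent.P277Z.Van
open Vale.Agent.P301.H98 (IsSection nrm)

namespace Amp

variable {d : ℕ} {X : Type} [TopologicalSpace X] [ChartedSpace (Cm d) X] {κ : Type}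
  {M : LineBundle d X κ} {ρ : κ → X → ℝ} {Ω : Set X} {s s' : κ → X → ℂ}

theorem nrm_eq (hs : SecOn M Ω s) (hρ : IsMetric M ρ) {x : X} {i : κ} (hx : x ∈ Ω)
    (hi : x ∈ M.U i) : nrm M ρ s x = ‖s i x‖ ^ 2 * Real.exp (-ρ i x) := by
  have h := nrm_eq_of_change (s := fun i => Ω.indicator (s i)) hρ (fun i j y hi hj => by
    by_cases hy : y ∈ Ω
    · simp only [indicator_of_mem hy, hs.change i j y hi hj hy]
    · simp only [indicator_of_notMem hy, mul_zero]) hi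
  rwa [nrm_congr (s' := s) fun _ _ => indicator_of_mem hx _, indicator_of_mem hx] at h

theorem at_chart (x : X) : At (chartAt (Cm d) x) x := ⟨chart_mem_atlas _ x, mem_chart_source _ x⟩

theorem cont_at {Y : Type} [TopologicalSpace Y] {f : X → Y} {e : Chart d X} {x : X} (hx : At e x)
    (h : ContinuousAt (fun z => f (e.symm z)) (e x)) : ContinuousAt f x :=
  (h.comp (f := e) (e.continuousAt hx.2)).congr
    (mem_of_superset (e.open_source.mem_nhds hx.2) fun _ hy => congrArg f (e.left_inv hy))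

theorem cont_nrm (hs : SecOn M Ω s) (hρ : IsMetric M ρ) (hΩ : IsOpen Ω) :
    ContinuousOn (nrm M ρ s) Ω := fun x hx => by
  obtain ⟨i, hi⟩ := M.cover x
  refine (((cont_at (at_chart x) (hs.holo i _ x (at_chart x) hi hx).continuousAt).norm.pow
    2).mul (cont_at (at_chart x)
      (hρ.smooth i _ x (at_chart x) hi).continuousAt).neg.rexp).congr ?_ |>.continuousWithinAt
  filter_upwards [hΩ.mem_nhds hx, (M.isOpen i).mem_nhds hi] with y h1 h2
  exact (nrm_eq hs hρ h1 h2).symm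

theorem sec_add (hs : SecOn M Ω s) (hs' : SecOn M Ω s') : SecOn M Ω (s + s') where
  holo i e x hx hi h := (hs.holo i e x hx hi h).add (hs'.holo i e x hx hi h)
  change i j x hi hj h := by
    simp only [Pi.add_apply, hs.change i j x hi hj h, hs'.change i j x hi hj h, mul_add]

theorem sec_zero : SecOn M Ω 0 where
  holo _ _ _ _ _ _ := analyticAt_const
  change _ _ _ _ _ _ := (mul_zero _).symm

theorem enorm_add_sq {E : Type} [NormedAddCommGroup E] (a b : E) :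
    ‖a + b‖ₑ ^ 2 ≤ 2 * ‖a‖ₑ ^ 2 + 2 * ‖b‖ₑ ^ 2 := by
  have h : ‖a + b‖₊ ^ 2 ≤ 2 * ‖a‖₊ ^ 2 + 2 * ‖b‖₊ ^ 2 := by
    rw [← NNReal.coe_le_coe]
    push_cast
    nlinarith [norm_add_le a b, norm_nonneg (a + b), norm_nonneg a, norm_nonneg b,
      sq_nonneg (‖a‖ - ‖b‖)]
  simp only [enorm_eq_nnnorm]
  exact_mod_cast h

variable [MeasurableSpace X] {μ : Measure X}

theorem nsq_zero : nsq μ M ρ Ω 0 = 0 := by
  simp [nsq, nrm]

theorem nsq_add [BorelSpace X] (hs : SecOn M Ω s) (hρ : IsMetric M ρ) (hΩ : IsOpen Ω) :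
    nsq μ M ρ Ω (s + s') ≤ 2 * nsq μ M ρ Ω s + 2 * nsq μ M ρ Ω s' := by
  have hm : AEMeasurable (fun x => ENNReal.ofReal (nrm M ρ s x)) (μ.restrict Ω) :=
    ((cont_nrm hs hρ hΩ).aemeasurable hΩ.measurableSet).ennreal_ofReal
  unfold nsq
  rw [← lintegral_const_mul' _ _ ENNReal.ofNat_ne_top,
    ← lintegral_const_mul' _ _ ENNReal.ofNat_ne_top, ← lintegral_add_left' (hm.const_mul 2)]
  refine lintegral_mono fun x => ?_
  refine (ENNReal.ofReal_le_ofReal (nrm_add_le M ρ s s' x)).trans ?_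
  refine ENNReal.ofReal_add_le.trans ?_
  rw [ENNReal.ofReal_mul zero_le_two, ENNReal.ofReal_mul zero_le_two, ENNReal.ofReal_ofNat]

variable {N n : ℕ} {B : PB d X N} {y : Cm N} {e : Fin n → κ → X → ℂ}

theorem div_zero : DivR μ M ρ B y Ω e 0 1 := fun g hg _ =>
  ⟨0, 0, g, fun _ => sec_zero, hg, fun i x _ _ => by simp [PB.mul], by simp,
    fun _ => by simp [nsq_zero], by simp⟩

theorem div_comp [BorelSpace X] (hρ : IsMetric M ρ) (hΩ : IsOpen Ω) {C C' η η' : ℝ≥0∞}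
    (hη : η ≠ ⊤) (h : DivR μ M ρ B y Ω e C η) (h' : DivR μ M ρ B y Ω e C' η') :
    DivR μ M ρ B y Ω e (2 * C + 2 * (C' * η)) (η' * η) := by
  intro g hg hfin
  obtain ⟨a, G, r, hG, hr, he, ha, hGn, hrn⟩ := h g hg hfin
  obtain ⟨a', G', r', hG', hr', he', ha', hGn', hrn'⟩ :=
    h' r hr (ne_top_of_le_ne_top (ENNReal.mul_ne_top hη hfin) hrn)
  have key : ∀ u v : ℝ≥0∞, u ≤ C * nsq μ M ρ Ω g → v ≤ C' * nsq μ M ρ Ω r →
      2 * u + 2 * v ≤ (2 * C + 2 * (C' * η)) * nsq μ M ρ Ω g := fun u v hu hv => by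
    rw [add_mul, mul_assoc, mul_assoc, mul_assoc]
    gcongr
    exact hv.trans (by gcongr)
  refine ⟨a + a', G + G', r', fun k => sec_add (hG k) (hG' k), hr', fun i x hi hx => ?_,
    (enorm_add_sq a a').trans (key _ _ ha ha'),
    fun k => (nsq_add (hG k) hρ hΩ).trans (key _ _ (hGn k) (hGn' k)), ?_⟩
  · have h1 := he i x hi hx
    have h2 := he' i x hi hx
    simp only [Pi.add_apply, Finset.sum_apply, Pi.smul_apply, smul_eq_mul, PB.mul, add_mul,
      mul_add, Finset.sum_add_distrib] at h1 h2 ⊢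
    rw [h1, h2]
    ring
  · rw [mul_assoc]
    exact hrn'.trans (by gcongr)

theorem div_mono {C η η' : ℝ≥0∞} (h : DivR μ M ρ B y Ω e C η) (hη : η ≤ η') :
    DivR μ M ρ B y Ω e C η' := fun g hg hfin =>
  let ⟨a, G, r, h1, h2, h3, h4, h5, h6⟩ := h g hg hfin
  ⟨a, G, r, h1, h2, h3, h4, h5, h6.trans (by gcongr)⟩

end Amp

theorem amp : AmpStmt := by
  intro d X _ _ _ _ μ κ M ρ hρ N B y Ω hΩ n e C hC h η hη
  have key : ∀ m : ℕ, ∃ C' : ℝ≥0∞, C' ≠ ⊤ ∧ DivR μ M ρ B y Ω e C' (2⁻¹ ^ m) := by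
    intro m
    induction m with
    | zero => exact ⟨0, ENNReal.zero_ne_top, by simpa using Amp.div_zero⟩
    | succ m ih =>
      obtain ⟨C', hC', h'⟩ := ih
      have h1 : (2⁻¹ : ℝ≥0∞) ^ m ≠ ⊤ := ENNReal.pow_ne_top (by simp)
      refine ⟨_, ?_, pow_succ' (2⁻¹ : ℝ≥0∞) m ▸ Amp.div_comp hρ hΩ h1 h' h⟩
      finiteness
  obtain ⟨m, hm⟩ := ENNReal.exists_inv_two_pow_lt hη
  obtain ⟨C', hC', h'⟩ := key m
  exact ⟨C', hC', Amp.div_mono h' hm.le⟩

end Vale.Agent.P277Z.C1
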