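import Vale.Agent.P277Z.Coh.Api

/-!
# P277Z, block COH1: the row CHAIN
-/

open scoped Manifold ContDiff ComplexOrder Topology ENNReal Matrix
open MeasureTheory Filter Set Metric

noncomputable section

namespace Vale.Agent.P277Z.C1

open Vale.Agent.P272.K Vale.Agent.P301.H599 Vale.Agent.P285Z Vale.Agent.P277Z.Van

namespace Chn

variable {d : ℕ} {X : Type} [TopologicalSpace X] [ChartedSpace (Cm d) X] {N : ℕ} (B : PB d X N)

theorem pd_sub {y : Cm N} {r : Fin N → ℝ} (h : B.Small y r) : B.pd y r ⊆ B.tube B.c B.R := by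
  rw [B.tube_eq_pd _ h.1]
  refine fun x hx => ⟨hx.1, fun k => ?_⟩
  have h1 := norm_sub_le_norm_sub_add_norm_sub (B.t x k) (y k) (B.c k)
  have h2 := hx.2 k
  have h3 := (h.2 k).2
  linarith

/-- the polydiscs between the small one and the large one -/
def D (c c' : Cm N) (r r' : ℝ) (m : ℕ) : Set X :=
  B.pd (fun k => if k.val < m then c' k else c k) fun k => if k.val < m then r' else r

variable {B} {c c' : Cm N} {r r' : ℝ} {m : ℕ}

theorem lt_of (h : ‖c - c'‖ + r ≤ r') {k : Fin N} {w : ℂ} (hw : ‖w - c k‖ < r) :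
    ‖w - c' k‖ < r' := by
  have h1 := norm_sub_le_norm_sub_add_norm_sub w (c k) (c' k)
  have h2 : ‖c k - c' k‖ ≤ ‖c - c'‖ := norm_le_pi_norm (c - c') k
  linarith

theorem small (hr : 0 < r) (h : ‖c - c'‖ + r ≤ r') (h' : ‖c' - B.c‖ + r' < B.R) (m : ℕ) :
    B.Small (fun k => if k.val < m then c' k else c k) fun k => if k.val < m then r' else r := by
  have h0 := norm_nonneg (c - c')
  have h1 := norm_nonneg (c' - B.c)
  refine ⟨by linarith, fun k => ?_⟩
  have h2 : ‖c k - c' k‖ ≤ ‖c - c'‖ := norm_le_pi_norm (c - c') k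
  have h3 : ‖c' k - B.c k‖ ≤ ‖c' - B.c‖ := norm_le_pi_norm (c' - B.c) k
  have h4 := norm_sub_le_norm_sub_add_norm_sub (c k) (c' k) (B.c k)
  by_cases hk : k.val < m <;> simp only [hk, if_true, if_false] <;> constructor <;> linarith

theorem D_zero (hr : 0 < r) : D B c c' r r' 0 = B.tube c r := by
  rw [B.tube_eq_pd _ hr]
  simp only [D, Nat.not_lt_zero, if_false]

theorem D_last (hr : 0 < r') : D B c c' r r' N = B.tube c' r' := by
  rw [B.tube_eq_pd _ hr]
  simp only [D, Fin.is_lt, if_true]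

theorem D_succ (h : ‖c - c'‖ + r ≤ r') (j : Fin N) :
    {x | x ∈ D B c c' r r' (j + 1) ∧ ‖B.t x j - c j‖ < r} = D B c c' r r' j := by
  ext x
  refine ⟨fun hx => ⟨hx.1.1, fun k => ?_⟩, fun hx => ⟨⟨hx.1, fun k => ?_⟩, ?_⟩⟩
  · have h1 := hx.1.2 k
    rcases lt_trichotomy k.val j.val with hk | hk | hk
    · simpa only [hk, hk.trans (Nat.lt_succ_self _), if_true] using h1
    · obtain rfl := Fin.ext hk
      simpa only [lt_irrefl, if_false] using hx.2
    · simpa only [hk.not_gt, (Nat.succ_le_of_lt hk).not_gt, if_false] using h1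
  · have h1 := hx.2 k
    rcases lt_trichotomy k.val j.val with hk | hk | hk
    · simpa only [hk, hk.trans (Nat.lt_succ_self _), if_true] using h1
    · obtain rfl := Fin.ext hk
      simp only [lt_irrefl, if_false] at h1
      simpa only [Nat.lt_succ_self, if_true] using lt_of h h1
    · simpa only [hk.not_gt, (Nat.succ_le_of_lt hk).not_gt, if_false] using h1
  · simpa only [lt_irrefl, if_false] using hx.2 j

theorem zero_sub (h : ‖c - c'‖ + r ≤ r') (m : ℕ) : D B c c' r r' 0 ⊆ D B c c' r r' m := by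
  refine fun x hx => ⟨hx.1, fun k => ?_⟩
  have h1 := hx.2 k
  simp only [Nat.not_lt_zero, if_false] at h1
  by_cases hk : k.val < m
  · simpa only [hk, if_true] using lt_of h h1
  · simpa only [hk, if_false] using h1

theorem bound (j : Fin N) {x : X} (hx : x ∈ D B c c' r r' (j + 1)) :
    ‖B.t x j - c j‖ ≤ r' + ‖c - c'‖ := by
  have h1 := hx.2 j
  simp only [Nat.lt_succ_self, if_true] at h1
  have h2 := norm_sub_le_norm_sub_add_norm_sub (B.t x j) (c' j) (c j)
  have h3 : ‖c j - c' j‖ ≤ ‖c - c'‖ := norm_le_pi_norm (c - c') j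
  rw [norm_sub_rev] at h3
  linarith

end Chn

open Chn

theorem chain (h1 : StepStmt) (h2 : ExhStmt) : ChainStmt := by
  intro d X _ _ _ _ _ _ _ h μ hh hμ κ M ρ hρ N B w hw hP c c' a r r' ha har hr hR
  have hr0 : 0 < r := ha.trans_lt har
  have hr1 : 0 < r' := by linarith [norm_nonneg (c - c')]
  have key : ∀ m ≤ N, ∃ C : ℝ≥0∞, C ≠ ⊤ ∧ ∀ y : Cm N, ‖y - c‖ ≤ a →
      ∀ g, SecOn M (D B c c' r r' 0) g → nsq μ M ρ (D B c c' r r' 0) g ≠ ⊤ →
      ∃ (F : κ → X → ℂ) (G : Fin N → κ → X → ℂ), (SecOn M (D B c c' r r' m) F ∧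
        (∀ k, SecOn M (D B c c' r r' 0) (G k)) ∧
        EqS M (D B c c' r r' 0) g (F + ∑ k, B.mul y k (G k)) ∧
        nsq μ M ρ (D B c c' r r' m) F ≤ C * nsq μ M ρ (D B c c' r r' 0) g ∧
        ∀ k, nsq μ M ρ (D B c c' r r' 0) (G k) ≤ C * nsq μ M ρ (D B c c' r r' 0) g) ∧
        ∀ k, m ≤ k.val → G k = 0 := by
    intro m
    induction m with
    | zero =>
      refine fun _ => ⟨1, ENNReal.one_ne_top, fun y _ g hg _ => ⟨g, 0, ⟨hg, fun _ => sec_zero,
        fun i x _ _ => ?_, by rw [one_mul], fun k => ?_⟩, fun _ _ => rfl⟩⟩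
      · simp only [Pi.zero_apply, B.mul_zero, Finset.sum_const_zero, add_zero]
      · rw [Pi.zero_apply, nsq_zero]
        exact bot_le
    | succ m ih =>
      intro hm
      obtain ⟨C, hC, ih⟩ := ih (Nat.le_of_succ_le hm)
      obtain ⟨j, rfl⟩ : ∃ j : Fin N, j.val = m := ⟨⟨m, hm⟩, rfl⟩
      obtain ⟨C₁, hC₁, st⟩ := h1 d X h μ hh hμ κ M ρ hρ (c j) a r (r' + ‖c - c'‖) ha har
      have hs := small (B := B) hr0 hr hR (j + 1)
      have hsub : D B c c' r r' (j + 1) ⊆ B.tube B.c B.R := pd_sub B hs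
      replace st := st (D B c c' r r' (j + 1)) ⟨h2 d X N B _ _ hs, w,
        fun e x hx k => hw.smooth e x hx (hsub k), fun e x hx k => hw.posDef e x hx (hsub k),
        fun e e' x hx hx' k => hw.change e e' x hx hx' (hsub k),
        fun e x hx k => hw.closed e x hx (hsub k)⟩ (fun e x hx k => hP e x hx (hsub k))
        (fun x => B.t x j) ((B.hol j).mono fun x hx => hx.1) fun x hx => bound j hx
      rw [D_succ hr j] at st
      refine ⟨C + C₁ * C, ENNReal.add_ne_top.2 ⟨hC, ENNReal.mul_ne_top hC₁ hC⟩,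
        fun y hy g hg hg' => ?_⟩
      obtain ⟨F, G, ⟨k1, k2, k3, k4, k5⟩, k6⟩ := ih y hy g hg hg'
      obtain ⟨F', G', l1, l2, l3, l4, l5⟩ := st (y j) ((norm_le_pi_norm (y - c) j).trans hy) F k1
        (ne_top_of_le_ne_top (ENNReal.mul_ne_top hC hg') k4)
      have hle : C₁ * nsq μ M ρ (D B c c' r r' j) F ≤
          (C + C₁ * C) * nsq μ M ρ (D B c c' r r' 0) g := by
        rw [add_mul, mul_assoc]
        exact (mul_le_mul_right k4 C₁).trans le_add_self
      have h0 := zero_sub (B := B) hr j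
      refine ⟨F', Function.update G j G', ⟨l1, fun k => ?_, fun i x hi hx => ?_, l4.trans hle,
        fun k => ?_⟩, fun k hk => ?_⟩
      · rcases eq_or_ne k j with rfl | hk
        · rw [Function.update_self]
          exact sec_mono l2 h0
        · rw [Function.update_of_ne hk]
          exact k2 k
      · have e : ∑ k, B.mul y k (Function.update G j G' k) =
            B.mul y j G' + ∑ k, B.mul y k (G k) := by
          rw [← Finset.add_sum_erase _ _ (Finset.mem_univ j), Function.update_self,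
            ← Finset.add_sum_erase _ (fun k => B.mul y k (G k)) (Finset.mem_univ j), k6 j le_rfl,
            B.mul_zero, zero_add]
          exact congrArg _ (Finset.sum_congr rfl fun k hk => by
            rw [Function.update_of_ne (Finset.ne_of_mem_erase hk)])
        rw [k3 i x hi hx, e, ← add_assoc]
        exact congrArg (· + (∑ k, B.mul y k (G k)) i x) (l3 i x hi (h0 hx))
      · rcases eq_or_ne k j with rfl | hk
        · rw [Function.update_self]
          exact (nsq_mono h0).trans (l5.trans hle)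
        · rw [Function.update_of_ne hk]
          exact (k5 k).trans (mul_le_mul_left le_self_add _)
      · rw [Function.update_of_ne fun e => by omega]
        exact k6 k (by omega)
  obtain ⟨C, hC, H⟩ := key N le_rfl
  rw [D_zero hr0, D_last hr1] at H
  refine ⟨C, hC, fun y hy g hg hg' => ?_⟩
  obtain ⟨F, G, k, -⟩ := H y hy g hg hg'
  exact ⟨F, G, k⟩

end Vale.Agent.P277Z.C1
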