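import Vale.Agent.P277Z.Coh.Sk
import Vale.Agent.P277Z.Van.Lim

/-!
# P277Z, block COH1: the restriction to a relatively compact open set is a compact map
-/

open scoped Manifold ContDiff ComplexOrder Topology ENNReal Matrix
open MeasureTheory Filter Set Metric

noncomputable section

namespace Vale.Agent.P277Z.C1

open Vale.Agent.P272.K Vale.Agent.P301.H599 Vale.Agent.P285Z Vale.Agent.P277Z.Van
open Vale.Agent.P301.H98 (IsSection nrm)

namespace Cpt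

theorem exists_sigma {X : Type} [TopologicalSpace X] [LocallyCompactSpace X] {K Ω : Set X}
    (hK : IsCompact K) (hΩ : IsOpen Ω) (h : K ⊆ Ω) :
    ∃ O, IsOpen O ∧ IsSigmaCompact O ∧ K ⊆ O ∧ O ⊆ Ω := by
  have key : ∀ L : {L : Set X // IsCompact L ∧ L ⊆ Ω}, ∃ L' : {L : Set X // IsCompact L ∧ L ⊆ Ω},
      L.1 ⊆ interior L'.1 := fun L =>
    let ⟨L', h1, h2, h3⟩ := exists_compact_between L.2.1 hΩ L.2.2
    ⟨⟨L', h1, h3⟩, h2⟩
  choose f hf using key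
  let L : ℕ → Set X := fun n => (f^[n] ⟨K, hK, h⟩).1
  have h1 : ∀ n, L n ⊆ interior (L (n + 1)) := fun n => by
    simp only [L, Function.iterate_succ_apply']
    exact hf _
  refine ⟨⋃ n, L n, isOpen_iff_mem_nhds.2 fun x hx => ?_,
    isSigmaCompact_iUnion_of_isCompact _ fun n => (f^[n] ⟨K, hK, h⟩).2.1, subset_iUnion L 0,
    iUnion_subset fun n => (f^[n] ⟨K, hK, h⟩).2.2⟩
  obtain ⟨n, hn⟩ := mem_iUnion.1 hx
  exact mem_of_superset (mem_interior_iff_mem_nhds.1 (h1 n hn)) (subset_iUnion L (n + 1))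

variable {d : ℕ} {X : Type} [TopologicalSpace X] [ChartedSpace (Cm d) X] {κ : Type}
  {M : LineBundle d X κ} {ρ : κ → X → ℝ} {Ω : Set X}

theorem nrm_sub_le (F G H : κ → X → ℂ) (x : X) : nrm M ρ (F - G) x ≤
    2 * nrm M ρ (fun i y => F i y - H i y) x + 2 * nrm M ρ (fun i y => G i y - H i y) x := by
  simp only [nrm, Pi.sub_apply]
  generalize F (M.cover x).choose x = a
  generalize G (M.cover x).choose x = b
  generalize H (M.cover x).choose x = c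
  have h1 : ‖a - b‖ ≤ ‖a - c‖ + ‖b - c‖ := by
    simpa using norm_sub_le (a - c) (b - c)
  have h2 : ‖a - b‖ ^ 2 ≤ 2 * ‖a - c‖ ^ 2 + 2 * ‖b - c‖ ^ 2 := by
    nlinarith [norm_nonneg (a - b), norm_nonneg (a - c), norm_nonneg (b - c),
      sq_nonneg (‖a - c‖ - ‖b - c‖)]
  nlinarith [Real.exp_pos (-ρ (M.cover x).choose x)]

theorem secOn_smul {F : κ → X → ℂ} (h : SecOn M Ω F) (c : ℂ) : SecOn M Ω (c • F) :=
  ⟨fun i e x h1 h2 h3 => analyticAt_const.mul (h.holo i e x h1 h2 h3), fun i j x h1 h2 h3 => by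
    simp only [Pi.smul_apply, smul_eq_mul, h.change i j x h1 h2 h3]; ring⟩

theorem nsq_smul [MeasurableSpace X] (μ : Measure X) (c : ℂ) (F : κ → X → ℂ) :
    nsq μ M ρ Ω (c • F) = ‖c‖ₑ ^ 2 * nsq μ M ρ Ω F := by
  rw [nsq, nsq, ← lintegral_const_mul' _ _ (by simp)]
  refine lintegral_congr fun x => ?_
  rw [← ofReal_norm, ← ENNReal.ofReal_pow (norm_nonneg _),
    ← ENNReal.ofReal_mul (by positivity)]
  simp only [nrm, Pi.smul_apply, smul_eq_mul, norm_mul, mul_pow, mul_assoc]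

end Cpt

theorem cpt (hv : Vol2Stmt) : CptStmt := by
  intro d X _ _ _ _ _ _ _ h μ hh hμ κ M ρ hρ Ω K Ω' hΩ hK hΩ' h1 h2 η hη
  classical
  have : LocallyCompactSpace X := ChartedSpace.locallyCompactSpace (Cm d) X
  have := (hv d X h μ hh hμ).1
  have net : ∃ T : Finset (κ → X → ℂ), (∀ e ∈ T, SecOn M Ω' e ∧ nsq μ M ρ Ω' e ≤ 1) ∧
      ∀ F, SecOn M Ω' F ∧ nsq μ M ρ Ω' F ≤ 1 → ∃ e ∈ T, nsq μ M ρ Ω (F - e) ≤ η := by
    by_contra hc
    obtain ⟨f, hf, hr⟩ := exists_seq_of_forall_finset_exists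
      (fun F : κ → X → ℂ => SecOn M Ω' F ∧ nsq μ M ρ Ω' F ≤ 1)
      (fun e F => η < nsq μ M ρ Ω (F - e)) fun T hT => by
        by_contra k
        refine hc ⟨T, hT, fun F hF => ?_⟩
        by_contra k'
        exact k ⟨F, hF, fun e he => not_le.1 fun k'' => k' ⟨e, he, k''⟩⟩
    obtain ⟨O, o1, o2, o3, o4⟩ := Cpt.exists_sigma hK hΩ' h2
    obtain ⟨G, -, n, hn, hG⟩ := lim d X h μ hh hμ O o1 o2 κ M ρ hρ f fun x hx =>
      ⟨Ω', hΩ', o4 hx, 1, ENNReal.one_ne_top, .of_forall hf⟩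
    obtain ⟨ε, hε, hε'⟩ := ENNReal.exists_nnreal_pos_mul_lt (hK.measure_lt_top (μ := μ)).ne hη
    obtain ⟨k, hk⟩ := eventually_atTop.1 (hG K hK o3 (ε / 4) (by positivity))
    refine absurd (hr _ _ (hn (Nat.lt_succ_self k))) (not_lt.2 (le_trans ?_ hε'.le))
    calc nsq μ M ρ Ω (f (n (k + 1)) - f (n k)) ≤ ∫⁻ _ in Ω, (ε : ℝ≥0∞) ∂μ := by
          refine setLIntegral_mono' hΩ.measurableSet fun x hx => ?_
          rw [← ENNReal.ofReal_coe_nnreal]
          refine ENNReal.ofReal_le_ofReal ((Cpt.nrm_sub_le _ _ G x).trans ?_)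
          linarith [hk (k + 1) (Nat.le_succ k) x (h1 hx), hk k le_rfl x (h1 hx)]
      _ ≤ ε * μ K := by
          rw [setLIntegral_const]
          exact mul_le_mul_right (measure_mono h1) _
  obtain ⟨T, hT, hn⟩ := net
  refine ⟨T.card, fun j => (T.equivFin.symm j).1, fun j => (hT _ (T.equivFin.symm j).2).1,
    fun F hF ht => ?_⟩
  by_cases h0 : nsq μ M ρ Ω' F = 0
  · refine ⟨0, by simp, ?_⟩
    simp only [Pi.zero_apply, zero_smul, Finset.sum_const_zero, sub_zero, h0, mul_zero]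
    exact h0 ▸ lintegral_mono_set (h1.trans h2)
  set c : ℝ := √(nsq μ M ρ Ω' F).toReal with hc
  have hc0 : 0 < c := Real.sqrt_pos.2 (ENNReal.toReal_pos h0 ht)
  have hc1 : (c : ℂ) ≠ 0 := by exact_mod_cast hc0.ne'
  have hc2 : ‖(c : ℂ)‖ₑ ^ 2 = nsq μ M ρ Ω' F := by
    rw [← ofReal_norm, ← ENNReal.ofReal_pow (norm_nonneg _), Complex.norm_real,
      Real.norm_eq_abs, sq_abs, hc, Real.sq_sqrt ENNReal.toReal_nonneg, ENNReal.ofReal_toReal ht]
  obtain ⟨e, he, hFe⟩ := hn ((c : ℂ)⁻¹ • F) ⟨Cpt.secOn_smul hF _, by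
    rw [Cpt.nsq_smul, ← hc2, ← mul_pow, ← enorm_mul, inv_mul_cancel₀ hc1]
    simp⟩
  refine ⟨Pi.single (T.equivFin ⟨e, he⟩) (c : ℂ), ?_, ?_⟩
  · rw [← hc2, ← ofReal_norm, ← ofReal_norm, Pi.norm_single]
  · have h3 : F - ∑ j, (Pi.single (T.equivFin ⟨e, he⟩) (c : ℂ) : Fin T.card → ℂ) j •
        (T.equivFin.symm j).1 = (c : ℂ) • ((c : ℂ)⁻¹ • F - e) := by
      rw [Finset.sum_eq_single (T.equivFin ⟨e, he⟩) (fun b _ hb => by
        rw [Pi.single_eq_of_ne hb, zero_smul]) (by simp), smul_sub, smul_smul,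
        mul_inv_cancel₀ hc1, one_smul]
      simp
    rw [h3, Cpt.nsq_smul, hc2, mul_comm]
    exact mul_le_mul_left hFe _

end Vale.Agent.P277Z.C1
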