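import Vale.Agent.P277Z.Coh.Sk
import Vale.Agent.P285Z.Chain

/-!
# P277Z, block COH1: the rows EXH and PUNC
-/

open scoped Manifold ContDiff ComplexOrder Topology ENNReal Matrix
open MeasureTheory Filter Set Metric

noncomputable section

namespace Vale.Agent.P277Z.C1

open Vale.Agent.P272.K Vale.Agent.P301.H599 Vale.Agent.P285Z Vale.Agent.P277Z.Van

namespace Ex

section loc

variable {d : ℕ} {u v : Cm d → ℝ} {z : Cm d}

/-- smooth and plurisubharmonic at a point -/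
structure SP (u : Cm d → ℝ) (z : Cm d) : Prop where
  sm : ContDiffAt ℝ ∞ u z
  psd : (cHess u z).PosSemidef

theorem two (h : ContDiffAt ℝ ∞ u z) : ContDiffAt ℝ 2 u z := h.of_le (by norm_cast)

theorem SP.add (h : SP u z) (h' : SP v z) : SP (fun y => u y + v y) z :=
  ⟨h.sm.add h'.sm, by
    rw [cHess_add (two h.sm) (two h'.sm)]
    exact h.psd.add h'.psd⟩

theorem sp_zero : SP (fun _ => (0 : ℝ)) z :=
  ⟨contDiffAt_const, by
    rw [C2.cHess_const]
    exact Matrix.PosSemidef.zero⟩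

theorem sp_sum {α : Type} (s : Finset α) {f : α → Cm d → ℝ} (h : ∀ i ∈ s, SP (f i) z) :
    SP (fun y => ∑ i ∈ s, f i y) z := by
  classical
  induction s using Finset.induction_on with
  | empty => simpa using sp_zero
  | insert i s hi ih =>
    simp only [Finset.sum_insert hi]
    exact (h i (Finset.mem_insert_self _ _)).add
      (ih fun j hj => h j (Finset.mem_insert_of_mem hj))

theorem cHess_nsq {F : Cm d → ℂ} (hF : AnalyticAt ℂ F z) (j k : Fin d) :
    cHess (fun y => ‖F y‖ ^ 2) z j k = dz j F z * cj (dz k F z) := by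
  have hev : ∀ᶠ y in 𝓝 z, DifferentiableAt ℂ F y :=
    hF.eventually_analyticAt.mono fun y hy => hy.differentiableAt
  have hkd : DifferentiableAt ℂ (dz k F) z := by
    have h1 : DifferentiableAt ℂ (fun y => fderiv ℂ F y (Pi.single k 1)) z :=
      hF.fderiv.differentiableAt.clm_apply (differentiableAt_const _)
    refine h1.congr_of_eventuallyEq ?_
    filter_upwards [hev] with y hy
    exact dz_of_holo hy
  have h0 : (fun y => ((‖F y‖ ^ 2 : ℝ) : ℂ)) = fun y => F y * cj (F y) := by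
    funext y
    rw [show cj (F y) = (starRingEnd ℂ) (F y) from rfl, Complex.mul_conj,
      Complex.normSq_eq_norm_sq]
  have hc : ∀ {G : Cm d → ℂ} {y}, DifferentiableAt ℝ G y →
      DifferentiableAt ℝ (fun y => cj (G y)) y :=
    fun hG => Complex.conjCLE.differentiableAt.comp _ hG
  have h1 : dzb k (fun y => F y * cj (F y)) =ᶠ[𝓝 z] fun y => F y * cj (dz k F y) := by
    filter_upwards [hev] with y hy
    have hr := hy.restrictScalars ℝ
    rw [dzb_mul hr (hc hr), dzb_cj hr, dzb_of_holo hy]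
    ring
  rw [cHess_apply, h0, dz_congr h1,
    dz_mul (hF.differentiableAt.restrictScalars ℝ) (hc (hkd.restrictScalars ℝ)),
    dz_cj (hkd.restrictScalars ℝ), dzb_of_holo hkd]
  simp [cj]

theorem sp_nsq {F : Cm d → ℂ} (hF : AnalyticAt ℂ F z) : SP (fun y => ‖F y‖ ^ 2) z := by
  refine ⟨((hF.contDiffAt (n := ∞)).restrict_scalars ℝ).norm_sq ℝ, ?_⟩
  have h1 : cHess (fun y => ‖F y‖ ^ 2) z =
      Matrix.vecMulVec (fun j => dz j F z) (star fun j => dz j F z) := by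
    ext j k
    rw [cHess_nsq hF]
    rfl
  rw [h1]
  exact Matrix.posSemidef_vecMulVec_self_star _

theorem SP.inv_sub (h : SP u z) {c : ℝ} (hc : u z < c) : SP (fun y => (c - u y)⁻¹) z := by
  have h0 : 0 < c - u z := sub_pos.2 hc
  refine ⟨(contDiffAt_const.sub h.sm).inv h0.ne', ?_⟩
  have H : ∀ᶠ s in 𝓝 (u z), HasDerivAt (fun s => (c - s)⁻¹) (((c - s) ^ 2)⁻¹) s := by
    filter_upwards [(isOpen_Iio (a := c)).mem_nhds hc] with s hs
    have h1 := ((hasDerivAt_id' s).const_sub c).fun_inv (sub_pos.2 hs).ne'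
    exact h1.congr_deriv (by simp)
  have H₁ : HasDerivAt (fun s => ((c - s) ^ 2)⁻¹) (2 * ((c - u z) ^ 3)⁻¹) (u z) := by
    have h1 := (((hasDerivAt_id' (u z)).const_sub c).fun_pow 2).fun_inv (pow_pos h0 2).ne'
    refine h1.congr_deriv ?_
    field_simp
    norm_num
    ring
  rw [Ch.cHess_chain' (h := fun s => (c - s)⁻¹) H H₁ (two h.sm)]
  exact (Ch.psd_smul (by positivity) h.psd).add
    (Ch.psd_smul (by positivity) (Ch.gm_psd (h.sm.differentiableAt (by simp))))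

end loc

variable {d : ℕ} {X : Type} [TopologicalSpace X] [ChartedSpace (Cm d) X] {Ω : Set X}

theorem contOn {E : Type} [TopologicalSpace E] {f : X → E}
    (h : ∀ (e : Chart d X) x, At e x → x ∈ Ω → ContinuousAt (fun z => f (e.symm z)) (e x)) :
    ∀ x ∈ Ω, ContinuousAt f x := by
  intro x hx
  have hs := mem_chart_source (Cm d) x
  have h1 := (h _ x ⟨chart_mem_atlas (Cm d) x, hs⟩ hx).comp
    ((chartAt (Cm d) x).continuousAt hs)
  refine h1.congr ?_
  filter_upwards [(chartAt (Cm d) x).open_source.mem_nhds hs] with y hy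
  simp only [Function.comp_apply, (chartAt (Cm d) x).left_inv hy]

theorem hol_cont {f : X → ℂ} (h : HolOn d Ω f) : ∀ x ∈ Ω, ContinuousAt f x :=
  contOn fun e x hx hΩ => (h e x hx hΩ).continuousAt

theorem sm_cont {f : X → ℝ} (h : SmOn (d := d) Ω f) : ∀ x ∈ Ω, ContinuousAt f x :=
  contOn fun e x hx hΩ => (h e x hx hΩ).continuousAt

theorem cpt_le [T2Space X] {C : Set X} (hC : IsCompact C) {f : X → ℝ}
    (hf : ∀ x ∈ C, ContinuousAt f x) (c : ℝ) : IsCompact {x | x ∈ C ∧ f x ≤ c} :=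
  hC.of_isClosed_subset
    (ContinuousOn.preimage_isClosed_of_isClosed (fun x hx => (hf x hx).continuousWithinAt)
      hC.isClosed isClosed_Iic) fun _ hx => hx.1

theorem mk_exh [T2Space X] {ψ : X → ℝ} (hΩ : IsOpen Ω)
    (h : ∀ (e : Chart d X) x, At e x → x ∈ Ω → SP (fun z => ψ (e.symm z)) (e x))
    (H : ∀ c : ℝ, ∃ C, IsCompact C ∧ C ⊆ Ω ∧ ∀ x ∈ Ω, ψ x ≤ c → x ∈ C) : Exh d Ω ψ := by
  have hs : SmOn (d := d) Ω ψ := fun e x hx hxΩ => (h e x hx hxΩ).sm
  refine ⟨hΩ, hs, fun e x hx hxΩ => (h e x hx hxΩ).psd, fun c => ?_⟩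
  obtain ⟨C, hC, hCΩ, hc⟩ := H c
  have e : {x | x ∈ Ω ∧ ψ x ≤ c} = {x | x ∈ C ∧ ψ x ≤ c} :=
    Set.ext fun x => ⟨fun hx => ⟨hc x hx.1 hx.2, hx.2⟩, fun hx => ⟨hCΩ hx.1, hx.2⟩⟩
  rw [e]
  exact cpt_le hC (fun x hx => sm_cont hs x (hCΩ hx)) c

end Ex

open Ex

theorem exh : ExhStmt := by
  intro d X _ _ _ N B y r hS
  have hsq : ∀ {a : ℂ} {k}, ‖a‖ < r k → ‖a‖ ^ 2 < r k ^ 2 := fun h =>
    pow_lt_pow_left₀ h (norm_nonneg _) two_ne_zero
  refine ⟨fun x => ∑ k, (r k ^ 2 - ‖B.t x k - y k‖ ^ 2)⁻¹, mk_exh ?_ ?_ ?_⟩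
  · refine isOpen_iff_mem_nhds.2 fun x hx => ?_
    have h1 : ∀ᶠ x' in 𝓝 x, ∀ k, ‖B.t x' k - y k‖ < r k := eventually_all.2 fun k =>
      ((hol_cont (B.hol k) x hx.1).sub continuousAt_const).norm.eventually_lt continuousAt_const
        (hx.2 k)
    filter_upwards [B.isOpen.mem_nhds hx.1, h1] with x' h2 h3 using ⟨h2, h3⟩
  · intro e x hx hxΩ
    refine sp_sum _ fun k _ => ?_
    refine (sp_nsq ((B.hol k e x hx hxΩ.1).sub analyticAt_const)).inv_sub ?_
    simp only [Pi.sub_apply, e.left_inv hx.2]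
    exact hsq (hxΩ.2 k)
  · intro c
    set K : Set (Cm N) := {w | ∀ k, 1 ≤ max c 1 * (r k ^ 2 - ‖w k - y k‖ ^ 2)} with hK
    have hm : 0 < max c 1 := lt_max_of_lt_right one_pos
    have hlt : ∀ w ∈ K, ∀ k, ‖w k - y k‖ < r k := fun w hw k => by
      have h1 : 0 < r k ^ 2 - ‖w k - y k‖ ^ 2 :=
        (mul_pos_iff_of_pos_left hm).1 (zero_lt_one.trans_le (hw k))
      exact lt_of_pow_lt_pow_left₀ 2 (hS.2 k).1.le (by linarith)
    have hKB : K ⊆ ball B.c B.R := fun w hw => by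
      rw [mem_ball, dist_eq_norm, pi_norm_lt_iff hS.1]
      intro k
      have h1 := norm_sub_le_norm_sub_add_norm_sub (w k) (y k) (B.c k)
      have h2 := hlt w hw k
      have h3 := (hS.2 k).2
      simp only [Pi.sub_apply]
      linarith
    have hKc : IsClosed K := by
      rw [hK, ofPred_forall]
      exact isClosed_iInter fun k => isClosed_le continuous_const (by fun_prop)
    refine ⟨_, B.proper K (isCompact_of_isClosed_isBounded hKc (isBounded_ball.subset hKB)) hKB,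
      fun x hx => ⟨hx.1, hlt _ hx.2⟩, fun x hx hc => ⟨hx.1, fun k => ?_⟩⟩
    have hp : ∀ k, 0 < r k ^ 2 - ‖B.t x k - y k‖ ^ 2 := fun k => sub_pos.2 (hsq (hx.2 k))
    have h1 : (r k ^ 2 - ‖B.t x k - y k‖ ^ 2)⁻¹ ≤ max c 1 :=
      ((Finset.single_le_sum (f := fun k => (r k ^ 2 - ‖B.t x k - y k‖ ^ 2)⁻¹)
        (fun k _ => (inv_pos.2 (hp k)).le) (Finset.mem_univ k)).trans hc).trans (le_max_left _ _)
    exact (inv_le_iff_one_le_mul₀ (hp k)).1 h1

theorem punc : PuncStmt := by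
  intro d X _ _ _ Ω ⟨⟨ψ, hψ⟩, w, hw⟩ τ hτ
  refine ⟨⟨fun x => ψ x + ‖(τ x)⁻¹‖ ^ 2, mk_exh ?_ ?_ ?_⟩, w,
    fun e x hx h => hw.smooth e x hx h.1, fun e x hx h => hw.posDef e x hx h.1,
    fun e e' x hx hx' h => hw.change e e' x hx hx' h.1, fun e x hx h => hw.closed e x hx h.1⟩
  · refine isOpen_iff_mem_nhds.2 fun x hx => ?_
    filter_upwards [hψ.isOpen.mem_nhds hx.1, (hol_cont hτ x hx.1).eventually_ne hx.2] with x' h2 h3
      using ⟨h2, h3⟩
  · intro e x hx hxΩ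
    refine SP.add ⟨hψ.sm e x hx hxΩ.1, hψ.psh e x hx hxΩ.1⟩
      (sp_nsq ((hτ e x hx hxΩ.1).inv ?_))
    simp only [e.left_inv hx.2]
    exact hxΩ.2
  · intro c
    refine ⟨_, cpt_le (hψ.cpt c) (f := fun x => (ψ x - c) * ‖τ x‖ ^ 2) (fun x hx =>
      ((sm_cont hψ.sm x hx.1).sub continuousAt_const).mul ((hol_cont hτ x hx.1).norm.pow 2)) (-1),
      fun x hx => ⟨hx.1.1, fun h0 => ?_⟩, fun x hx hc => ⟨⟨hx.1, ?_⟩, ?_⟩⟩
    · have h1 := hx.2
      simp only [h0, norm_zero] at h1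
      norm_num at h1
    · have := sq_nonneg ‖(τ x)⁻¹‖
      linarith
    · have h1 : 0 < ‖τ x‖ ^ 2 := pow_pos (norm_pos_iff.2 hx.2) 2
      have h2 : (‖τ x‖ ^ 2)⁻¹ ≤ c - ψ x := by
        rw [norm_inv, inv_pow] at hc
        linarith
      have h3 := (inv_le_iff_one_le_mul₀ h1).1 h2
      show (ψ x - c) * ‖τ x‖ ^ 2 ≤ -1
      linarith

end Vale.Agent.P277Z.C1
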