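import Vale.Agent.P277Z.Coh.Amp
import Vale.Agent.P299.H720.Montel

/-!
# P277Z, block COH1: the power series expansion
-/

open scoped Manifold ContDiff ComplexOrder Topology ENNReal Matrix
open MeasureTheory Filter Set Metric

noncomputable section

namespace Vale.Agent.P277Z.C1

open Vale.Agent.P272.K Vale.Agent.P301.H599 Vale.Agent.P285Z Vale.Agent.P277Z.Van
open Vale.Agent.P301.H98 (IsSection nrm nrm_nonneg)

namespace Iter

theorem sq_le {E : Type} [NormedAddCommGroup E] {N : ℕ} (u : Fin N → E) (v : E) :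
    ‖∑ k, u k + v‖ ^ 2 ≤ (N + 1) * (∑ k, ‖u k‖ ^ 2 + ‖v‖ ^ 2) := by
  have h := sq_sum_le_card_mul_sum_sq (s := Finset.univ)
    (f := fun o : Option (Fin N) => o.elim ‖v‖ fun k => ‖u k‖)
  simp only [Fintype.sum_option, Option.elim, Finset.card_univ, Fintype.card_option,
    Fintype.card_fin, Nat.cast_add, Nat.cast_one] at h
  rw [add_comm ‖v‖, add_comm (‖v‖ ^ 2)] at h
  exact (pow_le_pow_left₀ (norm_nonneg _) ((norm_add_le _ _).trans
    (add_le_add_left (norm_sum_le _ _) _)) 2).trans h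

theorem contr {N : ℕ} {t c W Q q : ℝ} {Q' u : Fin N → ℝ} {v : ℝ} (hW : 0 ≤ W) (hQ : 0 ≤ Q)
    (ht : (N + 1) * N * t ^ 2 * c ≤ 1 / 8) (h1 : ∀ k, Q' k ≤ c * Q)
    (h2 : q ≤ (4 * ((N : ℝ) + 1))⁻¹ * Q) (hu : ∀ k, u k ≤ t ^ 2 * (W * Q' k)) (hv : v ≤ W * q) :
    (N + 1) * (∑ k, u k + v) ≤ 3 / 8 * (W * Q) := by
  have e1 : ∑ k, u k ≤ N * (t ^ 2 * (W * (c * Q))) :=
    (Finset.sum_le_card_nsmul _ _ (t ^ 2 * (W * (c * Q))) fun k _ =>
      (hu k).trans (by gcongr; exact h1 k)).trans_eq (by simp)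
  have e2 : ((N : ℝ) + 1) * v ≤ 1 / 4 * (W * Q) :=
    (show _ ≤ ((N : ℝ) + 1) * (W * ((4 * ((N : ℝ) + 1))⁻¹ * Q)) by
      gcongr; exact hv.trans (by gcongr)).trans_eq (by field_simp)
  have e3 := mul_le_mul_of_nonneg_right ht (mul_nonneg hW hQ)
  have e4 := mul_le_mul_of_nonneg_left e1 (by positivity : (0 : ℝ) ≤ N + 1)
  nlinarith

variable {d : ℕ} {X : Type} [TopologicalSpace X] [ChartedSpace (Cm d) X] {κ : Type}
  {M : LineBundle d X κ} {ρ : κ → X → ℝ} {Ω Ω' : Set X} {N n : ℕ} {B : PB d X N} {y : Cm N}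
  {e : Fin n → κ → X → ℂ} {g : κ → X → ℂ}

theorem sec_mono (hg : SecOn M Ω g) (h : Ω' ⊆ Ω) : SecOn M Ω' g :=
  ⟨fun i e x h1 h2 h3 => hg.holo i e x h1 h2 (h h3),
    fun i j x h1 h2 h3 => hg.change i j x h1 h2 (h h3)⟩

theorem open_tube (B : PB d X N) (y : Cm N) (t : ℝ) : IsOpen (B.tube y t) :=
  ContinuousOn.isOpen_inter_preimage (fun x hx => (continuousAt_pi.2 fun k => Amp.cont_at
    (Amp.at_chart x) (B.hol k _ x (Amp.at_chart x) hx).continuousAt).continuousWithinAt)
    B.isOpen isOpen_ball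

variable (B e g) in
/-- the rest -/
def rem (S : Cm N → Cm n) : κ → X → ℂ := fun i x => g i x - ∑ j, S (B.t x) j * e j i x

theorem sec_rem {t : ℝ} (hg : SecOn M (B.tube y t) g) (he : ∀ j, SecOn M (B.tube y t) (e j))
    {S : Cm N → Cm n} (hS : DifferentiableOn ℂ S (ball y t)) :
    SecOn M (B.tube y t) (rem B e g S) where
  holo i c x h1 h2 h3 := (hg.holo i c x h1 h2 h3).fun_sub (Finset.analyticAt_fun_sum _ fun j _ =>
    (analyticAt_pi_iff.1 ((P268.analyticOnNhd_of_differentiableOn isOpen_ball hS _ h3.2).comp_of_eq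
      (analyticAt_pi_iff.2 fun k => B.hol k c x h1 h3.1) (by rw [c.left_inv h1.2])) j).fun_mul
      ((he j).holo i c x h1 h2 h3))
  change i j x h1 h2 h3 := by
    simp only [rem, hg.change i j x h1 h2 h3, fun l => (he l).change i j x h1 h2 h3, mul_sub,
      Finset.mul_sum, mul_left_comm]

variable [MeasurableSpace X] [BorelSpace X] {μ : Measure X}

theorem meas (hρ : IsMetric M ρ) (hg : SecOn M Ω g) (hΩ : IsOpen Ω) :
    AEMeasurable (fun x => ENNReal.ofReal (nrm M ρ g x)) (μ.restrict Ω) :=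
  ((Amp.cont_nrm hg hρ hΩ).aemeasurable hΩ.measurableSet).ennreal_ofReal

theorem approx (hρ : IsMetric M ρ) {δ t : ℝ} (htδ : t ≤ δ) (he : ∀ j, SecOn M (B.tube y δ) (e j))
    {C : ℝ≥0∞} (hC : C ≠ ⊤) (h : DivR μ M ρ B y (B.tube y δ) e C (4 * ((N : ℝ≥0∞) + 1))⁻¹)
    (ht : (N + 1) * N * t ^ 2 * C.toReal ≤ 1 / 8) (m : ℕ) :
    ∀ g, SecOn M (B.tube y δ) g → nsq μ M ρ (B.tube y δ) g ≠ ⊤ → ∃ S : Cm N → Cm n,
      Differentiable ℂ S ∧
      (∀ s ∈ ball y t, ‖S s‖ ^ 2 ≤ 8 * C.toReal * (nsq μ M ρ (B.tube y δ) g).toReal) ∧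
      nsq μ M ρ (B.tube y t) (rem B e g S) ≤
        ENNReal.ofReal (2⁻¹ ^ m * (nsq μ M ρ (B.tube y δ) g).toReal) := by
  have hsub : B.tube y t ⊆ B.tube y δ := fun x hx => ⟨hx.1, ball_subset_ball htδ hx.2⟩
  induction m with
  | zero =>
    refine fun g _ hf => ⟨0, differentiable_const _, fun s _ => by simp; positivity, ?_⟩
    rw [pow_zero, one_mul, ENNReal.ofReal_toReal hf,
      show rem B e g 0 = g from by ext; simp [rem]]
    exact lintegral_mono_set hsub
  | succ m ih =>
    intro g hg hf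
    obtain ⟨a, G, r, hG, hr, e1, e2, e3, e4⟩ := h g hg hf
    have f1 := ENNReal.mul_ne_top hC hf
    have f2 : (4 * ((N : ℝ≥0∞) + 1))⁻¹ * nsq μ M ρ (B.tube y δ) g ≠ ⊤ :=
      ENNReal.mul_ne_top (by simp) hf
    choose S hS b1 b2 using fun k => ih (G k) (hG k) (ne_top_of_le_ne_top f1 (e3 k))
    obtain ⟨T, hT, c1, c2⟩ := ih r hr (ne_top_of_le_ne_top f2 e4)
    have g2 := ENNReal.toReal_mono f1 e2
    have g3 := fun k => ENNReal.toReal_mono f1 (e3 k)
    have g4 := ENNReal.toReal_mono f2 e4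
    rw [ENNReal.toReal_mul, ENNReal.toReal_inv, ENNReal.toReal_mul,
      ENNReal.toReal_add (by simp) (by simp), ENNReal.toReal_natCast, ENNReal.toReal_one,
      ENNReal.toReal_ofNat] at g4
    simp only [ENNReal.toReal_mul, ENNReal.toReal_pow, toReal_enorm] at g2 g3
    have hk : ∀ s ∈ ball y t, ∀ k, ‖s k - y k‖ ^ 2 ≤ t ^ 2 := fun s hs k =>
      pow_le_pow_left₀ (norm_nonneg _)
        ((norm_le_pi_norm (s - y) k).trans (mem_ball_iff_norm.1 hs).le) 2
    refine ⟨fun s => a + (∑ k, (s k - y k) • S k s + T s), by fun_prop, fun s hs => ?_, ?_⟩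
    · have h1 := (sq_le (fun k => (s k - y k) • S k s) (T s)).trans
        (contr (by positivity) ENNReal.toReal_nonneg ht g3 g4 (fun k => by
          rw [norm_smul, mul_pow]
          exact mul_le_mul (hk s hs k) (b1 k s hs) (by positivity) (by positivity)) (c1 s hs))
      have h2 := pow_le_pow_left₀ (norm_nonneg _)
        (norm_add_le a (∑ k, (s k - y k) • S k s + T s)) 2
      nlinarith [sq_nonneg (‖a‖ - ‖∑ k, (s k - y k) • S k s + T s‖)]
    have m1 := fun k => meas (μ := μ) hρ (sec_rem (sec_mono (hG k) hsub)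
      (fun j => sec_mono (he j) hsub) (hS k).differentiableOn) (open_tube B y t)
    calc _ ≤ ∫⁻ x in B.tube y t, ENNReal.ofReal (N + 1) * (∑ k, ENNReal.ofReal (t ^ 2) *
            ENNReal.ofReal (nrm M ρ (rem B e (G k) (S k)) x) +
            ENNReal.ofReal (nrm M ρ (rem B e r T) x)) ∂μ := by
          refine setLIntegral_mono' (open_tube B y t).measurableSet fun x hx => ?_
          simp only [← ENNReal.ofReal_mul (sq_nonneg t)]
          rw [← ENNReal.ofReal_sum_of_nonneg fun k _ => mul_nonneg (sq_nonneg t) (nrm_nonneg x),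
            ← ENNReal.ofReal_add (Finset.sum_nonneg fun k _ =>
              mul_nonneg (sq_nonneg t) (nrm_nonneg x)) (nrm_nonneg x),
            ← ENNReal.ofReal_mul (by positivity)]
          refine ENNReal.ofReal_le_ofReal ?_
          have h1 := e1 _ x (M.cover x).choose_spec (hsub hx)
          unfold nrm
          generalize (M.cover x).choose = i at h1 ⊢
          simp only [← mul_assoc, ← Finset.sum_mul, ← add_mul]
          refine mul_le_mul_of_nonneg_right ?_ (Real.exp_pos _).le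
          rw [show rem B e g (fun s => a + (∑ k, (s k - y k) • S k s + T s)) i x =
            ∑ k, (B.t x k - y k) * rem B e (G k) (S k) i x + rem B e r T i x by
              simp only [rem, h1, Pi.add_apply, Finset.sum_apply, Pi.smul_apply, smul_eq_mul,
                PB.mul, add_mul, mul_sub, Finset.sum_add_distrib, Finset.sum_sub_distrib,
                Finset.sum_mul, Finset.mul_sum, mul_assoc]
              rw [Finset.sum_comm]
              ring]
          refine (sq_le _ _).trans ?_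
          gcongr with k
          rw [norm_mul, mul_pow]
          exact mul_le_mul_of_nonneg_right (hk _ hx.2 k) (sq_nonneg _)
      _ ≤ ENNReal.ofReal (N + 1) * (∑ k, ENNReal.ofReal (t ^ 2) *
            ENNReal.ofReal (2⁻¹ ^ m * (nsq μ M ρ (B.tube y δ) (G k)).toReal) +
            ENNReal.ofReal (2⁻¹ ^ m * (nsq μ M ρ (B.tube y δ) r).toReal)) := by
          rw [lintegral_const_mul' _ _ ENNReal.ofReal_ne_top, lintegral_add_left'
            (Finset.aemeasurable_fun_sum _ fun k _ => (m1 k).const_mul _),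
            lintegral_finsetSum' _ fun k _ => (m1 k).const_mul _]
          simp only [lintegral_const_mul' _ _ ENNReal.ofReal_ne_top]
          gcongr with k
          exacts [b2 k, c2]
      _ ≤ _ := by
          simp only [← ENNReal.ofReal_mul (sq_nonneg t)]
          rw [← ENNReal.ofReal_sum_of_nonneg fun k _ => by positivity,
            ← ENNReal.ofReal_add (by positivity) (by positivity),
            ← ENNReal.ofReal_mul (by positivity)]
          refine ENNReal.ofReal_le_ofReal ((contr (by positivity) ENNReal.toReal_nonneg ht g3 g4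
            (fun _ => le_rfl) le_rfl).trans ?_)
          rw [pow_succ', mul_assoc]
          gcongr
          norm_num

end Iter

open Iter

/-- (ITER) -/
theorem iter : IterStmt := by
  intro d X _ _ _ _ μ _ κ M ρ hρ N B y δ hδ n e he C hC h
  have h1 : ∀ᶠ t in 𝓝[>] (0 : ℝ), (N + 1) * N * t ^ 2 * C.toReal ≤ 1 / 8 :=
    (((by fun_prop : Continuous fun t : ℝ => (N + 1) * N * t ^ 2 * C.toReal).tendsto 0).eventually
      (ge_mem_nhds (by simp))).filter_mono nhdsWithin_le_nhds
  obtain ⟨t, ht, h0, htδ⟩ := (h1.and (Ioc_mem_nhdsGT hδ)).exists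
  refine ⟨t, h0, htδ, fun g hg hf => ?_⟩
  have hsub : B.tube y t ⊆ B.tube y δ := fun x hx => ⟨hx.1, ball_subset_ball htδ hx.2⟩
  have hg' := sec_mono hg hsub
  have he' := fun j => sec_mono (he j) hsub
  have hO := open_tube B y t
  choose S hS b1 b2 using fun m => approx hρ htδ he hC h ht m g hg hf
  obtain ⟨a, ha, -, h2⟩ := P299.H720.montel_full (hyperfilter ℕ) (f := S) (U := ball y t)
    isOpen_ball fun s hs => by
      obtain ⟨r, hr, h3⟩ := Metric.isOpen_iff.1 isOpen_ball s hs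
      exact ⟨r, hr, _, .of_forall fun m => ⟨(hS m).differentiableOn,
        fun z hz => Real.le_sqrt_of_sq_le (b1 m z (h3 hz))⟩⟩
  have m1 := fun m => meas (μ := μ) hρ (sec_rem hg' he' (hS m).differentiableOn) hO
  have h3 := ae_lt_top' (AEMeasurable.tsum m1) (by
    rw [lintegral_tsum m1]
    exact ne_top_of_le_ne_top ((summable_geometric_of_lt_one (by norm_num)
      (by norm_num)).mul_right _).tsum_ofReal_ne_top (ENNReal.tsum_le_tsum b2))
  have h4 : EqOn (nrm M ρ (rem B e g a)) 0 (B.tube y t) := by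
    refine Measure.eqOn_open_of_ae_eq (μ := μ) ?_ hO (Amp.cont_nrm (sec_rem hg' he' ha) hρ hO)
      continuousOn_const
    filter_upwards [h3, ae_restrict_mem hO.measurableSet] with x h4 hx
    have h5 := (ENNReal.tendsto_atTop_zero_of_tsum_ne_top h4.ne).mono_left Nat.hyperfilter_le_atTop
    have h6 := ENNReal.tendsto_ofReal (((by fun_prop : Continuous fun v : Cm n =>
      ‖g (M.cover x).choose x - ∑ j, v j * e j (M.cover x).choose x‖ ^ 2 *
        Real.exp (-ρ (M.cover x).choose x)).tendsto _).comp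
      (h2 _ hx.2 (fun _ => B.t x) tendsto_const_nhds))
    exact le_antisymm (ENNReal.ofReal_eq_zero.1 (tendsto_nhds_unique h6 h5)) (nrm_nonneg x)
  refine ⟨fun j s => a s j, fun j s hs => analyticAt_pi_iff.1
    (P268.analyticOnNhd_of_differentiableOn isOpen_ball ha s hs) j, fun i x hi hx => ?_⟩
  have h5 := (Amp.nrm_eq (sec_rem hg' he' ha) hρ hx hi).symm.trans (h4 hx)
  simpa [rem, sub_eq_zero] using h5

end Vale.Agent.P277Z.C1
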