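import Vale.Agent.P277Z.Coh.Sk
import Vale.Agent.P277Z.Van.Riem

/-! P277Z, block COH1: extension across the zero set of a holomorphic function. -/

open scoped Manifold ContDiff ComplexOrder Topology ENNReal Matrix
open MeasureTheory Filter Set Metric

noncomputable section

namespace Vale.Agent.P277Z.C1

open Vale.Agent.P272.K Vale.Agent.P301.H599 Vale.Agent.P285Z Vale.Agent.P277Z.Van
open Vale.Agent.P301.H98 (nrm)
open Vale.Agent.P277Z.Van.RiemH (at_self)

namespace RzH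

variable {d : ℕ} {X : Type} [TopologicalSpace X] [ChartedSpace (Cm d) X] {Ω : Set X} {τ : X → ℂ}

theorem isOpen_freq (hΩ : IsOpen Ω) (hτ : HolOn d Ω τ) :
    IsOpen {x | x ∈ Ω ∧ ∃ᶠ y in 𝓝 x, τ y ≠ 0} := by
  refine isOpen_iff_mem_nhds.2 fun x hx => ?_
  set e := chartAt (Cm d) x
  have hxe : At e x := at_self x
  obtain ⟨r, hr, hb⟩ := Metric.eventually_nhds_iff_ball.1
    (hxe.nhds_target.and (ev_chart hxe (hΩ.eventually_mem hx.1)))
  have han : AnalyticOnNhd ℂ (fun z => τ (e.symm z)) (ball (e x) r) := fun z hz => by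
    have := hτ e (e.symm z) (At.of_target hxe.1 (hb z hz).1) (hb z hz).2
    rwa [e.right_inv (hb z hz).1] at this
  filter_upwards [(e.isOpen_inter_preimage isOpen_ball).mem_nhds ⟨hxe.2, mem_ball_self hr⟩,
    hΩ.mem_nhds hx.1] with y hy hyΩ
  refine ⟨hyΩ, fun h => hx.2 (ev_of_chart hxe ?_)⟩
  have hzero := han.eqOn_zero_of_preconnected_of_eventuallyEq_zero
    (convex_ball _ _).isPreconnected hy.2
    ((ev_chart (⟨hxe.1, hy.1⟩ : At e y) h).mono fun z hz => not_not.1 hz)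
  filter_upwards [ball_mem_nhds (e x) hr] with z hz
  exact not_not.2 (hzero hz)

theorem sigma (d : ℕ) [ChartedSpace (Cm d) X] [SigmaCompactSpace X] (hΩ : IsOpen Ω) :
    IsSigmaCompact Ω := by
  have := ChartedSpace.secondCountable_of_sigmaCompact (Cm d) X
  have := ChartedSpace.locallyCompactSpace (Cm d) X
  have := hΩ.locallyCompactSpace
  exact isSigmaCompact_iff_sigmaCompactSpace.2 inferInstance

end RzH

open RzH in
theorem rz : RzStmt := by
  classical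
  intro d X _ _ _ _ _ _ _ h μ hh hμ κ M ρ hρ Ω hΩ τ hτ G G₀ hG hfin hG₀
  set O : Set X := {x | x ∈ Ω ∧ τ x ≠ 0}
  set Z : Set X := {x | x ∈ Ω ∧ ∀ᶠ y in 𝓝 x, τ y = 0}
  set W : Set X := {x | x ∈ Ω ∧ ∃ᶠ y in 𝓝 x, τ y ≠ 0}
  have hW : IsOpen W := isOpen_freq hΩ hτ
  have hZ : IsOpen Z := hΩ.inter isOpen_setOfPred_eventually_nhds
  have hn : ∀ x, nrm (trivB d X) (fun _ _ => 0) (fun _ => τ) x ≠ 0 ↔ τ x ≠ 0 := fun x => by
    simp [nrm]
  have hOW : O ⊆ W := fun x hx => ⟨hx.1, fun h => h.self_of_nhds hx.2⟩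
  have hO : {x | x ∈ W ∧ nrm (trivB d X) (fun _ _ => 0) (fun _ => τ) x ≠ 0} = O :=
    Set.ext fun x => ⟨fun hx => ⟨hx.1.1, (hn x).1 hx.2⟩, fun hx => ⟨hOW hx, (hn x).2 hx.2⟩⟩
  have hWZ : ∀ x ∈ W, x ∉ Z := fun x hx h => hx.2 (h.2.mono fun y hy => not_not.2 hy)
  have hcov : ∀ x ∈ Ω, x ∈ W ∨ x ∈ Z := fun x hx => by
    by_cases h : ∃ᶠ y in 𝓝 x, τ y ≠ 0
    · exact Or.inl ⟨hx, h⟩
    · exact Or.inr ⟨hx, (not_frequently.1 h).mono fun y hy => not_not.1 hy⟩
  obtain ⟨h1, h2⟩ := riem d X h μ hh hμ W hW (sigma d hW) Unit (trivB d X) (fun _ _ => 0)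
    (fun _ => τ) ⟨fun _ _ _ _ _ => contDiffAt_const, fun _ _ _ _ _ => by simp [trivB]⟩
    ⟨fun _ e x he _ hx => hτ e x he hx.1, fun _ _ _ _ _ _ => (one_mul _).symm⟩
    fun x hx => hx.2.mono fun y hy => (hn y).2 hy
  rw [hO] at h2
  obtain ⟨F, hF, hFG⟩ := h2 κ M ρ hρ G hG fun x _ => ⟨univ, univ_mem, by rwa [univ_inter]⟩
  have e1 : ∀ i, ∀ x ∈ W, (if x ∈ Z then G₀ i x else F i x) = F i x :=
    fun i x hx => if_neg (hWZ x hx)
  have e2 : ∀ i, ∀ x ∈ Z, (if x ∈ Z then G₀ i x else F i x) = G₀ i x := fun i x hx => if_pos hx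
  have e3 : EqS M O (fun i x => if x ∈ Z then G₀ i x else F i x) G := fun i x hi hx =>
    (e1 i x (hOW hx)).trans (hFG i x hi (hOW hx) ((hn x).2 hx.2))
  refine ⟨fun i x => if x ∈ Z then G₀ i x else F i x,
    ⟨fun i e x he hi hx => ?_, fun i j x hi hj hx => ?_⟩, e3, fun i x _ hx => e2 i x hx, ?_⟩
  · rcases hcov x hx with h3 | h3
    · exact (hF.holo i e x he hi h3).congr
        ((ev_chart he (hW.eventually_mem h3)).mono fun z hz => (e1 i _ hz).symm)
    · exact (hG₀.holo i e x he hi h3).congr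
        ((ev_chart he (hZ.eventually_mem h3)).mono fun z hz => (e2 i _ hz).symm)
  · rcases hcov x hx with h3 | h3
    · rw [e1 i x h3, e1 j x h3]
      exact hF.change i j x hi hj h3
    · rw [e2 i x h3, e2 j x h3]
      exact hG₀.change i j x hi hj h3
  · refine (lintegral_mono_set (t := W ∪ Z) hcov).trans ((lintegral_union_le _ _ _).trans
      (add_le_add ?_ (le_of_eq (setLIntegral_congr_fun hZ.measurableSet fun x hx => ?_))))
    · refine le_trans (le_of_eq (lintegral_congr_ae ?_))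
        ((lintegral_mono' Measure.restrict_le_self le_rfl).trans (lintegral_indicator_le _ O))
      filter_upwards [h1, ae_restrict_mem hW.measurableSet] with x a1 a2
      have a3 : x ∈ O := ⟨a2.1, (hn x).1 a1⟩
      rw [indicator_of_mem a3]
      exact congrArg (fun c => ENNReal.ofReal (‖c‖ ^ 2 * _)) (e3 _ x (M.cover x).choose_spec a3)
    · exact congrArg (fun c => ENNReal.ofReal (‖c‖ ^ 2 * _)) (e2 _ x hx)

end Vale.Agent.P277Z.C1
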