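import Vale.Agent.P277Z.Coh.Sk
import Mathlib.Analysis.Calculus.BumpFunction.FiniteDimension

/-!
# P277Z, block COH1: division in one variable
-/

open scoped Manifold ContDiff ComplexOrder Topology ENNReal Matrix
open MeasureTheory Filter Set Metric

noncomputable section

namespace Vale.Agent.P277Z.C1

open Vale.Agent.P272.K Vale.Agent.P301.H599 Vale.Agent.P285Z Vale.Agent.P277Z.Van
open Vale.Agent.P301.H98 (IsSection nrm)

namespace StepAux

variable {d : ℕ} {X : Type} [TopologicalSpace X] [ChartedSpace (Cm d) X] {κ : Type}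
  {M : LineBundle d X κ} {ρ : κ → X → ℝ} {Ω Ω' : Set X} {s s' : κ → X → ℂ} {f : X → ℂ} {x : X}

theorem at_chart (x : X) : At (chartAt (Cm d) x) x := ⟨chart_mem_atlas _ x, mem_chart_source _ x⟩

theorem cont_of_chart {α : Type} [TopologicalSpace α] {F : X → α} {e : Chart d X} (he : At e x)
    (h : ContinuousAt (fun z => F (e.symm z)) (e x)) : ContinuousAt F x := by
  refine (h.comp (f := e) (e.continuousAt he.2)).congr ?_
  filter_upwards [e.open_source.mem_nhds he.2] with y hy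
  simp only [Function.comp, e.left_inv hy]

theorem hol_cont (hf : HolOn d Ω f) (hx : x ∈ Ω) : ContinuousAt f x :=
  cont_of_chart (at_chart x) (hf _ x (at_chart x) hx).continuousAt

theorem sec_cont (hs : SecOn M Ω s) (hx : x ∈ Ω) {i : κ} (hi : x ∈ M.U i) : ContinuousAt (s i) x :=
  cont_of_chart (at_chart x) (hs.holo i _ x (at_chart x) hi hx).continuousAt

theorem nrm_at (hρ : IsMetric M ρ) (hs : SecOn M Ω s) (hx : x ∈ Ω) {i : κ} (hi : x ∈ M.U i) :
    nrm M ρ s x = ‖s i x‖ ^ 2 * Real.exp (-ρ i x) := by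
  have hj := (M.cover x).choose_spec
  have h1 := norm_pos_iff.2 (M.ne_zero _ _ x hi hj)
  have h0 : 0 < ‖M.g i (M.cover x).choose x‖ ^ 2 := pow_pos h1 2
  rw [nrm, hs.change i _ x hi hj hx, hρ.change i _ x hi hj, neg_add, Real.exp_add, norm_mul,
    mul_pow, Real.exp_neg (Real.log _), Real.exp_log h0]
  field_simp

theorem contOn_nrm (hρ : IsMetric M ρ) (hs : SecOn M Ω s) (hΩ : IsOpen Ω) :
    ContinuousOn (nrm M ρ s) Ω := fun x hx => by
  obtain ⟨i, hi⟩ := M.cover x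
  have h1 : ContinuousAt (ρ i) x :=
    cont_of_chart (at_chart x) (hρ.smooth i _ x (at_chart x) hi).continuousAt
  refine (ContinuousAt.congr (((sec_cont hs hx hi).norm.pow 2).mul h1.neg.rexp) ?_).continuousWithinAt
  filter_upwards [hΩ.mem_nhds hx, (M.isOpen i).mem_nhds hi] with y h2 h3
  exact (nrm_at hρ hs h2 h3).symm

theorem sec_mono (hs : SecOn M Ω s) (h : Ω' ⊆ Ω) : SecOn M Ω' s :=
  ⟨fun i e x h1 h2 h3 => hs.holo i e x h1 h2 (h h3),
    fun i j x h1 h2 h3 => hs.change i j x h1 h2 (h h3)⟩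

theorem sec_mul (hf : HolOn d Ω f) (hs : SecOn M Ω s) : SecOn M Ω fun i x => f x * s i x :=
  ⟨fun i e x h1 h2 h3 => (hf e x h1 h3).mul (hs.holo i e x h1 h2 h3),
    fun i j x h1 h2 h3 => by rw [hs.change i j x h1 h2 h3]; ring⟩

theorem sec_div (hf : HolOn d Ω f) (h0 : ∀ x ∈ Ω, f x ≠ 0) (hs : SecOn M Ω s) :
    SecOn M Ω fun i x => s i x / f x :=
  ⟨fun i e x h1 h2 h3 => (hs.holo i e x h1 h2 h3).div (hf e x h1 h3)
      (by rw [e.left_inv h1.2]; exact h0 x h3),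
    fun i j x h1 h2 h3 => by rw [hs.change i j x h1 h2 h3]; ring⟩

theorem sec_sub (hs : SecOn M Ω s) (hs' : SecOn M Ω s') : SecOn M Ω fun i x => s i x - s' i x :=
  ⟨fun i e x h1 h2 h3 => (hs.holo i e x h1 h2 h3).sub (hs'.holo i e x h1 h2 h3),
    fun i j x h1 h2 h3 => by rw [hs.change i j x h1 h2 h3, hs'.change i j x h1 h2 h3]; ring⟩

theorem sec_zero : SecOn M Ω fun _ _ => 0 :=
  ⟨fun _ _ _ _ _ _ => analyticAt_const, fun _ _ _ _ _ _ => by simp⟩

theorem isOpen_sep (hΩ : IsOpen Ω) (hf : HolOn d Ω f) {W : Set ℂ} (hW : IsOpen W) :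
    IsOpen {x | x ∈ Ω ∧ f x ∈ W} :=
  ContinuousOn.isOpen_inter_preimage (fun _ hx => (hol_cont hf hx).continuousWithinAt) hΩ hW

theorem sq_add_le (u v : ℂ) : ‖u + v‖ ^ 2 ≤ 2 * ‖u‖ ^ 2 + 2 * ‖v‖ ^ 2 := by
  have h := pow_le_pow_left₀ (norm_nonneg _) (norm_add_le u v) 2
  nlinarith [sq_nonneg (‖u‖ - ‖v‖)]

/-- integration of a pointwise bound -/
theorem bound [MeasurableSpace X] [BorelSpace X] (μ : Measure X) {S U : Set X} (hS : IsOpen S)
    (hSU : S ⊆ U) (hΩ : IsOpen Ω) {φ q n : X → ℝ} (hn : ContinuousOn n Ω) {A B : ℝ} (hA : 0 ≤ A)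
    (hB : 0 ≤ B) (h : ∀ x ∈ S, φ x ≤ A * q x + B * Ω.indicator n x) :
    ∫⁻ x in S, ENNReal.ofReal (φ x) ∂μ ≤ ENNReal.ofReal A * ∫⁻ x in U, ENNReal.ofReal (q x) ∂μ +
      ENNReal.ofReal B * ∫⁻ x in Ω, ENNReal.ofReal (n x) ∂μ := by
  have hm : AEMeasurable (fun x => ENNReal.ofReal B *
      Ω.indicator (fun x => ENNReal.ofReal (n x)) x) μ :=
    ((aemeasurable_indicator_iff hΩ.measurableSet).2
      (hn.aemeasurable hΩ.measurableSet).ennreal_ofReal).const_mul _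
  calc ∫⁻ x in S, ENNReal.ofReal (φ x) ∂μ
      ≤ ∫⁻ x in S, (ENNReal.ofReal A * ENNReal.ofReal (q x) +
          ENNReal.ofReal B * Ω.indicator (fun x => ENNReal.ofReal (n x)) x) ∂μ := by
        refine setLIntegral_mono' hS.measurableSet fun x hx => ?_
        refine (ENNReal.ofReal_le_ofReal (h x hx)).trans (ENNReal.ofReal_add_le.trans ?_)
        rw [ENNReal.ofReal_mul hA, ENNReal.ofReal_mul hB]
        refine add_le_add le_rfl (le_of_eq ?_)
        by_cases hx' : x ∈ Ω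
        · rw [indicator_of_mem hx', indicator_of_mem hx']
        · rw [indicator_of_notMem hx', indicator_of_notMem hx', ENNReal.ofReal_zero]
    _ ≤ _ := by
        rw [lintegral_add_right' _ hm.restrict, lintegral_const_mul' _ _ ENNReal.ofReal_ne_top,
          lintegral_const_mul' _ _ ENNReal.ofReal_ne_top]
        refine add_le_add (mul_le_mul_right (lintegral_mono_set hSU) _) (mul_le_mul_right ?_ _)
        rw [← lintegral_indicator hΩ.measurableSet]
        exact setLIntegral_le_lintegral _ _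

/-- the cut off function -/
theorem exists_cut (c : ℂ) {a r : ℝ} (ha : 0 ≤ a) (har : a < r) : ∃ (χ : ℂ → ℝ) (b L : ℝ),
    ContDiff ℝ ∞ χ ∧ 0 < b ∧ (∀ z, 0 ≤ χ z ∧ χ z ≤ 1) ∧ (∀ z ∈ tsupport χ, ‖z - c‖ < r) ∧
    (∀ z, ‖z - c‖ < a + b → χ z = 1 ∧ fderiv ℝ χ z = 0) ∧ ∀ z, ‖fderiv ℝ χ z‖ ≤ L := by
  set χ : ContDiffBump c := ⟨a + (r - a) / 3, a + 2 * (r - a) / 3, by linarith, by linarith⟩
    with hχ
  obtain ⟨L, hL⟩ := ((χ.contDiff (n := 1)).continuous_fderiv one_ne_zero).bounded_above_of_compact_support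
    (χ.hasCompactSupport.fderiv (𝕜 := ℝ))
  refine ⟨χ, (r - a) / 3, L, χ.contDiff, by linarith, fun z => ⟨χ.nonneg, χ.le_one⟩,
    fun z hz => ?_, fun z hz => ?_, hL⟩
  · rw [χ.tsupport_eq, mem_closedBall, dist_eq_norm] at hz
    have : χ.rOut = a + 2 * (r - a) / 3 := rfl
    linarith
  · have h := χ.eventuallyEq_one_of_mem_ball (x := z) (by rwa [mem_ball, dist_eq_norm])
    refine ⟨h.self_of_nhds, ?_⟩
    rw [h.fderiv_eq]
    exact fderiv_const_apply (1 : ℝ)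

end StepAux

open StepAux in
theorem step (hH : Van.HormStmt) (h1 : PuncStmt) (h2 : WtStmt) (h3 : RzStmt) : StepStmt := by
  intro d X _ _ _ _ _ _ _ h μ hh hμ κ M ρ hρ c a r T ha har
  obtain ⟨χ, b, L, χ1, hb, χ2, χ3, χ4, χ5⟩ := exists_cut c ha har
  set A₀ : ℝ := L ^ 2 * (b ^ 2)⁻¹ with hA₀
  set A₁ : ℝ := 2 * (T + a) ^ 2 * Real.exp (T ^ 2) with hA₁
  set A₂ : ℝ := 2 * Real.exp (T ^ 2) with hA₂
  set B₂ : ℝ := 2 * (b ^ 2)⁻¹ with hB₂
  refine ⟨(ENNReal.ofReal A₁ * ENNReal.ofReal A₀ + ENNReal.ofReal 2 + 1) +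
    (ENNReal.ofReal A₂ * ENNReal.ofReal A₀ + ENNReal.ofReal B₂), by finiteness, ?_⟩
  intro Ω' hW hP f hf hT y hy g hg hN
  have hΩ' : IsOpen Ω' := hW.1.choose_spec.isOpen
  set Ω : Set X := {x | x ∈ Ω' ∧ ‖f x - c‖ < r} with hΩd
  have hΩ : IsOpen Ω := isOpen_sep (W := {z | ‖z - c‖ < r}) hΩ' hf
    (isOpen_lt (by fun_prop) continuous_const)
  have hτ : HolOn d Ω' fun x => f x - y := fun e x h1 h2 => (hf e x h1 h2).sub analyticAt_const
  have hτΩ : HolOn d Ω fun x => f x - y := fun e x h1 h2 => hτ e x h1 h2.1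
  set U : Set X := {x | x ∈ Ω' ∧ f x - y ≠ 0} with hUd
  set V : Set X := {x | x ∈ Ω ∧ f x - y ≠ 0} with hVd
  have hU : IsOpen U := isOpen_sep (W := {z | z ≠ 0}) hΩ' hτ isOpen_ne
  have hV : IsOpen V := isOpen_sep (W := {z | z ≠ 0}) hΩ hτΩ isOpen_ne
  have hVU : V ⊆ U := fun x hx => ⟨hx.1.1, hx.2⟩
  set g' : κ → X → ℂ := fun i x => g i x / (f x - y) with hg'd
  have hg' : SecOn M V g' :=
    sec_div (fun e x h1 h2 => hτΩ e x h1 h2.1) (fun x hx => hx.2) (sec_mono hg fun x hx => hx.1)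
  obtain ⟨w1, w2, w3, w4, w5⟩ := h2 d X κ M ρ hρ V U hV hU hVU f
    (fun e x h1 h2 => hf e x h1 h2.1) χ χ1 (fun x hx hx' h0 => hx' ⟨⟨hx.1, χ3 _ h0⟩, hx.2⟩) g' hg'
    (fun e z => curvature M ρ e z - kc h e z) (fun e x h1 h2 => hP e x h1 h2.1) c
  have hn0 : ∀ (s : κ → X → ℂ) x, 0 ≤ nrm M ρ s x := fun s x => by unfold nrm; positivity
  obtain ⟨G₁, hG₁, hQ⟩ := hH d X h μ hh hμ U (h1 d X Ω' hW _ hτ) κ M ρ hρ _ w2 w3 _ w1 _ w4
    (fun x _ => mul_nonneg (sq_nonneg _) (hn0 _ _)) w5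
  set q : X → ℝ := fun x => nrm M ρ (fun i z => G₁ i z - (χ (f z) : ℂ) * g' i z) x *
    Real.exp (-‖f x - c‖ ^ 2) with hq
  set N := nsq μ M ρ Ω g with hNd
  have hcn := contOn_nrm hρ hg hΩ
  have hi0 : ∀ x, 0 ≤ Ω.indicator (nrm M ρ g) x := fun x => indicator_nonneg (fun x _ => hn0 g x) x
  -- far from the centre the division is harmless
  have hfar : ∀ x, ¬ ‖f x - c‖ < a + b → nrm M ρ g' x ≤ (b ^ 2)⁻¹ * nrm M ρ g x := fun x hx => by
    have e1 : b ≤ ‖f x - y‖ := by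
      have := norm_add_le (f x - y) (y - c)
      rw [sub_add_sub_cancel] at this
      linarith [not_lt.1 hx]
    simp only [nrm, hg'd, norm_div, div_pow]
    rw [div_eq_inv_mul, mul_assoc]
    exact mul_le_mul_of_nonneg_right (inv_anti₀ (by positivity) (pow_le_pow_left₀ hb.le e1 2))
      (by positivity)
  have hQ' : ∫⁻ x in U, ENNReal.ofReal (q x) ∂μ ≤ ENNReal.ofReal A₀ * N := by
    refine hQ.trans ((bound μ hU subset_rfl hΩ (q := q) hcn le_rfl (B := A₀) (by positivity)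
      fun x hx => ?_).trans (by simp [hNd, nsq]))
    rw [zero_mul, zero_add]
    by_cases h0 : fderiv ℝ χ (f x) = 0
    · rw [h0, norm_zero, zero_pow two_ne_zero, zero_mul, zero_mul]
      exact mul_nonneg (by positivity) (hi0 x)
    have e1 : x ∈ Ω := ⟨hx.1, χ3 _ (by
      by_contra h4
      exact h0 (by rw [(notMem_tsupport_iff_eventuallyEq.1 h4).fderiv_eq]; exact fderiv_const_apply (0 : ℝ)))⟩
    rw [indicator_of_mem e1, hA₀, mul_assoc (L ^ 2)]
    refine (mul_le_of_le_one_right (mul_nonneg (sq_nonneg _) (hn0 _ _))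
      (Real.exp_le_one_iff.2 (neg_nonpos.2 (sq_nonneg _)))).trans ?_
    exact mul_le_mul (pow_le_pow_left₀ (norm_nonneg _) (χ5 _) 2) (hfar x fun h4 => h0 (χ4 _ h4).2)
      (hn0 _ _) (sq_nonneg _)
  have hqe : ∀ x ∈ Ω', nrm M ρ (fun i z => G₁ i z - (χ (f z) : ℂ) * g' i z) x ≤
      Real.exp (T ^ 2) * q x := fun x hx => by
    rw [hq]
    beta_reduce
    rw [mul_left_comm, ← Real.exp_add]
    refine le_mul_of_one_le_right (hn0 _ _) (Real.one_le_exp ?_)
    linarith [pow_le_pow_left₀ (norm_nonneg _) (hT x hx) 2]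
  -- the section `F`
  have hF₁ : nsq μ M ρ U (fun i x => (f x - y) * G₁ i x) ≤
      (ENNReal.ofReal A₁ * ENNReal.ofReal A₀ + ENNReal.ofReal 2) * N := by
    refine (bound μ hU subset_rfl hΩ (q := q) hcn (A := A₁) (B := 2) (by positivity) zero_le_two
      fun x hx => ?_).trans ?_
    · have e1 : ‖f x - y‖ ≤ T + a := by
        have := norm_sub_le (f x - c) (y - c)
        rw [sub_sub_sub_cancel_right] at this
        linarith [hT x hx.1]
      have e2 := mul_le_mul (pow_le_pow_left₀ (norm_nonneg _) e1 2) (hqe x hx.1) (hn0 _ _)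
        (sq_nonneg _)
      have e3 : ‖(χ (f x) : ℂ) * g (M.cover x).choose x‖ ^ 2 * Real.exp (-ρ (M.cover x).choose x) ≤
          Ω.indicator (nrm M ρ g) x := by
        by_cases hx' : x ∈ Ω
        · rw [indicator_of_mem hx', norm_mul, mul_pow, mul_assoc, Complex.norm_real,
            Real.norm_of_nonneg (χ2 _).1]
          exact mul_le_of_le_one_left (hn0 g x) (pow_le_one₀ (χ2 _).1 (χ2 _).2)
        · have : χ (f x) = 0 := image_eq_zero_of_notMem_tsupport fun h4 => hx' ⟨hx.1, χ3 _ h4⟩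
          rw [indicator_of_notMem hx', this]
          simp
      have e4 : (f x - y) * G₁ (M.cover x).choose x = (f x - y) * (G₁ (M.cover x).choose x -
          (χ (f x) : ℂ) * g' (M.cover x).choose x) + (χ (f x) : ℂ) * g (M.cover x).choose x := by
        have := hx.2
        simp only [hg'd]
        field_simp
        ring
      have e5 := mul_le_mul_of_nonneg_right (e4 ▸ sq_add_le _ _ :
        ‖(f x - y) * G₁ (M.cover x).choose x‖ ^ 2 ≤ _)
        (Real.exp_pos (-ρ (M.cover x).choose x)).le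
      rw [norm_mul (f x - y) (_ - _), mul_pow] at e5
      simp only [nrm] at e2 ⊢
      rw [hA₁]
      nlinarith
    · rw [add_mul, mul_assoc]
      exact add_le_add (mul_le_mul_right hQ' _) le_rfl
  have hZ : {x | x ∈ Ω' ∧ ∀ᶠ z in 𝓝 x, f z - y = 0} ⊆ Ω := fun x hx =>
    ⟨hx.1, by rw [sub_eq_zero.1 hx.2.self_of_nhds]; exact hy.trans_lt har⟩
  obtain ⟨F, F1, F2, F3, F4⟩ := h3 d X h μ hh hμ κ M ρ hρ Ω' hΩ' _ hτ _ g
    (sec_mul (fun e x h1 h2 => hτ e x h1 h2.1) hG₁)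
    (ne_top_of_le_ne_top (by finiteness) hF₁) (sec_mono hg hZ)
  -- the section `G`
  have hG₂ : nsq μ M ρ V (fun i x => g' i x - G₁ i x) ≤
      (ENNReal.ofReal A₂ * ENNReal.ofReal A₀ + ENNReal.ofReal B₂) * N := by
    refine (bound μ hV hVU hΩ (q := q) hcn (A := A₂) (B := B₂) (by positivity) (by positivity)
      fun x hx => ?_).trans ?_
    · have e2 := hqe x hx.1.1
      have e3 : ‖((1 - χ (f x) : ℝ) : ℂ) * g' (M.cover x).choose x‖ ^ 2 *
          Real.exp (-ρ (M.cover x).choose x) ≤ (b ^ 2)⁻¹ * Ω.indicator (nrm M ρ g) x := by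
        by_cases h4 : ‖f x - c‖ < a + b
        · rw [(χ4 _ h4).1, sub_self, Complex.ofReal_zero, zero_mul, norm_zero,
            zero_pow two_ne_zero, zero_mul]
          exact mul_nonneg (by positivity) (hi0 x)
        · have e0 : 0 ≤ 1 - χ (f x) := sub_nonneg.2 (χ2 _).2
          rw [indicator_of_mem hx.1, norm_mul, mul_pow, mul_assoc, Complex.norm_real,
            Real.norm_of_nonneg e0]
          exact (mul_le_of_le_one_left (hn0 g' x)
            (pow_le_one₀ e0 (by linarith [(χ2 (f x)).1]))).trans (hfar x h4)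
      have e4 : g' (M.cover x).choose x - G₁ (M.cover x).choose x = -(G₁ (M.cover x).choose x -
          (χ (f x) : ℂ) * g' (M.cover x).choose x) +
            ((1 - χ (f x) : ℝ) : ℂ) * g' (M.cover x).choose x := by
        push_cast
        ring
      have e5 := mul_le_mul_of_nonneg_right (e4 ▸ sq_add_le _ _ :
        ‖g' (M.cover x).choose x - G₁ (M.cover x).choose x‖ ^ 2 ≤ _)
        (Real.exp_pos (-ρ (M.cover x).choose x)).le
      rw [norm_neg] at e5
      simp only [nrm] at e2 ⊢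
      rw [hA₂, hB₂]
      nlinarith
    · rw [add_mul, mul_assoc]
      exact add_le_add (mul_le_mul_right hQ' _) le_rfl
  obtain ⟨G, G1, G2, -, G4⟩ := h3 d X h μ hh hμ κ M ρ hρ Ω hΩ _ hτΩ _ _
    (sec_sub hg' (sec_mono hG₁ hVU)) (ne_top_of_le_ne_top (by finiteness) hG₂) sec_zero
  refine ⟨F, G, F1, G1, fun i x hi hx => ?_, F4.trans ?_, G4.trans ?_⟩
  · show g i x = F i x + (f x - y) * G i x
    by_cases h4 : ∀ᶠ z in 𝓝 x, f z - y = 0
    · rw [F3 i x hi ⟨hx.1, h4⟩, h4.self_of_nhds, zero_mul, add_zero]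
    have h5 : ∃ᶠ z in 𝓝 x, g i z = F i z + (f z - y) * G i z := by
      refine ((not_eventually.1 h4).and_eventually
        (Eventually.and (hΩ.mem_nhds hx) ((M.isOpen i).mem_nhds hi))).mono fun z hz => ?_
      have h6 : f z - y ≠ 0 := hz.1
      rw [F2 i z hz.2.2 ⟨hz.2.1.1, h6⟩, G2 i z hz.2.2 ⟨hz.2.1, h6⟩]
      simp only [hg'd]
      field_simp
      ring
    exact tendsto_nhds_unique_of_frequently_eq (sec_cont hg hx hi)
      ((sec_cont F1 hx.1 hi).add ((hol_cont hτΩ hx).mul (sec_cont G1 hx hi))) h5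
  · have e1 : nsq μ M ρ {x | x ∈ Ω' ∧ ∀ᶠ z in 𝓝 x, f z - y = 0} g ≤ N := lintegral_mono_set hZ
    refine (add_le_add hF₁ e1).trans ?_
    rw [add_mul _ (_ + _), add_mul _ 1, one_mul]
    exact le_self_add
  · have e1 : nsq μ M ρ {x | x ∈ Ω ∧ ∀ᶠ z in 𝓝 x, f z - y = 0} (fun _ _ => 0) = 0 := by
      simp [nsq, nrm]
    rw [e1, add_zero, add_mul _ (_ + _)]
    exact hG₂.trans le_add_self

end Vale.Agent.P277Z.C1
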