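import Vale.Agent.P277Z.Coh.Sk

/-!
# P277Z, block COH1: the rows VOL2 and CUT
-/

open scoped Manifold ContDiff ComplexOrder Topology ENNReal Matrix
open MeasureTheory Filter Set Metric

noncomputable section

namespace Vale.Agent.P277Z.C1

open Vale.Agent.P272.K Vale.Agent.P301.H599 Vale.Agent.P285Z Vale.Agent.P277Z.Van

namespace Vol2

variable {d : ℕ} {X : Type} [TopologicalSpace X] [ChartedSpace (Cm d) X]

theorem meas_eq [MeasurableSpace X] [BorelSpace X] {h : Fm d X} {μ : Measure X} (hμ : IsVol h μ)
    {e : Chart d X} (he : e ∈ atlas (Cm d) X) {U : Set X} (hU : IsOpen U) :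
    μ (U ∩ e.source) =
      ∫⁻ z in e.target ∩ e.symm ⁻¹' U, ENNReal.ofReal (h e z).det.re := by
  have hm : MeasurableSet (U ∩ e.source) := (hU.inter e.open_source).measurableSet
  have hW : IsOpen (e.target ∩ e.symm ⁻¹' U) :=
    e.continuousOn_symm.isOpen_inter_preimage e.open_target hU
  rw [← lintegral_indicator_one hm, hμ e he _ (measurable_one.indicator hm)
    (fun x hx => indicator_of_notMem (fun h => hx h.2) _), ← lintegral_indicator hW.measurableSet,
    ← lintegral_indicator e.open_target.measurableSet]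
  refine lintegral_congr fun z => ?_
  by_cases hz : z ∈ e.target
  · by_cases hz' : e.symm z ∈ U
    · rw [indicator_of_mem hz, indicator_of_mem (show z ∈ e.target ∩ e.symm ⁻¹' U from ⟨hz, hz'⟩),
        indicator_of_mem (show e.symm z ∈ U ∩ e.source from ⟨hz', e.map_target hz⟩)]
      simp
    · rw [indicator_of_mem hz, indicator_of_notMem (fun h : z ∈ e.target ∩ e.symm ⁻¹' U => hz' h.2),
        indicator_of_notMem (fun h : e.symm z ∈ U ∩ e.source => hz' h.1), zero_mul]
  · rw [indicator_of_notMem hz,
      indicator_of_notMem (fun h : z ∈ e.target ∩ e.symm ⁻¹' U => hz h.1)]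

theorem det_cont {h : Fm d X} (hh : IsHermitian h) {e : Chart d X} (he : e ∈ atlas (Cm d) X) :
    ContinuousOn (fun z => (h e z).det.re) e.target := by
  intro z hz
  have h1 : ∀ i j, ContinuousAt (fun z => h e z i j) z := fun i j => by
    have := (hh.smooth e (e.symm z) ⟨he, e.map_target hz⟩ i j).continuousAt
    rwa [e.right_inv hz] at this
  have h2 : ContinuousAt (h e) z :=
    continuousAt_pi.2 fun i => continuousAt_pi.2 fun j => h1 i j
  exact (Complex.continuous_re.continuousAt.comp
    ((continuous_id.matrix_det).continuousAt.comp h2)).continuousWithinAt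

theorem det_pos {h : Fm d X} (hh : IsHermitian h) {e : Chart d X} (he : e ∈ atlas (Cm d) X)
    {z : Cm d} (hz : z ∈ e.target) : 0 < (h e z).det.re := by
  have := (Complex.lt_def.1 (hh.posDef e _ ⟨he, e.map_target hz⟩).det_pos).1
  rwa [e.right_inv hz] at this

theorem tendsto_symm {e : Chart d X} {x : X} (hx : At e x) : Tendsto e.symm (𝓝 (e x)) (𝓝 x) := by
  have h4 := (e.continuousAt_symm (e.map_source hx.2)).tendsto
  rwa [e.left_inv hx.2] at h4

theorem t_smooth {N : ℕ} (B : PB d X N) {e : Chart d X} {x : X} (hx : At e x) (hΩ : x ∈ B.Ω) :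
    ContDiffAt ℝ ∞ (fun z => B.t (e.symm z)) (e x) :=
  contDiffAt_pi.2 fun k => ((B.hol k e x hx hΩ).contDiffAt (n := ∞)).restrict_scalars ℝ

end Vol2

open Vol2

theorem vol2 : Vol2Stmt := by
  intro d X _ _ _ _ _ h μ hh hμ
  refine ⟨?_, ⟨fun U hU hne h0 => ?_⟩⟩
  · have : IsLocallyFiniteMeasure μ := ⟨fun x => by
      set e : Chart d X := chartAt (Cm d) x with he
      have hat : e ∈ atlas (Cm d) X := chart_mem_atlas _ x
      have hx : x ∈ e.source := mem_chart_source _ x
      obtain ⟨ε, hε, hb⟩ := nhds_basis_closedBall.mem_iff.1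
        (e.open_target.mem_nhds (e.map_source hx))
      have hV : IsOpen (e.source ∩ e ⁻¹' ball (e x) ε) :=
        e.continuousOn.isOpen_inter_preimage e.open_source isOpen_ball
      refine ⟨(e.source ∩ e ⁻¹' ball (e x) ε) ∩ e.source,
        (hV.inter e.open_source).mem_nhds ⟨⟨hx, mem_ball_self hε⟩, hx⟩, ?_⟩
      rw [meas_eq hμ hat hV]
      refine lt_of_le_of_lt (lintegral_mono_set (t := closedBall (e x) ε) fun z hz => ?_) ?_
      · have := hz.2.2
        rw [mem_preimage, e.right_inv hz.1] at this
        exact ball_subset_closedBall this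
      · exact (((det_cont hh hat).mono hb).integrableOn_compact
          (isCompact_closedBall _ _)).lintegral_lt_top⟩
    infer_instance
  · obtain ⟨x, hxU⟩ := hne
    set e : Chart d X := chartAt (Cm d) x with he
    have hat : e ∈ atlas (Cm d) X := chart_mem_atlas _ x
    have hx : x ∈ e.source := mem_chart_source _ x
    have hW : IsOpen (e.target ∩ e.symm ⁻¹' U) :=
      e.continuousOn_symm.isOpen_inter_preimage e.open_target hU
    have h1 : μ (U ∩ e.source) = 0 := measure_mono_null inter_subset_left h0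
    rw [meas_eq hμ hat hU, lintegral_eq_zero_iff' (((det_cont hh hat).mono
      inter_subset_left).aemeasurable hW.measurableSet).ennreal_ofReal] at h1
    have h2 : ∀ᵐ z ∂(volume.restrict (e.target ∩ e.symm ⁻¹' U)), False := by
      filter_upwards [h1, ae_restrict_mem hW.measurableSet] with z hz hz'
      exact absurd (ENNReal.ofReal_eq_zero.1 hz) (not_le.2 (det_pos hh hat hz'.1))
    rw [Filter.eventually_false_iff_eq_bot, ae_eq_bot, Measure.restrict_eq_zero] at h2
    exact hW.measure_ne_zero volume
      ⟨e x, e.map_source hx, by rw [mem_preimage, e.left_inv hx]; exact hxU⟩ h2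

theorem cut : CutStmt := by
  intro d X _ _ _ N B Ψ hΨ R' hR'
  by_cases h0 : R' ≤ 0
  · refine ⟨fun _ => 0, fun e x _ => contDiffAt_const, fun x hx => ?_⟩
    have := hx.2
    rw [ball_eq_empty.2 h0] at this
    exact this.elim
  push Not at h0
  let θ : ContDiffBump B.c := ⟨R', (R' + B.R) / 2, h0, by linarith⟩
  have hK : IsCompact (B.Ω ∩ B.t ⁻¹' closedBall B.c θ.rOut) :=
    B.proper _ (isCompact_closedBall _ _)
      (closedBall_subset_ball (by show (R' + B.R) / 2 < B.R; linarith))
  classical
  refine ⟨fun x => if x ∈ B.Ω then θ (B.t x) * Ψ x else 0, fun e x hx => ?_, fun x hx => ?_⟩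
  · by_cases hxK : x ∈ B.Ω ∩ B.t ⁻¹' closedBall B.c θ.rOut
    · have hxt : x ∈ B.tube B.c B.R := ⟨hxK.1, closedBall_subset_ball
        (by show (R' + B.R) / 2 < B.R; linarith) hxK.2⟩
      refine ((θ.contDiff.contDiffAt.comp (e x) (t_smooth B hx hxK.1)).mul
        (hΨ e x hx hxt)).congr_of_eventuallyEq ?_
      filter_upwards [(tendsto_symm hx).eventually (B.isOpen.mem_nhds hxK.1)] with z hz
      exact if_pos hz
    · refine contDiffAt_const (c := (0 : ℝ)) |>.congr_of_eventuallyEq ?_
      filter_upwards [(tendsto_symm hx).eventually (hK.isClosed.isOpen_compl.mem_nhds hxK)]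
        with z hz
      by_cases hz' : e.symm z ∈ B.Ω
      · have h1 : θ (B.t (e.symm z)) = 0 := θ.zero_of_le_dist (by
          by_contra h
          exact hz ⟨hz', mem_closedBall.2 (not_le.1 h).le⟩)
        show (if _ then _ else _) = _
        rw [if_pos hz', h1, zero_mul]
      · exact if_neg hz'
  · show (if _ then _ else _) = _
    rw [if_pos hx.1, θ.one_of_mem_closedBall (ball_subset_closedBall hx.2), one_mul]

end Vale.Agent.P277Z.C1
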