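import Vale.Agent.P277Z.Coh.Sk

/-!
# P277Z, block COH1: the data of the `∂̄` problem
-/

open scoped Manifold ContDiff ComplexOrder Topology ENNReal Matrix
open MeasureTheory Filter Set Metric

noncomputable section

namespace Vale.Agent.P277Z.C1

open Vale.Agent.P272.K Vale.Agent.P301.H599 Vale.Agent.P285Z Vale.Agent.P277Z.Van
open Vale.Agent.P301.H98 (IsSection nrm nrm_nonneg)

namespace Wt

section loc

variable {d : ℕ} {F G : Cm d → ℂ} {z : Cm d}

theorem cd {m : WithTop ℕ∞} (hF : AnalyticAt ℂ F z) : ContDiffAt ℝ m F z :=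
  (hF.restrictScalars (𝕜 := ℝ)).contDiffAt

theorem df (hF : AnalyticAt ℂ F z) : DifferentiableAt ℝ F z :=
  (hF.restrictScalars (𝕜 := ℝ)).differentiableAt

theorem fd_I (hF : AnalyticAt ℂ F z) (b : Fin d) :
    fderiv ℝ F z (Pi.single b Complex.I) = Complex.I * fderiv ℝ F z (Pi.single b 1) := by
  rw [hF.differentiableAt.fderiv_restrictScalars ℝ]
  show fderiv ℂ F z _ = _ * fderiv ℂ F z _
  rw [← smul_eq_mul, ← map_smul, ← Pi.single_smul, smul_eq_mul, mul_one]

theorem dzb_an (hF : AnalyticAt ℂ F z) (b : Fin d) : dzb b F z = 0 := by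
  rw [dzb, fd_I hF, ← mul_assoc, Complex.I_mul_I]
  ring

theorem dz_an (hF : AnalyticAt ℂ F z) (b : Fin d) :
    dz b F z = fderiv ℝ F z (Pi.single b 1) := by
  rw [dz, fd_I hF, ← mul_assoc, Complex.I_mul_I]
  ring

theorem cHess_sq (hF : AnalyticAt ℂ F z) :
    cHess (fun y => ‖F y‖ ^ 2) z = Matrix.vecMulVec (fun j => dz j F z) (star fun j => dz j F z) := by
  ext j k
  have h0 : (fun y => ((‖F y‖ ^ 2 : ℝ) : ℂ)) = fun y => F y * (starRingEnd ℂ) (F y) :=
    funext fun y => by rw [Complex.mul_conj, Complex.normSq_eq_norm_sq]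
  have h1 : dzb k (fun y => F y * (starRingEnd ℂ) (F y)) =ᶠ[𝓝 z]
      fun y => F y * (starRingEnd ℂ) (dz k F y) := by
    filter_upwards [hF.eventually_analyticAt] with y hy
    rw [C2.dzb_mul k (df hy) (C2.differentiableAt_conj (df hy)), dzb_an hy, C2.dzb_conj k (df hy),
      zero_mul, zero_add]
  have h2 : DifferentiableAt ℝ (dz k F) z := C2.differentiableAt_dz k (cd hF)
  have h3 : dzb j (dz k F) z = 0 := by
    rw [← C2.dz_dzb_comm k j (cd hF), C2.dz_congr k (g := fun _ => 0)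
      (hF.eventually_analyticAt.mono fun y hy => dzb_an hy j), C2.dz_const]
  rw [C2.cHess_apply, h0, C2.dz_congr j h1, C2.dz_mul j (df hF) (C2.differentiableAt_conj h2),
    C2.dz_conj j h2, h3, map_zero, mul_zero, add_zero]
  rfl

theorem qf_vec (a v : Fin d → ℂ) :
    Qf (Matrix.vecMulVec a (star a)) v = ‖∑ b, (starRingEnd ℂ) (a b) * v b‖ ^ 2 := by
  have h : star v ⬝ᵥ (Matrix.vecMulVec a (star a) *ᵥ v) =
      (starRingEnd ℂ) (∑ b, (starRingEnd ℂ) (a b) * v b) * ∑ b, (starRingEnd ℂ) (a b) * v b := by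
    simp only [dotProduct, Matrix.mulVec, Matrix.vecMulVec_apply, Pi.star_apply, map_sum, map_mul,
      Complex.conj_conj, Finset.sum_mul, Finset.mul_sum, RCLike.star_def]
    rw [Finset.sum_comm]
    exact Finset.sum_congr rfl fun _ _ => Finset.sum_congr rfl fun _ _ => by ring
  rw [Qf, h, Complex.conj_mul', ← Complex.ofReal_pow, Complex.ofReal_re]

theorem qf_add (A B : Matrix (Fin d) (Fin d) ℂ) (v : Fin d → ℂ) :
    Qf (A + B) v = Qf A v + Qf B v := by
  simp only [Qf, Matrix.add_mulVec, dotProduct_add, Complex.add_re]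

theorem qf_nonneg {A : Matrix (Fin d) (Fin d) ℂ} (h : A.PosSemidef) (v : Fin d → ℂ) : 0 ≤ Qf A v :=
  (Complex.le_def.1 (h.dotProduct_mulVec_nonneg v)).1

theorem lin (D : ℂ →L[ℝ] ℝ) (a : ℂ) : (D a : ℂ) + Complex.I * D (Complex.I * a) =
    (starRingEnd ℂ) a * (D 1 + Complex.I * D Complex.I) := by
  have h : ∀ w : ℂ, D w = w.re * D 1 + w.im * D Complex.I := fun w => by
    conv_lhs => rw [show w = w.re • (1 : ℂ) + w.im • Complex.I by
      simp [Complex.re_add_im]]
    rw [map_add, map_smul, map_smul, smul_eq_mul, smul_eq_mul]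
  rw [h a, h (Complex.I * a)]
  apply Complex.ext <;> simp <;> ring

theorem lin_le (D : ℂ →L[ℝ] ℝ) : ‖((D 1 : ℂ) + Complex.I * D Complex.I) / 2‖ ≤ ‖D‖ := by
  have h1 := D.le_opNorm 1
  have h2 := D.le_opNorm Complex.I
  have h3 := norm_add_le (D 1 : ℂ) (Complex.I * D Complex.I)
  rw [norm_mul, Complex.norm_I, one_mul, Complex.norm_real, Complex.norm_real] at h3
  rw [norm_one, mul_one] at h1
  rw [Complex.norm_I, mul_one] at h2
  rw [norm_div, Complex.norm_two]
  linarith

theorem dzb_cut {χ : ℂ → ℝ} (hχ : DifferentiableAt ℝ χ (F z)) (hF : AnalyticAt ℂ F z)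
    (hG : AnalyticAt ℂ G z) (b : Fin d) :
    dzb b (fun y => (χ (F y) : ℂ) * G y) z =
      ((fderiv ℝ χ (F z) 1 : ℂ) + Complex.I * fderiv ℝ χ (F z) Complex.I) / 2 * G z *
        (starRingEnd ℂ) (dz b F z) := by
  have h1 := Complex.ofRealCLM.hasFDerivAt.comp z (hχ.hasFDerivAt.comp z (df hF).hasFDerivAt)
  have h2 : HasFDerivAt (fun y => (χ (F y) : ℂ)) _ z := h1
  rw [C2.dzb_mul b h2.differentiableAt (df hG), dzb_an hG, mul_zero, add_zero, dzb, h2.fderiv,
    dz_an hF]
  simp only [ContinuousLinearMap.comp_apply, Complex.ofRealCLM_apply]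
  rw [fd_I hF, lin]
  ring

end loc

variable {d : ℕ} {X : Type} [TopologicalSpace X] [ChartedSpace (Cm d) X] {κ : Type}

theorem at_chart (x : X) : At (chartAt (Cm d) x) x := ⟨chart_mem_atlas _ _, mem_chart_source _ _⟩

theorem cont_of {Y : Type} [TopologicalSpace Y] {u : X → Y} {e : Chart d X} {x : X} (he : At e x)
    (h : ContinuousAt (fun z => u (e.symm z)) (e x)) : ContinuousAt u x := by
  refine (h.comp (e.continuousAt he.2)).congr ?_
  filter_upwards [e.open_source.mem_nhds he.2] with y hy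
  simp [e.left_inv hy]

theorem tend {e : Chart d X} {x : X} (he : At e x) : Tendsto e.symm (𝓝 (e x)) (𝓝 x) := by
  have c := e.continuousAt_symm (e.map_source he.2)
  rwa [ContinuousAt, e.left_inv he.2] at c

theorem nrm_at {M : LineBundle d X κ} {ρ : κ → X → ℝ} (hρ : IsMetric M ρ) {Ω : Set X}
    {g : κ → X → ℂ} (hg : SecOn M Ω g) {i : κ} {x : X} (hi : x ∈ M.U i) (hx : x ∈ Ω) :
    nrm M ρ g x = ‖g i x‖ ^ 2 * Real.exp (-ρ i x) := by
  set j := (M.cover x).choose with hj
  have hjx : x ∈ M.U j := (M.cover x).choose_spec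
  unfold nrm
  rw [← hj, hg.change i j x hi hjx hx, hρ.change i j x hi hjx]
  have hg : M.g i j x ≠ 0 := M.ne_zero i j x hi hjx
  rw [neg_add, Real.exp_add, Real.exp_neg (Real.log _), Real.exp_log (by positivity), norm_mul]
  field_simp

end Wt

open Wt in
theorem wt : WtStmt := by
  intro d X _ _ κ M ρ hρ Ω Ω' hΩ hΩ' hsub f hf χ hχ hs g hg Θ hΘ c
  have hfc : ∀ x ∈ Ω', ContinuousAt f x := fun x hx =>
    cont_of (at_chart x) (hf _ x (at_chart x) hx).continuousAt
  have h0 : ∀ x ∈ Ω', x ∉ Ω → ∀ᶠ y in 𝓝 x, χ (f y) = 0 ∧ fderiv ℝ χ (f y) = 0 := by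
    intro x hx hx'
    have h1 : ∀ᶠ w in 𝓝 (f x), χ =ᶠ[𝓝 w] 0 :=
      (notMem_tsupport_iff_eventuallyEq.1 (hs x hx hx')).eventuallyEq_nhds
    filter_upwards [(hfc x hx).eventually h1] with y hy
    exact ⟨hy.self_of_nhds, by rw [hy.fderiv_eq]; simp⟩
  have h0' : ∀ i (e : Chart d X) x, At e x → x ∈ Ω' → x ∉ Ω →
      (fun z => (χ (f (e.symm z)) : ℂ) * g i (e.symm z)) =ᶠ[𝓝 (e x)] fun _ => 0 := by
    intro i e x he hx hx'
    filter_upwards [(tend he).eventually (h0 x hx hx')] with z hz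
    rw [hz.1, Complex.ofReal_zero, zero_mul]
  have hH : ∀ (e : Chart d X) x, At e x → x ∈ Ω' → ddc (fun x => ‖f x - c‖ ^ 2) e (e x) =
      Matrix.vecMulVec (fun j => dz j (fun z => f (e.symm z)) (e x))
        (star fun j => dz j (fun z => f (e.symm z)) (e x)) := by
    intro e x he hx
    have h1 := hf e x he hx
    have h2 : (fun j => dz j (fun z => f (e.symm z) - c) (e x)) =
        fun j => dz j (fun z => f (e.symm z)) (e x) := funext fun j => by
      rw [C2.dz_sub j (df h1) (differentiableAt_const c), C2.dz_const, sub_zero]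
    rw [← h2]
    exact cHess_sq (h1.sub analyticAt_const)
  have hP : PSDOn Ω' fun e z => Θ e z + ddc (fun x => ‖f x - c‖ ^ 2) e z := fun e x he hx => by
    refine (hΘ e x he hx).add ?_
    rw [hH e x he hx]
    exact Matrix.posSemidef_vecMulVec_self_star _
  refine ⟨⟨fun i e x he hi hx => ?_, fun i j x hi hj hx => ?_⟩, fun e x he hx => ?_, hP,
    fun x hx => ContinuousAt.continuousWithinAt ?_, fun i e x he hi hx v => ?_⟩
  · by_cases hx' : x ∈ Ω
    · exact (C2.contDiffAt_ofReal (hχ.contDiffAt.comp _ (cd (hf e x he hx)))).mul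
        (cd (hg.holo i e x he hi hx'))
    · exact contDiffAt_const.congr_of_eventuallyEq (h0' i e x he hx hx')
  · by_cases hx' : x ∈ Ω
    · rw [hg.change i j x hi hj hx']
      ring
    · rw [(h0 x hx hx').self_of_nhds.1]
      simp
  · exact (cd ((hf e x he hx).sub analyticAt_const)).norm_sq ℝ
  · by_cases hx' : x ∈ Ω
    · obtain ⟨i, hi⟩ := M.cover x
      have h1 : ContinuousAt (fun y => ‖g i y‖ ^ 2 * Real.exp (-ρ i y)) x :=
        ((cont_of (at_chart x) (hg.holo i _ x (at_chart x) hi hx').continuousAt).norm.pow 2).mul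
          (Real.continuous_exp.continuousAt.comp
            (cont_of (at_chart x) (hρ.smooth i _ x (at_chart x) hi).continuousAt).neg)
      refine ((((hχ.continuous_fderiv (by simp)).continuousAt.comp (hfc x hx)).norm.pow 2).mul
        (h1.congr ?_))
      filter_upwards [(M.isOpen i).mem_nhds hi, hΩ.mem_nhds hx'] with y hy hy'
      exact (nrm_at hρ hg hy hy').symm
    · refine (continuousAt_const (y := (0 : ℝ))).congr ?_
      filter_upwards [h0 x hx hx'] with y hy
      rw [hy.2]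
      simp
  · by_cases hx' : x ∈ Ω
    · have h1 := hf e x he hx
      have h2 := hg.holo i e x he hi hx'
      have h3 := fun b => dzb_cut (χ := χ) (hχ.differentiable (by simp) _) h1 h2 b
      simp only [e.left_inv he.2] at h3
      simp only [h3, mul_assoc _ ((starRingEnd ℂ) _), ← Finset.mul_sum]
      rw [qf_add, hH e x he hx, qf_vec, nrm_at hρ hg hi hx', norm_mul, norm_mul, mul_pow, mul_pow]
      have h4 := pow_le_pow_left₀ (norm_nonneg _) (lin_le (fderiv ℝ χ (f x))) 2
      have h5 := qf_nonneg (hΘ e x he hx) v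
      set A := ‖((fderiv ℝ χ (f x) 1 : ℂ) + Complex.I * fderiv ℝ χ (f x) Complex.I) / 2‖ ^ 2
      set B := ‖fderiv ℝ χ (f x)‖ ^ 2
      set S := ‖∑ b, (starRingEnd ℂ) (dz b (fun z => f (e.symm z)) (e x)) * v b‖ ^ 2
      have hS : 0 ≤ S := sq_nonneg _
      have hB : 0 ≤ B := sq_nonneg _
      have hN : 0 ≤ ‖g i x‖ ^ 2 * Real.exp (-ρ i x) := by positivity
      calc A * ‖g i x‖ ^ 2 * S * Real.exp (-ρ i x)
          = A * (‖g i x‖ ^ 2 * Real.exp (-ρ i x)) * S := by ring
        _ ≤ B * (‖g i x‖ ^ 2 * Real.exp (-ρ i x)) * S := by gcongr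
        _ ≤ _ := mul_le_mul_of_nonneg_left (by linarith) (mul_nonneg hB hN)
    · simp only [fun b => C2.dzb_congr b (h0' i e x he hx hx'), C2.dzb_const, zero_mul,
        Finset.sum_const_zero, norm_zero]
      rw [zero_pow two_ne_zero, zero_mul]
      exact mul_nonneg (mul_nonneg (sq_nonneg _) (nrm_nonneg x)) (qf_nonneg (hP e x he hx) v)

end Vale.Agent.P277Z.C1
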