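import Vale.Agent.P277Z.Coh.Asm
import Vale.Agent.P277Z.Coh.Bd1
import Vale.Agent.P277Z.Coh.Vol2
import Vale.Agent.P277Z.Coh.Exh
import Vale.Agent.P277Z.Coh.Rz
import Vale.Agent.P277Z.Coh.Wt
import Vale.Agent.P277Z.Coh.Step
import Vale.Agent.P277Z.Coh.Chain
import Vale.Agent.P277Z.Coh.Cpt
import Vale.Agent.P277Z.Coh.Amp
import Vale.Agent.P277Z.Coh.Iter
import Vale.Agent.P277Z.Van.Vol
import Vale.Agent.P277Z.Van.Horm
import Vale.Agent.P277Z.Van.Lim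
import Vale.Agent.P277Z.Van.GG
import Vale.Agent.P277Z.Van.Gen

/-!
# P277Z, block COH1: the theorems without hypotheses
-/

open scoped Manifold ContDiff Topology
open Filter Set Metric

noncomputable section

namespace Vale.Agent.P277Z.C1

open Vale.Agent.P272.K Vale.Agent.P277Z.Van
open Vale.Agent.P285.H281.FD (Bd)
open Vale.Agent.P277Z.Coh (ScAt LBOn PosM prpBase FGS)
open Vale.Agent.P277.PH (HolF)
open Vale.Agent.P277Z.Pj (Prp)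

theorem coh1 : Coh1Stmt :=
  coh1_of Van.vol vol2 (chain (step Van.horm punc wt rz) exh) (cpt vol2) amp iter cut

theorem coh1A : Coh1AStmt := coh1A_of Van.vol coh1

theorem gg : GGStmt := Van.gg_of Van.horm Van.lim

theorem fgs : FGS := fgs_of coh1A Van.vol exh gg Van.gen

variable {n N : ℕ} {W : Type} [TopologicalSpace W] [ChartedSpace (Cm n) W]
  [IsManifold 𝓘(ℂ, Cm n) ω W] [T2Space W] [SecondCountableTopology W]
  {S : Set W} {t : W → Cm N} {Ω : Set (Cm N)} {A L : Bd W} {ψ : A.ι → W → ℝ} {z : Cm N}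

theorem ftA (h : Prp n S t Ω) (hA : LBOn n S A) (hψ : PosM n S A ψ) (hL : LBOn n S L)
    (hz : z ∈ Ω) : ∃ k₀ : ℕ, ∀ k, k₀ ≤ k → ((prpBase h).img (L.mul (A.pow k))).FT z :=
  ftA_of coh1A h hA hψ hL hz

theorem ggA (h : Prp n S t Ω) (hA : LBOn n S A) (hψ : PosM n S A ψ) (hL : LBOn n S L)
    (hz : z ∈ Ω) : ∃ δ : ℝ, 0 < δ ∧ ∃ k₀ : ℕ, ∀ k, k₀ ≤ k →
      (∀ x ∈ S, t x ∈ ball z δ → ∃ s, (∀ w ∈ S, t w ∈ ball z δ →
        ScAt (HolF n) (L.mul (A.pow k)) s w) ∧ ∀ i, x ∈ (L.mul (A.pow k)).U i → s i x ≠ 0) ∧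
      ∃ s, ∀ w ∈ S, t w ∈ ball z δ → ScAt (HolF n) (L.mul (A.pow k)) s w ∧
        ∀ i, w ∈ (L.mul (A.pow k)).U i → ∃ᶠ u in 𝓝 w, s i u ≠ 0 :=
  ggA_of Van.vol exh gg Van.gen h hA hψ hL hz

end Vale.Agent.P277Z.C1
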