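import Vale.Agent.P277Z.Coh.Sk

/-!
# P277Z, block COH1: basic lemmas on sections over open sets
-/

open scoped Manifold ContDiff ComplexOrder Topology ENNReal Matrix
open MeasureTheory Filter Set Metric

set_option linter.unusedSectionVars false

noncomputable section

namespace Vale.Agent.P277Z

open Vale.Agent.P272.K Vale.Agent.P301.H599 Vale.Agent.P285Z Vale.Agent.P277Z.Van
open Vale.Agent.P301.H98 (IsSection nrm)

variable {d : ℕ} {X : Type} [TopologicalSpace X] [ChartedSpace (Cm d) X] {κ : Type}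
  {M : LineBundle d X κ} {ρ : κ → X → ℝ} {Ω Ω' : Set X} {s s' : κ → X → ℂ} {f g : X → ℂ} {x : X}

namespace C1

theorem at_ch (x : X) : At (chartAt (Cm d) x) x := ⟨chart_mem_atlas _ x, mem_chart_source _ x⟩

theorem contAt_ch {Y : Type} [TopologicalSpace Y] {u : X → Y} {e : Chart d X} (hx : At e x)
    (hf : ContinuousAt (fun z => u (e.symm z)) (e x)) : ContinuousAt u x := by
  have h1 : ContinuousAt (fun y => u (e.symm (e y))) x := hf.comp (f := e) (e.continuousAt hx.2)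
  refine h1.congr ?_
  filter_upwards [e.open_source.mem_nhds hx.2] with y hy
  rw [e.left_inv hy]

theorem ev_ch {e : Chart d X} (hx : At e x) {P : X → Prop} (h : ∀ᶠ y in 𝓝 x, P y) :
    ∀ᶠ z in 𝓝 (e x), P (e.symm z) := by
  refine (e.continuousAt_symm hx.mem_target).eventually ?_
  rwa [hx.left_inv]

theorem HolOn.mono (h : HolOn d Ω f) (hs : Ω' ⊆ Ω) : HolOn d Ω' f :=
  fun e x hx h1 => h e x hx (hs h1)

theorem HolOn.contAt (h : HolOn d Ω f) (hx : x ∈ Ω) : ContinuousAt f x :=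
  contAt_ch (at_ch x) (h _ x (at_ch x) hx).continuousAt

theorem HolOn.contOn (h : HolOn d Ω f) : ContinuousOn f Ω := fun _ hx =>
  (h.contAt hx).continuousWithinAt

theorem holOn_const (c : ℂ) : HolOn d Ω fun _ => c := fun _ _ _ _ => analyticAt_const

theorem HolOn.add (h : HolOn d Ω f) (h' : HolOn d Ω g) : HolOn d Ω fun x => f x + g x :=
  fun e x hx h1 => (h e x hx h1).add (h' e x hx h1)

theorem HolOn.sub (h : HolOn d Ω f) (h' : HolOn d Ω g) : HolOn d Ω fun x => f x - g x :=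
  fun e x hx h1 => (h e x hx h1).sub (h' e x hx h1)

theorem HolOn.mul (h : HolOn d Ω f) (h' : HolOn d Ω g) : HolOn d Ω fun x => f x * g x :=
  fun e x hx h1 => (h e x hx h1).mul (h' e x hx h1)

theorem HolOn.inv (h : HolOn d Ω f) (h0 : ∀ x ∈ Ω, f x ≠ 0) : HolOn d Ω fun x => (f x)⁻¹ :=
  fun e x hx h1 => (h e x hx h1).inv (by
    show f (e.symm (e x)) ≠ 0
    rw [hx.left_inv]
    exact h0 x h1)

theorem HolOn.isOpen_ne (h : HolOn d Ω f) (hΩ : IsOpen Ω) : IsOpen {x | x ∈ Ω ∧ f x ≠ 0} :=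
  h.contOn.isOpen_inter_preimage hΩ _root_.isOpen_ne

theorem HolOn.isOpen_lt (h : HolOn d Ω f) (hΩ : IsOpen Ω) (c : ℂ) (r : ℝ) :
    IsOpen {x | x ∈ Ω ∧ ‖f x - c‖ < r} :=
  ((h.contOn.sub continuousOn_const).norm).isOpen_inter_preimage hΩ isOpen_Iio

theorem isOpen_evZero (hΩ : IsOpen Ω) (f : X → ℂ) :
    IsOpen {x | x ∈ Ω ∧ ∀ᶠ y in 𝓝 x, f y = 0} :=
  hΩ.inter isOpen_setOfPred_eventually_nhds

theorem EqS.mono (h : EqS M Ω s s') (hs : Ω' ⊆ Ω) : EqS M Ω' s s' :=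
  fun i x hi hx => h i x hi (hs hx)

theorem EqS.symm (h : EqS M Ω s s') : EqS M Ω s' s := fun i x hi hx => (h i x hi hx).symm

theorem EqS.trans {s'' : κ → X → ℂ} (h : EqS M Ω s s') (h' : EqS M Ω s' s'') : EqS M Ω s s'' :=
  fun i x hi hx => (h i x hi hx).trans (h' i x hi hx)

theorem sc_mono (h : ScOn M Ω s) (hs : Ω' ⊆ Ω) : ScOn M Ω' s :=
  ⟨fun i e x hx hi h1 => h.smooth i e x hx hi (hs h1), fun i j x hi hj h1 => h.change i j x hi hj (hs h1)⟩

theorem sc_add (h : ScOn M Ω s) (h' : ScOn M Ω s') : ScOn M Ω (s + s') :=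
  ⟨fun i e x hx hi h1 => (h.smooth i e x hx hi h1).add (h'.smooth i e x hx hi h1),
    fun i j x hi hj h1 => by
      show s i x + s' i x = _ * (s j x + s' j x)
      rw [h.change i j x hi hj h1, h'.change i j x hi hj h1, mul_add]⟩

theorem sc_sub (h : ScOn M Ω s) (h' : ScOn M Ω s') : ScOn M Ω (s - s') :=
  ⟨fun i e x hx hi h1 => (h.smooth i e x hx hi h1).sub (h'.smooth i e x hx hi h1),
    fun i j x hi hj h1 => by
      show s i x - s' i x = _ * (s j x - s' j x)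
      rw [h.change i j x hi hj h1, h'.change i j x hi hj h1, mul_sub]⟩

theorem sc_mul (h : ScOn M Ω s) (hf : HolOn d Ω f) : ScOn M Ω fun i x => f x * s i x :=
  ⟨fun i e x hx hi h1 =>
    (((hf e x hx h1).contDiffAt (n := ∞)).restrict_scalars ℝ).mul (h.smooth i e x hx hi h1),
    fun i j x hi hj h1 => by rw [h.change i j x hi hj h1]; ring⟩

theorem sc_contAt (h : ScOn M Ω s) {i : κ} (hi : x ∈ M.U i) (hx : x ∈ Ω) :
    ContinuousAt (s i) x :=
  contAt_ch (at_ch x) (h.smooth i _ x (at_ch x) hi hx).continuousAt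

theorem sec_sc (h : SecOn M Ω s) : ScOn M Ω s :=
  ⟨fun i e x hx hi h1 => ((h.holo i e x hx hi h1).contDiffAt (n := ∞)).restrict_scalars ℝ, h.change⟩

theorem sec_mono (h : SecOn M Ω s) (hs : Ω' ⊆ Ω) : SecOn M Ω' s :=
  ⟨fun i e x hx hi h1 => h.holo i e x hx hi (hs h1), fun i j x hi hj h1 => h.change i j x hi hj (hs h1)⟩

theorem sec_zero : SecOn M Ω (0 : κ → X → ℂ) :=
  ⟨fun _ _ _ _ _ _ => analyticAt_const, fun _ _ _ _ _ _ => (mul_zero _).symm⟩

theorem sec_add (h : SecOn M Ω s) (h' : SecOn M Ω s') : SecOn M Ω (s + s') :=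
  ⟨fun i e x hx hi h1 => (h.holo i e x hx hi h1).add (h'.holo i e x hx hi h1),
    (sc_add (sec_sc h) (sec_sc h')).change⟩

theorem sec_sub (h : SecOn M Ω s) (h' : SecOn M Ω s') : SecOn M Ω (s - s') :=
  ⟨fun i e x hx hi h1 => (h.holo i e x hx hi h1).sub (h'.holo i e x hx hi h1),
    (sc_sub (sec_sc h) (sec_sc h')).change⟩

theorem sec_mul (h : SecOn M Ω s) (hf : HolOn d Ω f) : SecOn M Ω fun i x => f x * s i x :=
  ⟨fun i e x hx hi h1 => (hf e x hx h1).mul (h.holo i e x hx hi h1), (sc_mul (sec_sc h) hf).change⟩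

theorem sec_smul (h : SecOn M Ω s) (c : ℂ) : SecOn M Ω (c • s) := sec_mul h (holOn_const c)

theorem sec_sum {α : Type} (S : Finset α) {F : α → κ → X → ℂ} (h : ∀ a ∈ S, SecOn M Ω (F a)) :
    SecOn M Ω (∑ a ∈ S, F a) :=
  Finset.sum_induction F (SecOn M Ω) (fun _ _ => sec_add) sec_zero h

theorem sec_congr (hΩ : IsOpen Ω) (h : SecOn M Ω s) (he : EqS M Ω s s') : SecOn M Ω s' :=
  ⟨fun i e x hx hi h1 => (h.holo i e x hx hi h1).congr (by
    filter_upwards [ev_ch hx ((M.isOpen i).eventually_mem hi), ev_ch hx (hΩ.eventually_mem h1)]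
      with z h2 h3 using he i _ h2 h3),
    fun i j x hi hj h1 => by rw [← he i x hi h1, ← he j x hj h1, h.change i j x hi hj h1]⟩

theorem nrm_at (hρ : IsMetric M ρ) (h : ScOn M Ω s) {i : κ} (hi : x ∈ M.U i) (hx : x ∈ Ω) :
    nrm M ρ s x = ‖s i x‖ ^ 2 * Real.exp (-ρ i x) := by
  have hj : x ∈ M.U (M.cover x).choose := (M.cover x).choose_spec
  unfold nrm
  rw [h.change i _ x hi hj hx, hρ.change i _ x hi hj]
  have hg := M.ne_zero i _ x hi hj
  rw [neg_add, Real.exp_add, Real.exp_neg (Real.log _), Real.exp_log (by positivity), norm_mul]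
  field_simp

theorem contAt_rho (hρ : IsMetric M ρ) {i : κ} (hi : x ∈ M.U i) : ContinuousAt (ρ i) x :=
  contAt_ch (at_ch x) (hρ.smooth i _ x (at_ch x) hi).continuousAt

theorem contAt_nrm (hρ : IsMetric M ρ) (hΩ : IsOpen Ω) (h : ScOn M Ω s) (hx : x ∈ Ω) :
    ContinuousAt (nrm M ρ s) x := by
  obtain ⟨i, hi⟩ := M.cover x
  refine (((sc_contAt h hi hx).norm.pow 2).mul (contAt_rho hρ hi).neg.rexp).congr ?_
  filter_upwards [(M.isOpen i).mem_nhds hi, hΩ.mem_nhds hx] with y h1 h2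
    using (nrm_at hρ h h1 h2).symm

theorem contOn_nrm (hρ : IsMetric M ρ) (hΩ : IsOpen Ω) (h : ScOn M Ω s) :
    ContinuousOn (nrm M ρ s) Ω := fun _ hx => (contAt_nrm hρ hΩ h hx).continuousWithinAt

theorem nrm_zero_iff (hρ : IsMetric M ρ) (h : ScOn M Ω s) {i : κ} (hi : x ∈ M.U i) (hx : x ∈ Ω) :
    nrm M ρ s x = 0 ↔ s i x = 0 := by
  rw [nrm_at hρ h hi hx, mul_eq_zero, pow_eq_zero_iff two_ne_zero, norm_eq_zero]
  exact or_iff_left (Real.exp_pos _).ne'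

theorem nrm_neg (x : X) : nrm M ρ (-s) x = nrm M ρ s x := by
  unfold nrm
  rw [Pi.neg_apply, Pi.neg_apply, norm_neg]

theorem nrm_sub_comm (x : X) : nrm M ρ (s - s') x = nrm M ρ (s' - s) x := by
  rw [← neg_sub, nrm_neg]

theorem nrm_sum_le {α : Type} (S : Finset α) (F : α → κ → X → ℂ) (x : X) :
    nrm M ρ (∑ a ∈ S, F a) x ≤ S.card * ∑ a ∈ S, nrm M ρ (F a) x := by
  unfold nrm
  rw [← Finset.sum_mul, ← mul_assoc]
  refine mul_le_mul_of_nonneg_right ?_ (Real.exp_pos _).le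
  rw [Finset.sum_apply, Finset.sum_apply]
  exact (pow_le_pow_left₀ (norm_nonneg _) (norm_sum_le _ _) 2).trans (sq_sum_le_card_mul_sum_sq)

/-- sections which agree where `f ≠ 0` and where `f` vanishes identically agree -/
theorem eqS_of_dense (hΩ : IsOpen Ω) (h : ScOn M Ω s) (h' : ScOn M Ω s') (f : X → ℂ)
    (h1 : EqS M {x | x ∈ Ω ∧ f x ≠ 0} s s') (h2 : EqS M {x | x ∈ Ω ∧ ∀ᶠ y in 𝓝 x, f y = 0} s s') :
    EqS M Ω s s' := by
  intro i x hi hx
  by_cases h0 : ∀ᶠ y in 𝓝 x, f y = 0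
  · exact h2 i x hi ⟨hx, h0⟩
  refine tendsto_nhds_unique_of_frequently_eq (sc_contAt h hi hx) (sc_contAt h' hi hx) ?_
  refine ((not_eventually.1 h0).and_eventually
    (((M.isOpen i).eventually_mem hi).and (hΩ.eventually_mem hx))).mono ?_
  rintro y ⟨h3, h4, h5⟩
  exact h1 i y h4 ⟨h5, h3⟩

theorem isSigmaCompact_of_isOpen (d : ℕ) [ChartedSpace (Cm d) X] [SigmaCompactSpace X]
    (hΩ : IsOpen Ω) : IsSigmaCompact Ω := by
  have := ChartedSpace.secondCountable_of_sigmaCompact (Cm d) X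
  have := ChartedSpace.locallyCompactSpace (Cm d) X
  have := hΩ.locallyCompactSpace
  exact isSigmaCompact_iff_sigmaCompactSpace.2 inferInstance

section meas

variable [MeasurableSpace X] {μ : Measure X}

theorem nsq_mono (hs : Ω' ⊆ Ω) : nsq μ M ρ Ω' s ≤ nsq μ M ρ Ω s := lintegral_mono_set hs

theorem nsq_zero : nsq μ M ρ Ω (0 : κ → X → ℂ) = 0 := by simp [nsq, nrm]

theorem nsq_neg : nsq μ M ρ Ω (-s) = nsq μ M ρ Ω s := by simp only [nsq, nrm_neg]

theorem nsq_sub_comm : nsq μ M ρ Ω (s - s') = nsq μ M ρ Ω (s' - s) := by rw [← neg_sub, nsq_neg]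

theorem nsq_smul (c : ℂ) : nsq μ M ρ Ω (c • s) = ‖c‖ₑ ^ 2 * nsq μ M ρ Ω s := by
  unfold nsq
  rw [← lintegral_const_mul' _ _ (ENNReal.pow_ne_top enorm_ne_top)]
  refine lintegral_congr fun x => ?_
  rw [← ofReal_norm, ← ENNReal.ofReal_pow (norm_nonneg _), ← ENNReal.ofReal_mul (sq_nonneg _)]
  exact congrArg _ (nrm_smul M ρ (fun _ => c) s x)

variable [BorelSpace X]

theorem nsq_congr (hΩ : IsOpen Ω) (h : EqS M Ω s s') : nsq μ M ρ Ω s = nsq μ M ρ Ω s' :=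
  setLIntegral_congr_fun hΩ.measurableSet fun x hx => by
    simp only [nrm_congr (ρ := ρ) fun i hi => h i x hi hx]

theorem nsq_le_of (hΩ : IsOpen Ω) {T : ℝ} (hT : 0 ≤ T)
    (h : ∀ x ∈ Ω, nrm M ρ s x ≤ T * nrm M ρ s' x) :
    nsq μ M ρ Ω s ≤ ENNReal.ofReal T * nsq μ M ρ Ω s' := by
  unfold nsq
  rw [← lintegral_const_mul' _ _ ENNReal.ofReal_ne_top]
  refine setLIntegral_mono' hΩ.measurableSet fun x hx => ?_
  rw [← ENNReal.ofReal_mul hT]
  exact ENNReal.ofReal_le_ofReal (h x hx)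

theorem nsq_mul_le (hΩ : IsOpen Ω) {T : ℝ} (h : ∀ x ∈ Ω, ‖f x‖ ≤ T) :
    nsq μ M ρ Ω (fun i x => f x * s i x) ≤ ENNReal.ofReal (T ^ 2) * nsq μ M ρ Ω s :=
  nsq_le_of hΩ (sq_nonneg T) fun x hx => by
    rw [nrm_smul]
    exact mul_le_mul_of_nonneg_right (pow_le_pow_left₀ (norm_nonneg _) (h x hx) 2)
      (nrm_nonneg' _ _ _ _)

theorem aemeas_nrm (hρ : IsMetric M ρ) (hΩ : IsOpen Ω) (h : ScOn M Ω s) :
    AEMeasurable (fun x => ENNReal.ofReal (nrm M ρ s x)) (μ.restrict Ω) :=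
  ((contOn_nrm hρ hΩ h).aemeasurable hΩ.measurableSet).ennreal_ofReal

theorem nsq_add_le (hρ : IsMetric M ρ) (hΩ : IsOpen Ω) (h : ScOn M Ω s) :
    nsq μ M ρ Ω (s + s') ≤ 2 * nsq μ M ρ Ω s + 2 * nsq μ M ρ Ω s' := by
  unfold nsq
  rw [← lintegral_const_mul' _ _ (by simp), ← lintegral_const_mul' _ _ (by simp),
    ← lintegral_add_left' ((aemeas_nrm hρ hΩ h).const_mul 2)]
  refine lintegral_mono fun x => ?_
  have h2 : (2 : ℝ≥0∞) = ENNReal.ofReal 2 := by simp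
  rw [h2, ← ENNReal.ofReal_mul (by norm_num), ← ENNReal.ofReal_mul (by norm_num),
    ← ENNReal.ofReal_add (mul_nonneg (by norm_num) (nrm_nonneg' _ _ _ _))
      (mul_nonneg (by norm_num) (nrm_nonneg' _ _ _ _))]
  exact ENNReal.ofReal_le_ofReal (nrm_add_le M ρ s s' x)

theorem nsq_sub_le (hρ : IsMetric M ρ) (hΩ : IsOpen Ω) (h : ScOn M Ω s) :
    nsq μ M ρ Ω (s - s') ≤ 2 * nsq μ M ρ Ω s + 2 * nsq μ M ρ Ω s' := by
  rw [sub_eq_add_neg, ← nsq_neg (s := s')]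
  exact nsq_add_le hρ hΩ h

theorem nsq_sum_le (hρ : IsMetric M ρ) (hΩ : IsOpen Ω) {α : Type} (S : Finset α)
    {F : α → κ → X → ℂ} (h : ∀ a ∈ S, ScOn M Ω (F a)) :
    nsq μ M ρ Ω (∑ a ∈ S, F a) ≤ S.card * ∑ a ∈ S, nsq μ M ρ Ω (F a) := by
  unfold nsq
  rw [← lintegral_finsetSum' S fun a ha => aemeas_nrm hρ hΩ (h a ha),
    ← lintegral_const_mul' _ _ (ENNReal.natCast_ne_top _)]
  refine lintegral_mono fun x => ?_
  refine (ENNReal.ofReal_le_ofReal (nrm_sum_le S F x)).trans (le_of_eq ?_)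
  rw [ENNReal.ofReal_mul (Nat.cast_nonneg _), ENNReal.ofReal_natCast,
    ENNReal.ofReal_sum_of_nonneg fun a _ => nrm_nonneg' _ _ _ _]

/-- a section defined near the compact set `K` is square integrable on `K` -/
theorem nsq_ne_top [IsFiniteMeasureOnCompacts μ] (hρ : IsMetric M ρ) (hΩ : IsOpen Ω)
    (hΩ' : IsOpen Ω') {K : Set X} (hK : IsCompact K) (h1 : Ω' ⊆ K) (h2 : K ⊆ Ω) (h : ScOn M Ω s) :
    nsq μ M ρ Ω' s ≠ ⊤ := by
  obtain ⟨T, hT⟩ := hK.bddAbove_image ((contOn_nrm hρ hΩ h).mono h2)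
  refine ne_top_of_le_ne_top (b := ∫⁻ _ in Ω', ENNReal.ofReal T ∂μ) ?_
    (setLIntegral_mono' hΩ'.measurableSet fun x hx =>
      ENNReal.ofReal_le_ofReal (hT ⟨x, h1 hx, rfl⟩))
  rw [setLIntegral_const]
  exact ENNReal.mul_ne_top ENNReal.ofReal_ne_top
    (ne_top_of_le_ne_top hK.measure_lt_top.ne (measure_mono h1))

theorem eqS_zero_of_nsq [μ.IsOpenPosMeasure] (hρ : IsMetric M ρ) (hΩ : IsOpen Ω) (h : ScOn M Ω s)
    (h0 : nsq μ M ρ Ω s = 0) : EqS M Ω s 0 := by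
  have h1 := (lintegral_eq_zero_iff' (aemeas_nrm (μ := μ) hρ hΩ h)).1 h0
  have h2 : EqOn (nrm M ρ s) (fun _ => 0) Ω :=
    Measure.eqOn_open_of_ae_eq (μ := μ) (h1.mono fun x hx =>
      le_antisymm (ENNReal.ofReal_eq_zero.1 hx) (nrm_nonneg' _ _ _ _)) hΩ (contOn_nrm hρ hΩ h)
      continuousOn_const
  exact fun i x hi hx => (nrm_zero_iff hρ h hi hx).1 (h2 hx)

end meas

namespace PB

variable {N : ℕ} (B : PB d X N) {y y' : Cm N} {δ δ' : ℝ}

theorem contAt (hx : x ∈ B.Ω) : ContinuousAt B.t x :=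
  continuousAt_pi.2 fun k => (B.hol k).contAt hx

theorem contOn : ContinuousOn B.t B.Ω := fun _ hx => (B.contAt hx).continuousWithinAt

theorem an {e : Chart d X} (hx : At e x) (h : x ∈ B.Ω) :
    AnalyticAt ℂ (fun z => B.t (e.symm z)) (e x) := AnalyticAt.pi fun k => B.hol k e x hx h

theorem isOpen_tube (y : Cm N) (δ : ℝ) : IsOpen (B.tube y δ) :=
  B.contOn.isOpen_inter_preimage B.isOpen isOpen_ball

theorem tube_subset (y : Cm N) (δ : ℝ) : B.tube y δ ⊆ B.Ω := inter_subset_left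

theorem tube_mono (h : ball y δ ⊆ ball y' δ') : B.tube y δ ⊆ B.tube y' δ' :=
  inter_subset_inter_right _ (preimage_mono h)

theorem tube_mono' (h : ‖y - y'‖ + δ ≤ δ') : B.tube y δ ⊆ B.tube y' δ' :=
  B.tube_mono (ball_subset_ball' (by rw [dist_eq_norm]; linarith))

theorem isOpen_pd (y : Cm N) (r : Fin N → ℝ) : IsOpen (B.pd y r) := by
  have : B.pd y r = B.Ω ∩ B.t ⁻¹' ⋂ k, {z | ‖z k - y k‖ < r k} := by
    ext x
    simp [pd]
  rw [this]
  exact B.contOn.isOpen_inter_preimage B.isOpen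
    (isOpen_iInter_of_finite fun k => isOpen_lt (by fun_prop) continuous_const)

theorem tube_eq_pd (y : Cm N) (hδ : 0 < δ) : B.tube y δ = B.pd y fun _ => δ := by
  ext x
  simp only [tube, pd, mem_inter_iff, mem_preimage, mem_ball, dist_eq_norm, mem_ofPred_eq,
    pi_norm_lt_iff hδ, Pi.sub_apply]

theorem compact (h : ‖y - B.c‖ + δ < B.R) : IsCompact (B.Ω ∩ B.t ⁻¹' closedBall y δ) :=
  B.proper _ (isCompact_closedBall y δ) (closedBall_subset_ball' (by rw [dist_eq_norm]; linarith))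

theorem holOn_sub (h : Ω ⊆ B.Ω) (y : Cm N) (k : Fin N) : HolOn d Ω fun x => B.t x k - y k :=
  ((B.hol k).mono h).sub (holOn_const _)

theorem secOn_mul (h : Ω ⊆ B.Ω) (y : Cm N) (k : Fin N) (hs : SecOn M Ω s) :
    SecOn M Ω (B.mul y k s) := sec_mul hs (B.holOn_sub h y k)

theorem mul_add (y : Cm N) (k : Fin N) (s s' : κ → X → ℂ) :
    B.mul y k (s + s') = B.mul y k s + B.mul y k s' := by
  funext i x
  exact _root_.mul_add _ _ _

theorem mul_zero (y : Cm N) (k : Fin N) : B.mul y k (0 : κ → X → ℂ) = 0 := by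
  funext i x
  exact MulZeroClass.mul_zero _

theorem holOn_comp {a : Cm N → ℂ} (ha : AnalyticOnNhd ℂ a (ball y δ)) :
    HolOn d (B.tube y δ) fun x => a (B.t x) := fun e x hx h =>
  AnalyticAt.comp (g := a) (f := fun z => B.t (e.symm z)) (by
    rw [hx.left_inv]
    exact ha _ h.2) (B.an hx h.1)

end PB

end C1

end Vale.Agent.P277Z
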