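import Vale.Agent.P277Z.Coh.Api

/-!
# P277Z, block COH1: the assembly
-/

open scoped Manifold ContDiff ComplexOrder Topology ENNReal Matrix
open MeasureTheory Filter Set Metric

set_option linter.unusedSectionVars false

noncomputable section

namespace Vale.Agent.P277Z.C1

open Vale.Agent.P272.K Vale.Agent.P301.H599 Vale.Agent.P285Z Vale.Agent.P277Z.Van
open Vale.Agent.P301.H98 (IsSection nrm)

namespace Asm

theorem exists_eta {C : ℝ≥0∞} (hC : C ≠ ⊤) {η : ℝ≥0∞} (hη : η ≠ 0) :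
    ∃ η' : ℝ≥0∞, η' ≠ 0 ∧ η' * C ≤ η := by
  have h1 : C + 1 ≠ ⊤ := ENNReal.add_ne_top.2 ⟨hC, ENNReal.one_ne_top⟩
  have h0 : C + 1 ≠ 0 := by simp
  refine ⟨η * (C + 1)⁻¹, mul_ne_zero hη (ENNReal.inv_ne_zero.2 h1), ?_⟩
  calc η * (C + 1)⁻¹ * C ≤ η * (C + 1)⁻¹ * (C + 1) := by gcongr; exact le_self_add
    _ = η := by rw [mul_assoc, ENNReal.inv_mul_cancel h0 h1, mul_one]

variable {d : ℕ} {X : Type} [TopologicalSpace X] [ChartedSpace (Cm d) X] {κ : Type}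
  {M : LineBundle d X κ} {ρ : κ → X → ℝ} [MeasurableSpace X] [BorelSpace X] {μ : Measure X}
  {N n : ℕ} {B : PB d X N} {y : Cm N} {Ω Ω' : Set X} {e : Fin n → κ → X → ℂ}

/-- division from `Ω` to `Ω'` -/
def Ch (μ : Measure X) (M : LineBundle d X κ) (ρ : κ → X → ℝ) (B : PB d X N) (y : Cm N)
    (Ω Ω' : Set X) (C : ℝ≥0∞) : Prop :=
  ∀ g, SecOn M Ω g → nsq μ M ρ Ω g ≠ ⊤ →
    ∃ (F : κ → X → ℂ) (G : Fin N → κ → X → ℂ), SecOn M Ω' F ∧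
      (∀ k, SecOn M Ω (G k)) ∧ EqS M Ω g (F + ∑ k, B.mul y k (G k)) ∧
      nsq μ M ρ Ω' F ≤ C * nsq μ M ρ Ω g ∧ ∀ k, nsq μ M ρ Ω (G k) ≤ C * nsq μ M ρ Ω g

theorem div_cpt (hs : Ω ⊆ Ω') (he : ∀ j, SecOn M Ω' (e j)) {C η : ℝ≥0∞} (hC : C ≠ ⊤)
    (h1 : Ch μ M ρ B y Ω Ω' C)
    (h2 : ∀ F, SecOn M Ω' F → nsq μ M ρ Ω' F ≠ ⊤ → ∃ a : Fin n → ℂ, ‖a‖ₑ ^ 2 ≤ nsq μ M ρ Ω' F ∧
      nsq μ M ρ Ω (F - ∑ j, a j • e j) ≤ η * nsq μ M ρ Ω' F) :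
    DivR μ M ρ B y Ω e C (η * C) := by
  intro g hg hfin
  obtain ⟨F, G, hF, hG, heq, hF2, hG2⟩ := h1 g hg hfin
  obtain ⟨a, ha, ha2⟩ := h2 F hF (ne_top_of_le_ne_top (ENNReal.mul_ne_top hC hfin) hF2)
  refine ⟨a, G, F - ∑ j, a j • e j, hG,
    sec_mono (sec_sub hF (sec_sum _ fun j _ => sec_smul (he j) _)) hs, ?_, ha.trans hF2, hG2, ?_⟩
  · have : (∑ j, a j • e j) + (∑ k, B.mul y k (G k)) + (F - ∑ j, a j • e j) =
        F + ∑ k, B.mul y k (G k) := by abel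
    rwa [this]
  · rw [mul_assoc]
    exact ha2.trans (by gcongr)

theorem div_mono {C η η' : ℝ≥0∞} (h : DivR μ M ρ B y Ω e C η) (hη : η ≤ η') :
    DivR μ M ρ B y Ω e C η' := by
  intro g hg hfin
  obtain ⟨a, G, r, h1, h2, h3, h4, h5, h6⟩ := h g hg hfin
  exact ⟨a, G, r, h1, h2, h3, h4, h5, h6.trans (by gcongr)⟩

theorem div_loc (hρ : IsMetric M ρ) (hΩ : IsOpen Ω) (hs : Ω ⊆ Ω') {C C' η : ℝ≥0∞} (hC : C ≠ ⊤)
    (h1 : Ch μ M ρ B y Ω Ω' C) (h2 : DivR μ M ρ B y Ω' e C' η) :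
    DivR μ M ρ B y Ω e (2 * C + 2 * (C' * C)) (η * C) := by
  intro g hg hfin
  obtain ⟨F, G, hF, hG, heq, hF2, hG2⟩ := h1 g hg hfin
  obtain ⟨a, G', r, k1, k2, k3, k4, k5, k6⟩ :=
    h2 F hF (ne_top_of_le_ne_top (ENNReal.mul_ne_top hC hfin) hF2)
  have hb : C' * nsq μ M ρ Ω' F ≤ C' * C * nsq μ M ρ Ω g := by
    rw [mul_assoc]
    gcongr
  refine ⟨a, fun k => G k + G' k, r, fun k => sec_add (hG k) (sec_mono (k1 k) hs), sec_mono k2 hs,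
    fun i x hi hx => ?_, ?_, fun k => ?_, ?_⟩
  · have e1 := heq i x hi hx
    have e2 := k3 i x hi (hs hx)
    simp only [PB.mul_add, Finset.sum_add_distrib, Pi.add_apply] at e1 e2 ⊢
    rw [e1, e2]
    ring
  · refine (k4.trans hb).trans ?_
    gcongr
    rw [two_mul (C' * C), ← add_assoc]
    exact le_add_self
  · refine (nsq_add_le hρ hΩ (sec_sc (hG k))).trans ?_
    rw [add_mul, mul_assoc, mul_assoc 2]
    gcongr
    · exact hG2 k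
    · exact ((nsq_mono hs).trans (k5 k)).trans hb
  · refine ((nsq_mono hs).trans k6).trans ?_
    rw [mul_assoc]
    gcongr

end Asm

open Asm

theorem coh1_of (hV : Van.VolStmt) (h2 : Vol2Stmt) (hCh : ChainStmt) (hCp : CptStmt)
    (hA : AmpStmt) (hI : IterStmt) (hCut : CutStmt) : Coh1Stmt := by
  intro d X _ _ _ _ _ h hh κ M ρ hρ N B w hw Ψ hΨ hP a R' haR hR
  by_cases ha : a ≤ 0
  · exact ⟨0, fun j => j.elim0, fun j => j.elim0, fun y hy => by simp [ball_eq_empty.2 ha] at hy⟩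
  push Not at ha
  borelize X
  obtain ⟨μ, hμ⟩ := (hV d X).2.1 h hh
  obtain ⟨i1, i2⟩ := h2 d X h μ hh hμ
  obtain ⟨R₁, hR1, hR2⟩ := exists_between hR
  obtain ⟨R₂, ha1, ha2⟩ := exists_between haR
  obtain ⟨Ψ', hΨ', hΨe⟩ := hCut d X N B Ψ hΨ R₁ hR2
  set ρ' : κ → X → ℝ := fun i x => ρ i x + Ψ' x with hρ'd
  have hρ' : IsMetric M ρ' := isMetric_add hρ hΨ'
  let B₁ : PB d X N := ⟨B.Ω, B.t, B.c, R₁, B.isOpen, B.hol,
    fun K hK hs => B.proper K hK (hs.trans (ball_subset_ball hR2.le))⟩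
  have hsub : B.tube B.c R₁ ⊆ B.tube B.c B.R := B.tube_mono (ball_subset_ball hR2.le)
  have hw₁ : KahOn (B₁.tube B₁.c B₁.R) w :=
    ⟨fun e x hx h1 => hw.smooth e x hx (hsub h1), fun e x hx h1 => hw.posDef e x hx (hsub h1),
      fun e e' x hx hx' h1 => hw.change e e' x hx hx' (hsub h1),
      fun e x hx h1 => hw.closed e x hx (hsub h1)⟩
  have hP₁ : PSDOn (B₁.tube B₁.c B₁.R) fun e z => curvature M ρ' e z - kc h e z := by
    intro e x hx h1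
    have k1 := hP e x hx (hsub h1)
    have k2 := curvature_add hρ hΨ' e x hx
    have k3 : ddc Ψ' e (e x) = ddc Ψ e (e x) :=
      C2.cHess_congr (ev_ch hx (P := fun y => Ψ' y = Ψ y)
        (((B.isOpen_tube B.c R₁).eventually_mem h1).mono hΨe))
    simp only [] at k1 k2 ⊢
    rw [hρ'd, k2, k3, add_sub_right_comm]
    exact k1
  have hch := hCh d X h μ hh hμ κ M ρ' hρ' N B₁ w hw₁ hP₁
  obtain ⟨C₁, hC₁, hc₁⟩ := hch B.c B.c a R₂ R' ha.le ha1 (by simpa using ha2.le)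
    (by simpa [B₁] using hR1)
  obtain ⟨η, hη, hη2⟩ := exists_eta hC₁ (η := 2⁻¹) (by simp)
  have hK : IsCompact (B.Ω ∩ B.t ⁻¹' closedBall B.c R₂) := B.compact (by simp; linarith)
  obtain ⟨n, e, he, hcp⟩ := hCp d X h μ hh hμ κ M ρ' hρ' (B.tube B.c R₂) _ (B.tube B.c R')
    (B.isOpen_tube _ _) hK (B.isOpen_tube _ _)
    (inter_subset_inter_right _ (preimage_mono ball_subset_closedBall))
    (inter_subset_inter_right _ (preimage_mono (closedBall_subset_ball ha2))) η hη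
  have hs2 : B.tube B.c R₂ ⊆ B.tube B.c R' := B.tube_mono (ball_subset_ball ha2.le)
  refine ⟨n, e, he, fun y hy δ hδ g hg => ?_⟩
  rw [mem_ball, dist_eq_norm] at hy
  have hd₁ : DivR μ M ρ' B₁ y (B.tube B.c R₂) e C₁ 2⁻¹ :=
    div_mono (div_cpt hs2 he hC₁ (hc₁ y hy.le) hcp) hη2
  obtain ⟨δ₁, hδ0, hδ1⟩ := exists_between (lt_min hδ (sub_pos.2 ha1))
  have hδ2 : δ₁ < δ := hδ1.trans_le (min_le_left _ _)
  have hδ3 : ‖y - B.c‖ + δ₁ ≤ R₂ := by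
    have := hδ1.trans_le (min_le_right _ _)
    linarith
  obtain ⟨C₂, hC₂, hc₂⟩ := hch y B.c 0 δ₁ R₂ le_rfl hδ0 hδ3 (by simp [B₁]; linarith)
  obtain ⟨η₂, hη₂, hη3⟩ := exists_eta hC₂ (η := (4 * ((N : ℝ≥0∞) + 1))⁻¹)
    (ENNReal.inv_ne_zero.2 (ENNReal.mul_ne_top (by simp) (by simp)))
  obtain ⟨C', hC', hd₂⟩ := hA d X μ κ M ρ' hρ' N B₁ y _ (B.isOpen_tube _ _) n e C₁ hC₁ hd₁ η₂ hη₂
  have hs3 : B.tube y δ₁ ⊆ B.tube B.c R₂ := B.tube_mono' hδ3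
  have hd₃ := div_mono (div_loc hρ' (B.isOpen_tube y δ₁) hs3 hC₂ (hc₂ y (by simp)) hd₂) hη3
  obtain ⟨δ', k1, k2, k3⟩ := hI d X μ κ M ρ' hρ' N B₁ y δ₁ hδ0 n e
    (fun j => sec_mono (he j) (hs3.trans hs2)) _ (by finiteness) hd₃
  have hK' : IsCompact (B.Ω ∩ B.t ⁻¹' closedBall y δ₁) := B.compact (by linarith)
  obtain ⟨c, k4, k5⟩ := k3 g (sec_mono hg (B.tube_mono (ball_subset_ball hδ2.le)))
    (nsq_ne_top hρ' (B.isOpen_tube y δ) (B.isOpen_tube y δ₁) hK'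
      (inter_subset_inter_right _ (preimage_mono ball_subset_closedBall))
      (inter_subset_inter_right _ (preimage_mono (closedBall_subset_ball hδ2))) (sec_sc hg))
  exact ⟨δ', k1, c, k4, k5⟩

end Vale.Agent.P277Z.C1
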