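import Vale.Agent.P277Z.Van.Defs

/-!
# P277Z, block COH1: tubes over polydiscs (frame `P301.H599`, `P277Z.Van`)
-/

open scoped Manifold ContDiff ComplexOrder Topology ENNReal Matrix
open MeasureTheory Filter Set Metric

noncomputable section

namespace Vale.Agent.P277Z.C1

open Vale.Agent.P272.K Vale.Agent.P301.H599 Vale.Agent.P285Z Vale.Agent.P277Z.Van
open Vale.Agent.P301.H98 (IsSection nrm)

variable {d : ℕ} {X : Type} [TopologicalSpace X] [ChartedSpace (Cm d) X] {κ : Type}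

variable (d) in
/-- `f` is holomorphic at the points of `Ω` -/
def HolOn (Ω : Set X) (f : X → ℂ) : Prop :=
  ∀ (e : Chart d X) x, At e x → x ∈ Ω → AnalyticAt ℂ (fun z => f (e.symm z)) (e x)

/-- the square of the `L²` norm over `Ω` -/
def nsq [MeasurableSpace X] (μ : Measure X) (M : LineBundle d X κ) (ρ : κ → X → ℝ) (Ω : Set X)
    (s : κ → X → ℂ) : ℝ≥0∞ :=
  ∫⁻ x in Ω, ENNReal.ofReal (nrm M ρ s x) ∂μ

variable (d X) in
/-- a holomorphic map `t` from the open set `Ω` to `ℂ^N` which is proper over the polydisc of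
centre `c` and radius `R` -/
structure PB (N : ℕ) where
  Ω : Set X
  t : X → Cm N
  c : Cm N
  R : ℝ
  isOpen : IsOpen Ω
  hol : ∀ k, HolOn d Ω fun x => t x k
  proper : ∀ K : Set (Cm N), IsCompact K → K ⊆ ball c R → IsCompact (Ω ∩ t ⁻¹' K)

namespace PB

variable {N : ℕ} (B : PB d X N)

/-- the preimage of the polydisc of centre `y` and radius `δ` -/
def tube (y : Cm N) (δ : ℝ) : Set X := B.Ω ∩ B.t ⁻¹' ball y δ

/-- the preimage of the polydisc of centre `y` and radii `r` -/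
def pd (y : Cm N) (r : Fin N → ℝ) : Set X := {x | x ∈ B.Ω ∧ ∀ k, ‖B.t x k - y k‖ < r k}

/-- the closed polydisc lies in the polydisc of the base -/
def Small (y : Cm N) (r : Fin N → ℝ) : Prop := 0 < B.R ∧ ∀ k, 0 < r k ∧ ‖y k - B.c k‖ + r k < B.R

/-- the section `(t_k - y_k) s` -/
def mul (y : Cm N) (k : Fin N) (s : κ → X → ℂ) : κ → X → ℂ := fun i x => (B.t x k - y k) * s i x

/-- the sections `e j` generate the germs along the fibre of `y` of sections of `M`, over the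
germs at `y` of holomorphic functions on `ℂ^N` -/
def GenAt (M : LineBundle d X κ) {n : ℕ} (e : Fin n → κ → X → ℂ) (y : Cm N) : Prop :=
  ∀ δ : ℝ, 0 < δ → ∀ g, SecOn M (B.tube y δ) g → ∃ δ' : ℝ, 0 < δ' ∧ ∃ a : Fin n → Cm N → ℂ,
    (∀ j, AnalyticOnNhd ℂ (a j) (ball y δ')) ∧
      ∀ i x, x ∈ M.U i → x ∈ B.tube y δ' → g i x = ∑ j, a j (B.t x) * e j i x

end PB

/-- `s = s'` over `Ω` -/
def EqS (M : LineBundle d X κ) (Ω : Set X) (s s' : κ → X → ℂ) : Prop :=
  ∀ i x, x ∈ M.U i → x ∈ Ω → s i x = s' i x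

/-- division with remainder over `Ω`: every square integrable section is a combination of the `e j`,
plus an element of the ideal of `y`, plus a small rest -/
def DivR [MeasurableSpace X] (μ : Measure X) (M : LineBundle d X κ) (ρ : κ → X → ℝ) {N : ℕ}
    (B : PB d X N) (y : Cm N) (Ω : Set X) {n : ℕ} (e : Fin n → κ → X → ℂ) (C η : ℝ≥0∞) : Prop :=
  ∀ g, SecOn M Ω g → nsq μ M ρ Ω g ≠ ⊤ → ∃ (a : Fin n → ℂ) (G : Fin N → κ → X → ℂ) (r : κ → X → ℂ),
    (∀ k, SecOn M Ω (G k)) ∧ SecOn M Ω r ∧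
    EqS M Ω g ((∑ j, a j • e j) + (∑ k, B.mul y k (G k)) + r) ∧
    ‖a‖ₑ ^ 2 ≤ C * nsq μ M ρ Ω g ∧ (∀ k, nsq μ M ρ Ω (G k) ≤ C * nsq μ M ρ Ω g) ∧
    nsq μ M ρ Ω r ≤ η * nsq μ M ρ Ω g

end Vale.Agent.P277Z.C1
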