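import Vale.Agent.P277Z.Coh.FtS
import Vale.Agent.P277Z.Coh.Api
import Vale.Agent.P277Z.Coh.Exh
import Vale.Agent.P277Z.Van.Cmp
import Vale.Agent.P277Z.Van.Sub
import Vale.Agent.P277Z.Van.Gen
import Vale.Agent.P277Z.Van.Vol

/-!
# P277, block COH: direct images of line bundles which are defined on the whole manifold
-/

open scoped Manifold ContDiff Topology ComplexOrder
open Vale.Agent.P272.K Vale.Agent.P301.H599 Vale.Agent.P285Z Set Filter Metric
open Vale.Agent.P285.H281.FD (Bd)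
open Vale.Agent.P277.PH Vale.Agent.P277Z.Pj Vale.Agent.P277Z.Van
open Vale.Agent.P301.H98 (nrm)
open Vale.Agent.P301.H862 (powL)

noncomputable section

namespace Vale.Agent.P277Z.Coh

variable {d N : ℕ} {X : Type} [TopologicalSpace X] [ChartedSpace (Cm d) X] {κ η : Type}
  {O : Set X} {t : X → Cm N} {Ω : Set (Cm N)} {y z : Cm N}

/-- the transition functions of a line bundle -/
abbrev bd (M : LineBundle d X κ) : Bd X := ⟨κ, M.U, M.g⟩

theorem cov_bd (M : LineBundle d X κ) : Base.Cov (bd M) := ⟨M.isOpen, M.cover⟩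

/-- the inverse of a line bundle -/
def invB (L : LineBundle d X κ) : LineBundle d X κ where
  U := L.U
  isOpen := L.isOpen
  cover := L.cover
  g i j x := (L.g i j x)⁻¹
  holo i j e x h hi hj := (L.holo i j e x h hi hj).inv (by
    rw [h.left_inv]
    exact L.ne_zero i j x hi hj)
  ne_zero i j x hi hj := inv_ne_zero (L.ne_zero i j x hi hj)
  cocycle i j l x hi hj hl := by rw [← mul_inv, L.cocycle i j l x hi hj hl]

theorem near_of (h : Prp d O t Ω) {V : Set (Cm N)} (hV : V ∈ 𝓝 y) {P : X → Prop}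
    (H : ∀ x ∈ O ∩ t ⁻¹' V, P x) : (prpBase h).Near y P :=
  Eventually.mono hV fun _ h1 x hx h2 => H x ⟨hx, (congrArg (· ∈ V) h2).mpr h1⟩

theorem scAt_of {M : LineBundle d X κ} {V : Set X} {s : κ → X → ℂ} (hs : SecOn M V s) {x : X}
    (hx : x ∈ V) : ScAt (HolF d) (bd M) s x := fun i hi =>
  ⟨fun e he => hs.holo i e x he hi hx, fun j hj => hs.change i j x hi hj hx⟩

theorem exists_cb (h : Prp d O t Ω) (hz : z ∈ Ω) : ∃ R : ℝ, 0 < R ∧ closedBall z R ⊆ Ω :=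
  nhds_basis_closedBall.mem_iff.1 (h.isOpen'.mem_nhds hz)

theorem near_fibre (h : Prp d O t Ω) (hz : z ∈ Ω) {P : X → Prop}
    (H : ∀ x ∈ O, t x = z → ∀ᶠ x' in 𝓝 x, P x') : (prpBase h).Near z P :=
  let ⟨R, hR, h1⟩ := exists_cb h hz
  Base.near_of_fibre (h.proper _ h1 (isCompact_closedBall z R)) inter_subset_left
    (near_of h (closedBall_mem_nhds z hR) fun _ hx => hx) H

/-- the data of `C1` -/
def pb (h : Prp d O t Ω) {R : ℝ} (hR : closedBall z R ⊆ Ω) : C1.PB d X N where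
  Ω := O
  t := t
  c := z
  R := R
  isOpen := h.isOpen
  hol k e x he hx := h.hol x hx k e he
  proper K hK hK' := h.proper K (hK'.trans (ball_subset_closedBall.trans hR)) hK

variable [IsManifold 𝓘(ℂ, Cm d) ω X] [T2Space X] [SigmaCompactSpace X]
  {A : LineBundle d X η} {σ : η → X → ℝ}

theorem ft_pow (hC : C1.Coh1Stmt) (h : Prp d O t Ω) (hσ : IsMetric A σ)
    (hp : PDOn O (curvature A σ)) (M : LineBundle d X κ) (hz : z ∈ Ω) :
    ∃ k₀ : ℕ, ∀ k ≥ k₀, ((prpBase h).img (bd (mulB M (powL A k)))).FT z := by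
  obtain ⟨R, hR, h1⟩ := exists_cb h hz
  obtain ⟨w, hw⟩ := exists_isHermitian (d := d) (X := X)
  obtain ⟨ρ, hρ⟩ := exists_isMetric M
  have hb := (cform_kc hw).sub (cform_curv hρ)
  obtain ⟨C, -, h2⟩ := exists_le_on h.isOpen (kahOn_curv hσ hp) (fun e x he _ => hb.cont e x he)
    (fun e x he _ => hb.herm e x he) (fun e e' x he he' _ => hb.form e e' x he he')
    (h.proper _ h1 (isCompact_closedBall z R)) inter_subset_left
  refine ⟨⌈C⌉₊, fun k hk => ?_⟩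
  obtain ⟨r, e, he, h3⟩ := hC d X w hw _ _ _ (isMetric_mulB hρ (isMetric_pow hσ k)) N (pb h h1) _
    ((kahOn_curv hσ hp).mono inter_subset_left) (fun _ => 0) (smOn_const _ 0) (fun e x he hx => by
      have h4 := h2 k (Nat.ceil_le.1 hk) e x he ⟨hx.1, ball_subset_closedBall hx.2⟩
      have h5 : ddc (fun _ : X => (0 : ℝ)) e (e x) = 0 := C2.cHess_const 0
      have h6 := curvature_mulB hρ (isMetric_pow hσ k) e x he
      have h7 := curvature_pow hσ k e x he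
      simp only at h4 h6 h7 ⊢
      rw [h5, h6, h7, add_zero, add_comm, add_sub_assoc, ← neg_sub, ← sub_eq_add_neg]
      exact h4) (R / 3) (R / 2) (by linarith) (half_lt_self hR)
  refine ⟨r, e, ?_⟩
  filter_upwards [ball_mem_nhds z (by linarith : 0 < R / 3)] with y hy
  refine (Base.gen_img_iff (L := bd (mulB M (powL A k))) e).2 ⟨fun j => near_of h
    (isOpen_ball.mem_nhds (ball_subset_ball (by linarith) hy)) fun x hx => scAt_of (he j) hx,
    fun s hs => ?_⟩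
  obtain ⟨δ, hδ, h4⟩ := Metric.eventually_nhds_iff_ball.1 hs
  obtain ⟨δ', hδ', a, ha, h5⟩ := h3 y hy δ hδ s
    ⟨fun i e x he hi hx => (h4 _ hx.2 x hx.1 rfl i hi).1 e he,
      fun i j x hi hj hx => (h4 _ hx.2 x hx.1 rfl i hi).2 j hj⟩
  exact ⟨a, fun j => ha j y (mem_ball_self hδ'),
    near_of h (ball_mem_nhds y hδ') fun x hx i hi => h5 i x hi hx⟩

theorem gg_pow (hG : GGStmt) (h : Prp d O t Ω) (hσ : IsMetric A σ)
    (hp : PDOn O (curvature A σ)) (M : LineBundle d X κ) (hz : z ∈ Ω) :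
    ∃ k₀ : ℕ, ∀ k ≥ k₀,
      (∃ (α : Type) (_ : Finite α) (s : α → κ × η → X → ℂ),
        (∀ a, (prpBase h).Near z (ScAt (HolF d) (bd (mulB M (powL A k))) (s a))) ∧
        (prpBase h).Near z fun x => ∀ i j, x ∈ M.U i → x ∈ A.U j → ∃ a, s a (i, j) x ≠ 0) ∧
      ∃ τ : κ × η → X → ℂ, (prpBase h).Near z (ScAt (HolF d) (bd (mulB M (powL A k))) τ) ∧
        (prpBase h).Near z fun x => ∀ i j, x ∈ M.U i → x ∈ A.U j →
          ∃ᶠ x' in 𝓝 x, τ (i, j) x' ≠ 0 := by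
  obtain ⟨R, hR, h1⟩ := exists_cb h hz
  borelize X
  obtain ⟨w, hw⟩ := exists_isHermitian (d := d) (X := X)
  obtain ⟨μ, hμ⟩ := exists_isVol hw
  obtain ⟨ρ, hρ⟩ := exists_isMetric M
  obtain ⟨ψ, hψ⟩ := C1.exh d X N (pb h h1) z (fun _ => R / 2)
    ⟨hR, fun k => ⟨half_pos hR, by simpa [pb] using hR⟩⟩
  rw [← (pb h h1).tube_eq_pd z (half_pos hR)] at hψ
  have hK := h.proper _ ((closedBall_subset_closedBall (by linarith : R / 3 ≤ R)).trans h1)
    (isCompact_closedBall z _)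
  have hKT : O ∩ t ⁻¹' closedBall z (R / 3) ⊆ (pb h h1).tube z (R / 2) := fun x hx =>
    ⟨hx.1, closedBall_subset_ball (by linarith) hx.2⟩
  obtain ⟨c, hc⟩ := hK.bddAbove_image (hψ.sm.cont.mono hKT)
  obtain ⟨k₀, h2⟩ := hG d X w μ hw hμ _ ψ hψ _ A σ hσ (hp.mono inter_subset_left) _ M ρ hρ (c + 1)
  refine ⟨k₀, fun k hk => ?_⟩
  have hV := hψ.open_lt (c + 1)
  have hKV : O ∩ t ⁻¹' closedBall z (R / 3) ⊆ {x | x ∈ (pb h h1).tube z (R / 2) ∧ ψ x < c + 1} :=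
    fun x hx => ⟨hKT hx, (hc ⟨x, hx, rfl⟩).trans_lt (lt_add_one c)⟩
  have h3 := fun x hx => h2 k hk x (hKV hx).1 (hKV hx).2
  have hm := isMetric_mulB hρ (isMetric_pow hσ k)
  have hn := closedBall_mem_nhds z (by linarith : 0 < R / 3)
  refine ⟨?_, ?_⟩
  · choose F hF hF' using h3
    obtain ⟨T, hT⟩ := hK.elim_nhds_subcover' (fun x hx => {x' | nrm _ _ (F x hx) x' ≠ 0})
      fun x hx => (C1.contAt_nrm hm hV (hF x hx).toSc (hKV hx)).eventually_ne (hF' x hx)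
    refine ⟨T, inferInstance, fun a => F a.1 a.1.2,
      fun a => near_of h hn fun x hx => scAt_of (hF _ _) (hKV hx),
      near_of h hn fun x hx i j hi hj => ?_⟩
    obtain ⟨a, ha, h4⟩ := mem_iUnion₂.1 (hT hx)
    exact ⟨⟨a, ha⟩, (GenAux.nrm_ne_iff' (hF _ _) (hKV hx) (i := (i, j)) ⟨hi, hj⟩).1 h4⟩
  · obtain ⟨τ, hτ, h4⟩ := gen d X _ _ hV hK hKV _ _ _ hm h3
    refine ⟨τ, near_of h hn fun x hx => scAt_of hτ (hKV hx),
      near_of h hn fun x hx i j hi hj => ?_⟩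
    refine ((h4 x hx).and_eventually ((hV.eventually_mem (hKV hx)).and
      (((M.isOpen i).inter (A.isOpen j)).eventually_mem ⟨hi, hj⟩))).mono fun x' h5 => ?_
    exact (GenAux.nrm_ne_iff' hτ h5.2.1 (i := (i, j)) h5.2.2).1 h5.1

omit [IsManifold 𝓘(ℂ, Cm d) ω X] [T2Space X] [SigmaCompactSpace X] in
/-- multiplication by a section of `A^k` -/
theorem hom_mul (M : LineBundle d X κ) {k : ℕ} {s : Unit × η → X → ℂ} {x : X}
    (hs : ScAt (HolF d) (bd (mulB (trivB d X) (powL A k))) s x) :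
    HomAt (HolF d) (bd M) (bd (mulB M (powL A k)))
      (fun i p x => M.g p.1 i x * s ((), p.2) x) x := by
  intro i p hi hp
  have h1 := hs ((), p.2) ⟨trivial, hp.2⟩
  refine ⟨HolF.mul (fun e he => M.holo _ _ e x he hp.1 hi) h1.1, fun j hj => ?_, fun q hq => ?_⟩
  · exact (mul_right_comm _ _ _).trans (congrArg (· * _) (M.cocycle p.1 i j x hp.1 hi hj))
  · have h2 : s ((), p.2) x = 1 * A.g p.2 q.2 x ^ k * s ((), q.2) x :=
      h1.2 ((), q.2) ⟨trivial, hq.2⟩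
    change M.g p.1 i x * s ((), p.2) x =
      M.g p.1 q.1 x * A.g p.2 q.2 x ^ k * (M.g q.1 i x * s ((), q.2) x)
    rw [h2, ← M.cocycle p.1 q.1 i x hp.1 hq.1 hi]
    ring

theorem fg_any (hC : C1.Coh1Stmt) (hG : GGStmt) (h : Prp d O t Ω) (hσ : IsMetric A σ)
    (hp : PDOn O (curvature A σ)) (M : LineBundle d X κ) (hz : z ∈ Ω) :
    ((prpBase h).img (bd M)).FG z := by
  obtain ⟨k₀, h1⟩ := ft_pow hC h hσ hp M hz
  obtain ⟨k₁, h2⟩ := gg_pow hG h hσ hp (trivB d X) hz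
  obtain ⟨⟨α, _, s, hs, h3⟩, -⟩ := h2 (max k₀ k₁) (le_max_right _ _)
  refine Base.coh2 (cov_bd M) (cov_bd _) (h1 _ (le_max_left k₀ k₁)).fg
    (fun a => (hs a).mono fun x _ h4 => hom_mul M h4) (h3.nhds.mono fun x _ h4 i p hi hp => ?_)
  refine Eventually.frequently ?_
  filter_upwards [h4, (M.isOpen i).mem_nhds hi, (M.isOpen p.1).mem_nhds hp.1,
    (A.isOpen p.2).mem_nhds hp.2] with x' h5 h6 h7 h8
  exact (h5 () p.2 trivial h8).imp fun a ha => mul_ne_zero (M.ne_zero _ _ x' h7 h6) ha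

theorem ft_any (hC : C1.Coh1Stmt) (hG : GGStmt) (h : Prp d O t Ω) (hσ : IsMetric A σ)
    (hp : PDOn O (curvature A σ)) (M : LineBundle d X κ) (hz : z ∈ Ω)
    (hZ : AnNear (t '' O) z) (hD : (prpBase h).Den z) {ε : η → X → ℂ}
    (hε : InvS d O (bd A) ε) :
    ((prpBase h).img (bd M)).FT z ∧ ((prpBase h).img (bd M)).RelFT z := by
  obtain ⟨k₀, h1⟩ := ft_pow hC h hσ hp M hz
  obtain ⟨k₁, h2⟩ := gg_pow hG h hσ hp (trivB d X) hz
  obtain ⟨m, h3⟩ := gg_pow hG h hσ hp (invB M) hz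
  obtain ⟨-, τ, hτ, hτ'⟩ := h3 m le_rfl
  set k := max k₀ k₁
  obtain ⟨⟨α, _, s, hs, h4⟩, -⟩ := h2 k (le_max_right _ _)
  have hc : ∀ {f : X → ℂ} {x}, HolF d f x → ContinuousAt f x := (holSys d).cont
  have hpw : ∀ {f : X → ℂ} {x} (l : ℕ), HolF d f x → HolF d (fun x => f x ^ l) x :=
    fun l hf e he => (hf e he).fun_pow l
  have key : ∀ l : ℕ, (prpBase h).Near z fun x => ∀ i j, x ∈ M.U i → x ∈ A.U j →
      ∃ᶠ x' in 𝓝 x, τ (i, j) x' * ε j x' ^ l ≠ 0 := fun l => by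
    refine hτ'.nhds.mono fun x hx h5 i j hi hj h6 => hε.ne j x hx hj ?_
    filter_upwards [h5, h6.eventually_nhds, h.isOpen.mem_nhds hx, (M.isOpen i).mem_nhds hi,
      (A.isOpen j).mem_nhds hj] with x' h7 h8 h9 h10 h11 h12
    refine h7 i j h10 h11 ?_
    filter_upwards [h8, (hc (hε.hol j x' h9 h11)).eventually_ne h12] with x'' h13 h14 h15
      using h13 (mul_ne_zero h15 (pow_ne_zero l h14))
  have chg : ∀ x ∈ O, ScAt (HolF d) (bd (mulB (invB M) (powL A m))) τ x → ∀ i j i' j', x ∈ M.U i →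
      x ∈ A.U j → x ∈ M.U i' → x ∈ A.U j' →
      τ (i, j) x * ε j x ^ m * M.g i i' x = τ (i', j') x * ε j' x ^ m :=
    fun x hx h5 i j i' j' hi hj hi' hj' => by
      have h6 : τ (i, j) x = (M.g i i' x)⁻¹ * A.g j j' x ^ m * τ (i', j') x :=
        (h5 (i, j) ⟨hi, hj⟩).2 (i', j') ⟨hi', hj'⟩
      have h7 : ε j x * A.g j j' x = ε j' x := hε.change j j' x hx hj hj'
      have h8 := M.ne_zero i i' x hi hi'
      rw [h6, ← h7, mul_pow]
      field_simp
  refine ⟨Base.coh3 hZ hD (cov_bd M) (cov_bd _) (h1 k (le_max_left _ _))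
    (fun a => (hs a).mono fun x _ h5 => hom_mul M h5) (h4.mono fun x _ h5 i p hi hp => ?_)
    (μ := fun a p _ x => s a ((), p.2) x * (τ p x * ε p.2 x ^ (m + 2 * k)))
    (fun a => ((hs a).and hτ).mono fun x hx h5 p _ hp _ => ⟨?_, fun q hq => ?_, fun _ _ =>
      (one_mul _).symm⟩) (((h4.and (Base.near_all hs)).and (key (m + 2 * k))).mono ?_)
    (Base.Near.of_forall fun x _ a b i p _ _ => by ring), ?_⟩
  · exact (h5 () p.2 trivial hp.2).imp fun a ha => mul_ne_zero (M.ne_zero _ _ x hp.1 hi) ha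
  · exact (h5.1 ((), p.2) ⟨trivial, hp.2⟩).1.mul
      ((h5.2 p hp).1.mul (hpw _ (hε.hol p.2 x hx hp.2)))
  · have h6 : s a ((), p.2) x = 1 * A.g p.2 q.2 x ^ k * s a ((), q.2) x :=
      (h5.1 ((), p.2) ⟨trivial, hp.2⟩).2 ((), q.2) ⟨trivial, hq.2⟩
    have h7 : ε p.2 x * A.g p.2 q.2 x = ε q.2 x := hε.change _ _ x hx hp.2 hq.2
    have h8 := chg x hx h5.2 p.1 p.2 q.1 q.2 hp.1 hp.2 hq.1 hq.2
    change s a ((), p.2) x * (τ (p.1, p.2) x * ε p.2 x ^ (m + 2 * k)) *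
      (M.g p.1 q.1 x * A.g p.2 q.2 x ^ k) =
        s a ((), q.2) x * (τ (q.1, q.2) x * ε q.2 x ^ (m + 2 * k))
    rw [h6, pow_add, pow_add, ← mul_assoc (τ (q.1, q.2) x), ← h8, ← h7]
    ring
  · rintro x - ⟨⟨h5, h6⟩, h7⟩ p _ hp _
    obtain ⟨a, ha⟩ := h5 () p.2 trivial hp.2
    exact ((h7 p.1 p.2 hp.1 hp.2).and_eventually
      ((hc (h6 a ((), p.2) ⟨trivial, hp.2⟩).1).eventually_ne ha)).mono
        fun x' h8 => ⟨a, mul_ne_zero h8.2 h8.1⟩
  · have ev : (prpBase h).Near z fun x => ∀ i j, x ∈ M.U i → x ∈ A.U j → ∀ᶠ x' in 𝓝 x,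
        τ (i, j) x' * ε j x' ^ m =
          τ (i, (A.cover x').choose) x' * ε (A.cover x').choose x' ^ m :=
      hτ.nhds.mono fun x hx h5 i j hi hj => by
        filter_upwards [h5, h.isOpen.mem_nhds hx, (M.isOpen i).mem_nhds hi,
          (A.isOpen j).mem_nhds hj] with x' h6 h7 h8 h9
        have h10 := M.cocycle i i i x' h8 h8 h8
        rw [← chg x' h7 h6 i j i _ h8 h9 h8 (A.cover x').choose_spec,
          mul_left_eq_self₀.1 h10 |>.resolve_right (M.ne_zero i i x' h8 h8), mul_one]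
    refine Base.relFT_img hZ hD (cov_bd M)
      (τ := fun i _ x => τ (i, (A.cover x).choose) x * ε (A.cover x).choose x ^ m)
      ((hτ.and ev).mono fun x hx h5 i _ hi _ => ⟨?_, fun j hj => ?_, fun _ _ => (one_mul _).symm⟩)
      (((key m).and ev).mono fun x _ h5 i _ hi _ => ?_)
    · obtain ⟨j, hj⟩ := A.cover x
      exact ((h5.1 (i, j) ⟨hi, hj⟩).1.mul (hpw _ (hε.hol j x hx hj))).congr (h5.2 i j hi hj)
    · exact chg x hx h5.1 i _ j _ hi (A.cover x).choose_spec hj (A.cover x).choose_spec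
    · obtain ⟨j, hj⟩ := A.cover x
      exact ((h5.1 i j hi hj).and_eventually (h5.2 i j hi hj)).mono fun x' h6 =>
        ⟨(), fun h7 => h6.1 (h6.2.trans h7)⟩

end Vale.Agent.P277Z.Coh
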