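import Vale.Agent.P277Z.Coh.Api
import Vale.Agent.P277Z.Van.Cmp

/-!
# P277Z, block COH1: twisting by a high power of a positive line bundle
-/

open scoped Manifold ContDiff ComplexOrder Topology ENNReal Matrix
open MeasureTheory Filter Set Metric

noncomputable section

namespace Vale.Agent.P277Z.C1

open Vale.Agent.P272.K Vale.Agent.P301.H599 Vale.Agent.P285Z Vale.Agent.P277Z.Van
open Vale.Agent.P301.H98 (IsSection nrm rform_curvature)
open Vale.Agent.P301.H862 (powL)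

/-- **COH1A**: the direct image of `L + k A` is of finite type for large `k` -/
def Coh1AStmt : Prop :=
  ∀ (d : ℕ) (X : Type) [TopologicalSpace X] [ChartedSpace (Cm d) X] [IsManifold 𝓘(ℂ, Cm d) ω X]
    [T2Space X] [SigmaCompactSpace X]
    (η : Type) (A : LineBundle d X η) (σ : η → X → ℝ), IsMetric A σ →
    ∀ (N : ℕ) (B : PB d X N), PDOn (B.tube B.c B.R) (curvature A σ) →
    ∀ (κ : Type) (L : LineBundle d X κ) (a R' : ℝ), a < R' → R' < B.R →
    ∃ k₀ : ℕ, ∀ k, k₀ ≤ k → ∃ (n : ℕ) (e : Fin n → κ × η → X → ℂ),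
      (∀ j, SecOn (mulB L (powL A k)) (B.tube B.c R') (e j)) ∧
        ∀ y ∈ ball B.c a, B.GenAt (mulB L (powL A k)) e y

theorem coh1A_of (hV : Van.VolStmt) (h1 : Coh1Stmt) : Coh1AStmt := by
  intro d X _ _ _ _ _ η A σ hσ N B hP κ L a R' ha hR
  borelize X
  obtain ⟨⟨h, hh⟩, -, hm⟩ := hV d X
  obtain ⟨ρ, hρ⟩ := hm κ L
  obtain ⟨R₁, hR1, hR2⟩ := exists_between hR
  have hK : IsCompact (B.Ω ∩ B.t ⁻¹' closedBall B.c R₁) := B.compact (by simpa using hR2)
  have hKs : B.Ω ∩ B.t ⁻¹' closedBall B.c R₁ ⊆ B.tube B.c B.R :=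
    inter_subset_inter_right _ (preimage_mono (closedBall_subset_ball hR2))
  have hs1 : B.tube B.c R₁ ⊆ B.Ω ∩ B.t ⁻¹' closedBall B.c R₁ :=
    inter_subset_inter_right _ (preimage_mono ball_subset_closedBall)
  obtain ⟨C, hC, hc⟩ := cmp (cform_curv hσ) ((cform_kc hh).sub (cform_curv hρ)) hK
    fun e x hx h1 => hP e x hx (hKs h1)
  refine ⟨⌈C⌉₊, fun k hk => ?_⟩
  let B₁ : PB d X N := ⟨B.Ω, B.t, B.c, R₁, B.isOpen, B.hol,
    fun K hK hs => B.proper K hK (hs.trans (ball_subset_ball hR2.le))⟩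
  have hw : KahOn (B₁.tube B₁.c B₁.R) (curvature A σ) :=
    ⟨fun e x hx _ => (rform_curvature hσ).closed.smooth e x hx,
      fun e x hx h1 => hP e x hx (hKs (hs1 h1)), fun e e' x hx hx' _ => isForm_curvature hσ e e' x hx hx',
      fun e x hx _ i j k => (rform_curvature hσ).closed.closed e x hx k i j⟩
  refine h1 d X h hh _ (mulB L (powL A k)) _ (isMetric_mulB hρ (isMetric_pow hσ k)) N B₁ _ hw
    (fun _ => 0) (fun _ _ _ _ => contDiffAt_const) (fun e x hx h2 => ?_) a R' ha hR1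
  have k1 := hc e x hx (hs1 h2)
  have k2 := curvature_mulB hρ (isMetric_pow hσ k) e x hx
  have k3 := curvature_pow hσ k e x hx
  have k4 : ddc (fun _ : X => (0 : ℝ)) e (e x) = 0 := C2.cHess_const 0
  have k5 := psd_smul (hP e x hx (hKs (hs1 h2))).posSemidef
    (c := (k : ℝ) - C) (sub_nonneg.2 ((Nat.le_ceil C).trans (by exact_mod_cast hk)))
  simp only [] at k1 k2 k3 ⊢
  rw [k2, k3, k4]
  convert k1.add k5 using 1
  push_cast
  rw [sub_smul]
  abel

end Vale.Agent.P277Z.C1
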