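import Vale.Agent.P277Z.Coh.Img
import Vale.Agent.P277Z.Oka.All

/-!
# P277, block COH: relations between functions

`noethE`, `relFT_str` (Oka), `ft_idl` (Cartan), `relFT_onSet`, `Base.relFT_triv`,
and the unconditional forms `Base.coh2`, `Base.coh3`.
-/

open Filter Topology
open Vale.Agent.P285.H281.FD Vale.Agent.P298.H941 Vale.Agent.P277Z.Oka

noncomputable section

namespace Vale.Agent.P277Z.Coh

variable {E : Type} [NormedAddCommGroup E] [NormedSpace ℂ E]

theorem noethE [FiniteDimensional ℂ E] (z : E) : Noeth E z := by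
  intro r S hS
  have : IsNoetherianRing (O E) := noe E
  let v : (Fin r → E → ℂ) → Fin r → O E := fun c j => gm z (c j)
  obtain ⟨T, hT, h1⟩ := (Submodule.fg_span_iff_fg_span_finset_subset (R := O E) (v '' S)).1
    (IsNoetherian.noetherian _)
  choose ρ hρ hρ' using fun a : T => hT a.2
  refine ⟨T.card, fun a => ρ (T.equivFin.symm a), fun a => hρ _, fun c hc => ?_⟩
  have h2 : v c ∈ Submodule.span (O E) (Set.range fun a => v (ρ (T.equivFin.symm a))) := by
    refine Submodule.span_mono ?_ (h1 ▸ Submodule.subset_span (Set.mem_image_of_mem v hc))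
    intro w hw
    exact ⟨T.equivFin ⟨w, hw⟩, by simp only [Equiv.symm_apply_apply, hρ']⟩
  obtain ⟨b', hb'⟩ := (Submodule.mem_span_range_iff_exists_fun _).1 h2
  choose b hb hbb using fun a => gm_surj z (b' a)
  refine ⟨b, hb, fun j => ?_⟩
  have h3 := fun a => hS _ (hρ (T.equivFin.symm a)) j
  have h4 := congrFun hb' j
  rw [Finset.sum_apply] at h4
  simp only [Pi.smul_apply, smul_eq_mul, v, ← hbb, ← gm_mul (hb _) (h3 _)] at h4
  rw [← gm_sum _ fun a => (hb a).fun_mul (h3 a), eq_comm, gm_eq_iff (hS c hc j)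
    (Finset.analyticAt_fun_sum _ fun a _ => (hb a).fun_mul (h3 a))] at h4
  filter_upwards [h4] with y hy
  rw [hy, Finset.sum_apply]
  rfl

/-- the functions on `Z` which extend holomorphically -/
abbrev onSet (Z : Set E) : Sh E where
  α := E → ℂ
  Sec y c := AnalyticAt ℂ c y
  Zer y c := Van y Z c
  sec_zero _ := analyticAt_const
  sec_add h h' := h.add h'
  sec_smul hc h := hc.mul h
  zer_add h h' := (h.and h').mono fun _ h1 hx =>
    (congrArg₂ (· + ·) (h1.1 hx) (h1.2 hx)).trans (add_zero _)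
  zer_smul _ h := Eventually.mono h fun _ h1 hx => (congrArg (_ * ·) (h1 hx)).trans (mul_zero _)
  zer_germ h s := h.mono fun x h1 _ => (congrArg (· * s x) h1).trans (zero_mul _)
  sec_nhds h := h.eventually_analyticAt
  zer_nhds h := h.eventually_nhds

/-- the ideal of `Z` -/
abbrev idlSh (Z : Set E) : Sh E where
  α := E → ℂ
  Sec y c := AnalyticAt ℂ c y ∧ Van y Z c
  Zer y c := Van y Set.univ c
  sec_zero y := ⟨analyticAt_const, (onSet Z).zer_zero y⟩
  sec_add h h' := ⟨h.1.add h'.1, (onSet Z).zer_add h.2 h'.2⟩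
  sec_smul hc h := ⟨hc.mul h.1, (onSet Z).zer_smul _ h.2⟩
  zer_add := (onSet Set.univ).zer_add
  zer_smul := (onSet Set.univ).zer_smul
  zer_germ := (onSet Set.univ).zer_germ
  sec_nhds h := h.1.eventually_analyticAt.and h.2.eventually_nhds
  zer_nhds h := h.eventually_nhds

omit [NormedAddCommGroup E] [NormedSpace ℂ E] in
theorem comb_apply {κ : Type} [Fintype κ] (c f : κ → E → ℂ) (y : E) :
    (∑ j, c j • f j) y = ∑ j, c j y * f j y := Finset.sum_apply _ _ _

theorem relFT_str [FiniteDimensional ℂ E] (z : E) : (onSet (Set.univ : Set E)).RelFT z := by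
  intro r f hf
  obtain ⟨m, ρ, h1, h2, h3⟩ := okaS_all E (Fin r) z f hf
  refine ⟨m, ρ, ?_⟩
  filter_upwards [eventually_all.2 fun a => eventually_all.2 fun j =>
    (h1 a j).eventually_analyticAt, eventually_all.2 fun a => (h2 a ()).eventually_nhds, h3]
    with y h4 h5 h6
  refine ⟨fun a => ⟨h4 a, (h5 a).mono fun x hx _ => (comb_apply _ _ x).trans hx⟩,
    fun c hc h7 => ?_⟩
  obtain ⟨b, hb, h8⟩ := h6 c hc fun _ => Eventually.mono h7 fun x hx =>
    (comb_apply _ _ x).symm.trans (hx trivial)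
  exact ⟨b, hb, fun j => (h8 j).mono fun x hx => hx.trans (comb_apply b (fun a => ρ a j) x).symm⟩

/-- `Z` is analytic near `z` -/
def AnNear (Z : Set E) (z : E) : Prop :=
  ∃ (k : ℕ) (h : Fin k → E → ℂ), (∀ i, AnalyticAt ℂ (h i) z) ∧
    ∀ᶠ y in 𝓝 z, y ∈ Z ↔ ∀ i, h i y = 0

theorem ft_idl [FiniteDimensional ℂ E] {Z : Set E} {z : E} (hZ : AnNear Z z) :
    (idlSh Z).FT z := by
  obtain ⟨k, h, h1, h2⟩ := hZ
  obtain ⟨m, g, h3, h4, h5⟩ := car_all E (Fin k) z h h1
  refine ⟨m, g, ?_⟩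
  filter_upwards [h2.eventually_nhds, h5,
    eventually_all.2 fun l => (h3 l).eventually_analyticAt,
    eventually_all.2 fun l => (h4 l).eventually] with y h6 h7 h8 h9
  refine ⟨fun l => ⟨h8 l, (h6.and (h9 l)).mono fun x hx hx' => hx.2 (hx.1.1 hx')⟩, fun s hs => ?_⟩
  obtain ⟨c, hc, h10⟩ := h7 s hs.1 ((h6.and hs.2).mono fun x hx hx' => hx.2 (hx.1.2 hx'))
  exact ⟨c, hc, h10.mono fun x hx _ => sub_eq_zero.2 (hx.trans (comb_apply c g x).symm)⟩

theorem relFT_onSet [FiniteDimensional ℂ E] {Z : Set E} {z : E} (hZ : AnNear Z z) :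
    (onSet Z).RelFT z :=
  Sh.RelFT.quot (F := onSet Set.univ) (G := onSet Z) (relFT_str z) (ft_idl hZ) LinearMap.id
    LinearMap.id (fun _ hs => hs.1) (Eventually.of_forall fun _ _ hs => hs)
    (Eventually.of_forall fun _ _ hs => Eventually.mono hs fun _ hx _ => hx trivial)
    (Eventually.of_forall fun _ _ hs => hs.2)
    (Eventually.of_forall fun _ s hs h => ⟨s, ⟨hs, h⟩, Sh.zer_of_eq (F := onSet _) (sub_self s)⟩)
    fun s hs => ⟨s, hs, Sh.zer_of_eq (F := onSet Z) (sub_self s)⟩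

namespace Base

variable {W : Type} [TopologicalSpace W] {B : Base E W} {y z : E}

theorem cov_triv : Cov (triv W) := ⟨fun _ => isOpen_univ, fun _ => ⟨(), trivial⟩⟩

theorem gen_mul {f g : W → ℂ} (hf : B.Near y fun x => ContinuousAt f x)
    (hf' : B.Near y fun x => ∃ᶠ x' in 𝓝 x, f x' ≠ 0)
    (hg : B.Near y fun x => ∃ᶠ x' in 𝓝 x, g x' ≠ 0) :
    B.Near y fun x => ∃ᶠ x' in 𝓝 x, f x' * g x' ≠ 0 := by
  refine (hf'.and (hf.and hg).nhds).mono fun x _ h h0 => h.1 ?_
  filter_upwards [h.2, h0.eventually_nhds] with x' h1 h2 h3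
  refine h1.2 ?_
  filter_upwards [h1.1.eventually_ne h3, h2] with x'' h4 h5 h6 using h5 (mul_ne_zero h4 h6)

theorem gen_prod {κ : Type} (S : Finset κ) {f : κ → W → ℂ}
    (hf : ∀ k ∈ S, B.Near y fun x => ContinuousAt (f k) x)
    (hf' : ∀ k ∈ S, B.Near y fun x => ∃ᶠ x' in 𝓝 x, f k x' ≠ 0) :
    B.Near y fun x => ∃ᶠ x' in 𝓝 x, ∏ k ∈ S, f k x' ≠ 0 := by
  classical
  induction S using Finset.induction_on with
  | empty => exact Near.of_forall fun x _ => Eventually.frequently (.of_forall fun _ => by simp)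
  | insert k S hk ih =>
    simp only [Finset.prod_insert hk]
    exact gen_mul (hf k (by simp)) (hf' k (by simp))
      (ih (fun j hj => hf j (by simp [hj])) fun j hj => hf' j (by simp [hj]))

variable (B) in
/-- denominators: a function which is holomorphic along the fibre is a quotient of functions from
the base -/
def Den (z : E) : Prop :=
  ∀ f : W → ℂ, B.Near z (B.Hol f) → ∃ b G : E → ℂ, AnalyticAt ℂ b z ∧ AnalyticAt ℂ G z ∧
    (B.Near z fun x => b (B.t x) * f x = G (B.t x)) ∧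
    B.Near z fun x => ∃ᶠ x' in 𝓝 x, b (B.t x') ≠ 0

theorem near_iff_van {c : E → ℂ} : (B.Near y fun x => c (B.t x) = 0) ↔ Van y (B.t '' B.Om) c :=
  ⟨fun h => Eventually.mono h fun _ h1 ⟨x, hx, h2⟩ => h2 ▸ h1 x hx h2,
    fun h => (near_base h).mono fun x hx h1 => h1 ⟨x, hx, rfl⟩⟩

theorem relFT_triv (hZ : (onSet (B.t '' B.Om)).RelFT z) (hD : B.Den z) :
    (B.img (triv W)).RelFT z := by
  classical
  intro r f hf
  have hf' : ∀ j, B.Near z (B.Hol (f j ())) := fun j => Near.mono (hf j) fun x _ h =>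
    (h () trivial).1
  choose b G hb hG h1 h2 using fun j => hD _ (hf' j)
  have h3 : B.Near z fun x => ∃ᶠ x' in 𝓝 x, ∏ j, b j (B.t x') ≠ 0 :=
    gen_prod (f := fun j x => b j (B.t x)) _
      (fun j _ => (near_an (hb j)).mono fun x _ h => B.sys.cont h) fun j _ => h2 j
  let G' : Fin r → E → ℂ := fun j y => (∏ k ∈ Finset.univ.erase j, b k y) * G j y
  have h4 : ∀ j, B.Near z fun x => (∏ k, b k (B.t x)) * f j () x = G' j (B.t x) := fun j =>
    (h1 j).mono fun x _ h => by
      rw [← Finset.prod_erase_mul _ _ (Finset.mem_univ j), mul_assoc, h]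
  obtain ⟨q, ρ, h5⟩ := hZ r G' fun j =>
    (Finset.analyticAt_fun_prod _ fun k _ => hb k).fun_mul (hG j)
  refine ⟨q, ρ, ?_⟩
  filter_upwards [h5, h3.eventually, (near_all h4).eventually, (near_all hf').eventually]
    with y h6 h7 h8 h9
  have key : ∀ c : Fin r → E → ℂ, B.Near y fun x => (∑ j, c j • G' j) (B.t x) =
      (∏ k, b k (B.t x)) * (∑ j, c j • f j) () x := fun c => h8.mono fun x _ h => by
    rw [comb_apply, img_comb, Finset.mul_sum]
    exact Finset.sum_congr rfl fun j _ => by rw [← h j, mul_left_comm]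
  refine ⟨fun a => ⟨(h6.1 a).1, ?_⟩, fun c hc h10 => h6.2 c hc (near_iff_van.1
    (((key c).and h10).mono fun x _ h => by rw [h.1, h.2 () trivial, mul_zero]))⟩
  have h10 : (B.img (triv W)).Sec y (∑ j, ρ a j • f j) := Sh.sec_comb (h6.1 a).1 fun j =>
    h9.mono fun x _ h _ _ => ⟨h j, fun _ _ => (one_mul _).symm⟩
  refine ((((key (ρ a)).and (near_iff_van.2 (h6.1 a).2)).nhds.and h7).and h10).mono
    fun x _ h i _ => eq_zero_of_frequently (B.sys.cont (h.2 i trivial).1)
      ((h.1.2.and_eventually h.1.1).mono fun x' h11 => ?_)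
  exact (mul_eq_zero.1 (h11.2.1.symm.trans h11.2.2)).resolve_left h11.1

variable [FiniteDimensional ℂ E] {L L' : Bd W}

/-- **COH2**: finite stalks. -/
theorem coh2 (h : Cov L) (h' : Cov L') (hL' : (B.img L').FG z) {κ : Type}
    [Finite κ] {σ : κ → L.ι → L'.ι → W → ℂ} (hσ : ∀ a, B.Near z (HomAt B.Hol L L' (σ a)))
    (hne : B.Near z (GenNe L L' σ)) : (B.img L).FG z :=
  fg_of_hom (noethE z) h h' hL' hσ hne

/-- relations between sections, for a map which is bimeromorphic onto its image -/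
theorem relFT_img (hZ : AnNear (B.t '' B.Om) z) (hD : B.Den z) (h : Cov L)
    {τ : L.ι → Unit → W → ℂ} (hτ : B.Near z (HomAt B.Hol L (triv W) τ))
    (hne : B.Near z (GenNe L (triv W) fun _ : Unit => τ)) : (B.img L).RelFT z :=
  relFT_of_hom h cov_triv (relFT_triv (relFT_onSet hZ) hD) hτ hne

/-- **COH3**: finite type, for a map which is bimeromorphic onto its image. -/
theorem coh3 (hZ : AnNear (B.t '' B.Om) z) (hD : B.Den z) (h : Cov L) (h' : Cov L')
    (hL' : (B.img L').FT z) {κ : Type} [Finite κ] {σ : κ → L.ι → L'.ι → W → ℂ}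
    (hσ : ∀ a, B.Near z (HomAt B.Hol L L' (σ a)))
    (hne : B.Near z fun x => ∀ i i', x ∈ L.U i → x ∈ L'.U i' → ∃ a, σ a i i' x ≠ 0)
    {μ : κ → L'.ι → Unit → W → ℂ} (hμ : ∀ a, B.Near z (HomAt B.Hol L' (triv W) (μ a)))
    (hμ' : B.Near z (GenNe L' (triv W) μ))
    (hr : B.Near z fun x => ∀ a b i i', x ∈ L.U i → x ∈ L'.U i' →
      μ b i' () x * σ a i i' x = μ a i' () x * σ b i i' x) : (B.img L).FT z :=
  ft_of_hom h h' cov_triv hL' (relFT_triv (relFT_onSet hZ) hD) hσ hne hμ hμ'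
    (hr.mono fun _ _ h1 a b i i' _ hi hi' _ => h1 a b i i' hi hi')

end Base

end Vale.Agent.P277Z.Coh
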