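import Vale.Agent.P277Z.Coh.Defs

/-!
# P277Z, block COH1: the statements of the rows

Every row is a `Prop`; a row may be proved from other rows, taken as hypotheses.
-/

open scoped Manifold ContDiff ComplexOrder Topology ENNReal Matrix
open MeasureTheory Filter Set Metric

noncomputable section

namespace Vale.Agent.P277Z.C1

open Vale.Agent.P272.K Vale.Agent.P301.H599 Vale.Agent.P285Z Vale.Agent.P277Z.Van
open Vale.Agent.P301.H98 (IsSection nrm)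

/-- (VOL2) the volume measure is finite on compact sets and positive on open sets -/
def Vol2Stmt : Prop :=
  ∀ (d : ℕ) (X : Type) [TopologicalSpace X] [ChartedSpace (Cm d) X] [T2Space X]
    [MeasurableSpace X] [BorelSpace X] (h : Fm d X) (μ : Measure X), IsHermitian h → IsVol h μ →
    IsFiniteMeasureOnCompacts μ ∧ μ.IsOpenPosMeasure

/-- (EXH) the preimage of a small polydisc has a psh exhaustion -/
def ExhStmt : Prop :=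
  ∀ (d : ℕ) (X : Type) [TopologicalSpace X] [ChartedSpace (Cm d) X] [T2Space X]
    (N : ℕ) (B : PB d X N) (y : Cm N) (r : Fin N → ℝ), B.Small y r → ∃ ψ, Exh d (B.pd y r) ψ

/-- (PUNC) the complement of the zero set of a holomorphic function -/
def PuncStmt : Prop :=
  ∀ (d : ℕ) (X : Type) [TopologicalSpace X] [ChartedSpace (Cm d) X] [T2Space X]
    (Ω : Set X), WK d Ω → ∀ τ : X → ℂ, HolOn d Ω τ → WK d {x | x ∈ Ω ∧ τ x ≠ 0}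

/-- (RZ) extension across the zero set of a holomorphic function `τ`, which may vanish on some
components of `Ω` -/
def RzStmt : Prop :=
  ∀ (d : ℕ) (X : Type) [TopologicalSpace X] [ChartedSpace (Cm d) X] [IsManifold 𝓘(ℂ, Cm d) ω X]
    [T2Space X] [SigmaCompactSpace X] [MeasurableSpace X] [BorelSpace X]
    (h : Fm d X) (μ : Measure X), IsHermitian h → IsVol h μ →
    ∀ (κ : Type) (M : LineBundle d X κ) (ρ : κ → X → ℝ), IsMetric M ρ →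
    ∀ Ω : Set X, IsOpen Ω → ∀ τ : X → ℂ, HolOn d Ω τ →
    ∀ G G₀, SecOn M {x | x ∈ Ω ∧ τ x ≠ 0} G → nsq μ M ρ {x | x ∈ Ω ∧ τ x ≠ 0} G ≠ ⊤ →
    SecOn M {x | x ∈ Ω ∧ ∀ᶠ y in 𝓝 x, τ y = 0} G₀ →
    ∃ F, SecOn M Ω F ∧ EqS M {x | x ∈ Ω ∧ τ x ≠ 0} F G ∧
      EqS M {x | x ∈ Ω ∧ ∀ᶠ y in 𝓝 x, τ y = 0} F G₀ ∧
      nsq μ M ρ Ω F ≤ nsq μ M ρ {x | x ∈ Ω ∧ τ x ≠ 0} G +
        nsq μ M ρ {x | x ∈ Ω ∧ ∀ᶠ y in 𝓝 x, τ y = 0} G₀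

/-- (WT) the data of the `∂̄` problem: the section `χ(f) g`, the weight `|f - c|²` and the bound
`|dχ(f)|² |g|²` -/
def WtStmt : Prop :=
  ∀ (d : ℕ) (X : Type) [TopologicalSpace X] [ChartedSpace (Cm d) X]
    (κ : Type) (M : LineBundle d X κ) (ρ : κ → X → ℝ), IsMetric M ρ →
    ∀ Ω Ω' : Set X, IsOpen Ω → IsOpen Ω' → Ω ⊆ Ω' → ∀ f : X → ℂ, HolOn d Ω' f →
    ∀ χ : ℂ → ℝ, ContDiff ℝ ∞ χ → (∀ x ∈ Ω', x ∉ Ω → f x ∉ tsupport χ) →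
    ∀ g, SecOn M Ω g → ∀ Θ : Fm d X, PSDOn Ω' Θ → ∀ c : ℂ,
    ScOn M Ω' (fun i x => (χ (f x) : ℂ) * g i x) ∧
    SmOn (d := d) Ω' (fun x => ‖f x - c‖ ^ 2) ∧
    (PSDOn Ω' fun e z => Θ e z + ddc (fun x => ‖f x - c‖ ^ 2) e z) ∧
    ContinuousOn (fun x => ‖fderiv ℝ χ (f x)‖ ^ 2 * nrm M ρ g x) Ω' ∧
    DbarOn Ω' M ρ (fun i x => (χ (f x) : ℂ) * g i x)
      (fun x => ‖fderiv ℝ χ (f x)‖ ^ 2 * nrm M ρ g x)
      fun e z => Θ e z + ddc (fun x => ‖f x - c‖ ^ 2) e z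

/-- (STEP) division in one variable: `g = F + (f - y) G`, `F` defined on the larger set -/
def StepStmt : Prop :=
  ∀ (d : ℕ) (X : Type) [TopologicalSpace X] [ChartedSpace (Cm d) X] [IsManifold 𝓘(ℂ, Cm d) ω X]
    [T2Space X] [SigmaCompactSpace X] [MeasurableSpace X] [BorelSpace X]
    (h : Fm d X) (μ : Measure X), IsHermitian h → IsVol h μ →
    ∀ (κ : Type) (M : LineBundle d X κ) (ρ : κ → X → ℝ), IsMetric M ρ →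
    ∀ (c : ℂ) (a r T : ℝ), 0 ≤ a → a < r → ∃ C : ℝ≥0∞, C ≠ ⊤ ∧
    ∀ Ω' : Set X, WK d Ω' → (PSDOn Ω' fun e z => curvature M ρ e z - kc h e z) →
    ∀ f : X → ℂ, HolOn d Ω' f → (∀ x ∈ Ω', ‖f x - c‖ ≤ T) →
    ∀ y : ℂ, ‖y - c‖ ≤ a → ∀ g, SecOn M {x | x ∈ Ω' ∧ ‖f x - c‖ < r} g →
      nsq μ M ρ {x | x ∈ Ω' ∧ ‖f x - c‖ < r} g ≠ ⊤ →
      ∃ F G, SecOn M Ω' F ∧ SecOn M {x | x ∈ Ω' ∧ ‖f x - c‖ < r} G ∧
        EqS M {x | x ∈ Ω' ∧ ‖f x - c‖ < r} g (F + fun i x => (f x - y) * G i x) ∧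
        nsq μ M ρ Ω' F ≤ C * nsq μ M ρ {x | x ∈ Ω' ∧ ‖f x - c‖ < r} g ∧
        nsq μ M ρ {x | x ∈ Ω' ∧ ‖f x - c‖ < r} G ≤ C * nsq μ M ρ {x | x ∈ Ω' ∧ ‖f x - c‖ < r} g

/-- (CHAIN) division in all variables, from a polydisc to a larger one -/
def ChainStmt : Prop :=
  ∀ (d : ℕ) (X : Type) [TopologicalSpace X] [ChartedSpace (Cm d) X] [IsManifold 𝓘(ℂ, Cm d) ω X]
    [T2Space X] [SigmaCompactSpace X] [MeasurableSpace X] [BorelSpace X]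
    (h : Fm d X) (μ : Measure X), IsHermitian h → IsVol h μ →
    ∀ (κ : Type) (M : LineBundle d X κ) (ρ : κ → X → ℝ), IsMetric M ρ →
    ∀ (N : ℕ) (B : PB d X N) (w : Fm d X), KahOn (B.tube B.c B.R) w →
    (PSDOn (B.tube B.c B.R) fun e z => curvature M ρ e z - kc h e z) →
    ∀ (c c' : Cm N) (a r r' : ℝ), 0 ≤ a → a < r → ‖c - c'‖ + r ≤ r' → ‖c' - B.c‖ + r' < B.R →
    ∃ C : ℝ≥0∞, C ≠ ⊤ ∧ ∀ y : Cm N, ‖y - c‖ ≤ a → ∀ g, SecOn M (B.tube c r) g →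
      nsq μ M ρ (B.tube c r) g ≠ ⊤ →
      ∃ (F : κ → X → ℂ) (G : Fin N → κ → X → ℂ), SecOn M (B.tube c' r') F ∧
        (∀ k, SecOn M (B.tube c r) (G k)) ∧ EqS M (B.tube c r) g (F + ∑ k, B.mul y k (G k)) ∧
        nsq μ M ρ (B.tube c' r') F ≤ C * nsq μ M ρ (B.tube c r) g ∧
        ∀ k, nsq μ M ρ (B.tube c r) (G k) ≤ C * nsq μ M ρ (B.tube c r) g

/-- (CPT) the restriction to a relatively compact open set is a compact map -/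
def CptStmt : Prop :=
  ∀ (d : ℕ) (X : Type) [TopologicalSpace X] [ChartedSpace (Cm d) X] [IsManifold 𝓘(ℂ, Cm d) ω X]
    [T2Space X] [SigmaCompactSpace X] [MeasurableSpace X] [BorelSpace X]
    (h : Fm d X) (μ : Measure X), IsHermitian h → IsVol h μ →
    ∀ (κ : Type) (M : LineBundle d X κ) (ρ : κ → X → ℝ), IsMetric M ρ →
    ∀ Ω K Ω' : Set X, IsOpen Ω → IsCompact K → IsOpen Ω' → Ω ⊆ K → K ⊆ Ω' →
    ∀ η : ℝ≥0∞, η ≠ 0 → ∃ (n : ℕ) (e : Fin n → κ → X → ℂ), (∀ j, SecOn M Ω' (e j)) ∧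
      ∀ F, SecOn M Ω' F → nsq μ M ρ Ω' F ≠ ⊤ → ∃ a : Fin n → ℂ, ‖a‖ₑ ^ 2 ≤ nsq μ M ρ Ω' F ∧
        nsq μ M ρ Ω (F - ∑ j, a j • e j) ≤ η * nsq μ M ρ Ω' F

/-- (AMP) the rest can be made as small as we like -/
def AmpStmt : Prop :=
  ∀ (d : ℕ) (X : Type) [TopologicalSpace X] [ChartedSpace (Cm d) X]
    [MeasurableSpace X] [BorelSpace X] (μ : Measure X)
    (κ : Type) (M : LineBundle d X κ) (ρ : κ → X → ℝ), IsMetric M ρ →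
    ∀ (N : ℕ) (B : PB d X N) (y : Cm N) (Ω : Set X), IsOpen Ω →
    ∀ (n : ℕ) (e : Fin n → κ → X → ℂ) (C : ℝ≥0∞), C ≠ ⊤ → DivR μ M ρ B y Ω e C 2⁻¹ →
    ∀ η : ℝ≥0∞, η ≠ 0 → ∃ C' : ℝ≥0∞, C' ≠ ⊤ ∧ DivR μ M ρ B y Ω e C' η

/-- (ITER) the power series expansion -/
def IterStmt : Prop :=
  ∀ (d : ℕ) (X : Type) [TopologicalSpace X] [ChartedSpace (Cm d) X]
    [MeasurableSpace X] [BorelSpace X] (μ : Measure X) [μ.IsOpenPosMeasure]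
    (κ : Type) (M : LineBundle d X κ) (ρ : κ → X → ℝ), IsMetric M ρ →
    ∀ (N : ℕ) (B : PB d X N) (y : Cm N) (δ : ℝ), 0 < δ →
    ∀ (n : ℕ) (e : Fin n → κ → X → ℂ), (∀ j, SecOn M (B.tube y δ) (e j)) →
    ∀ C : ℝ≥0∞, C ≠ ⊤ → DivR μ M ρ B y (B.tube y δ) e C (4 * ((N : ℝ≥0∞) + 1))⁻¹ →
    ∃ δ' : ℝ, 0 < δ' ∧ δ' ≤ δ ∧ ∀ g, SecOn M (B.tube y δ) g → nsq μ M ρ (B.tube y δ) g ≠ ⊤ →
      ∃ a : Fin n → Cm N → ℂ, (∀ j, AnalyticOnNhd ℂ (a j) (ball y δ')) ∧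
        ∀ i x, x ∈ M.U i → x ∈ B.tube y δ' → g i x = ∑ j, a j (B.t x) * e j i x

/-- (CUT) extension of a weight -/
def CutStmt : Prop :=
  ∀ (d : ℕ) (X : Type) [TopologicalSpace X] [ChartedSpace (Cm d) X] [T2Space X]
    (N : ℕ) (B : PB d X N) (Ψ : X → ℝ), SmOn (d := d) (B.tube B.c B.R) Ψ → ∀ R' : ℝ, R' < B.R →
    ∃ Ψ' : X → ℝ, Smooth (d := d) Ψ' ∧ ∀ x ∈ B.tube B.c R', Ψ' x = Ψ x

/-- **COH1**: the direct image of an adjoint bundle `K + (semipositive)` is of finite type -/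
def Coh1Stmt : Prop :=
  ∀ (d : ℕ) (X : Type) [TopologicalSpace X] [ChartedSpace (Cm d) X] [IsManifold 𝓘(ℂ, Cm d) ω X]
    [T2Space X] [SigmaCompactSpace X] (h : Fm d X), IsHermitian h →
    ∀ (κ : Type) (M : LineBundle d X κ) (ρ : κ → X → ℝ), IsMetric M ρ →
    ∀ (N : ℕ) (B : PB d X N) (w : Fm d X), KahOn (B.tube B.c B.R) w →
    ∀ Ψ : X → ℝ, SmOn (d := d) (B.tube B.c B.R) Ψ →
    (PSDOn (B.tube B.c B.R) fun e z => curvature M ρ e z - kc h e z + ddc Ψ e z) →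
    ∀ a R' : ℝ, a < R' → R' < B.R → ∃ (n : ℕ) (e : Fin n → κ → X → ℂ),
      (∀ j, SecOn M (B.tube B.c R') (e j)) ∧ ∀ y ∈ ball B.c a, B.GenAt M e y

end Vale.Agent.P277Z.C1
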